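import Vale.Agent.P182.H55.NullB

/-!
# The good parameters
-/

namespace Vale.Agent.P182.H55

open Module Filter Vale.Agent.P182.H533 Vale.Agent.P182.B1 Vale.Agent.P182.H578
  Vale.Agent.P182.H922

universe u v w

section gen

variable {L V : Type*} [Field L] [AddCommGroup V] [Module L V] {q : V →ₗ[L] V →ₗ[L] L}
  {ι : Type*} {S : ι → End L V}

/-- a stable subspace which contains the stable image up to its radical contains it -/
theorem W_le_of (hq : IsForm q) (hS : ∀ s, IsSA q (S s)) (C : Core q S) {A : Submodule L V}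
    (hA : ∀ s, ∀ v ∈ A, S s v ∈ A) (h : C.W ≤ A ⊔ perp q C.W) : C.W ≤ A := by
  have key : ∀ j i, i + j = C.N → C.W ≤ A ⊔ perp q (words S i) := by
    intro j
    induction j with
    | zero =>
      intro i hi
      rw [add_zero] at hi
      rw [hi, ← C.hN]
      exact h
    | succ j ih =>
      intro i hi
      have h1 := ih (i + 1) (by omega)
      conv_lhs => rw [← C.hW]
      refine iSup_le fun s => ?_
      rintro _ ⟨w, hw, rfl⟩
      obtain ⟨a, ha, b, hb, rfl⟩ := Submodule.mem_sup.mp (h1 hw)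
      rw [map_add]
      refine Submodule.add_mem_sup (hA s a ha) ?_
      intro u hu
      rw [hS s]
      exact hb _ (Submodule.mem_iSup_of_mem s (Submodule.mem_map_of_mem hu))
  have h0 := key C.N 0 (by omega)
  have h1 : perp q (words S 0) = ⊥ := by
    rw [eq_bot_iff]
    intro v hv
    exact (Submodule.mem_bot L).mpr (hq.nondeg v fun w => hv w trivial)
  rwa [h1, sup_bot_eq] at h0

end gen

section cfg

variable {L : Type u} {V : Type v} {J : Type w} [Field L] [AddCommGroup V] [Module L V]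
  [FiniteDimensional L V] [Fintype J] [DecidableEq J] {𝒟 : Cfg L V J}

section base

variable (hG : 𝒟.Good) {t t' : J → V} (C : Core 𝒟.q (Res 𝒟 t)) {D : End L C.V1}
  (hI : C.I = ⊥) (ht : Rel 𝒟 t t') (hDs : IsSA C.q1 D)
  (hDc : ∀ s, D * C.S1 hG.form s = C.S1 hG.form s * D)
  (hD : ∀ l, C.P hG.form (t' l) = D (C.P hG.form (t l)))

include hI ht hDs hDc hD

/-- the stable image contains `W` -/
theorem W_le_words {x : L} (hu : IsUnit (1 + x • D)) (n : ℕ) :
    C.W ≤ words (Res 𝒟 (t + x • t')) n := by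
  have h1 := map_Wx hG C hI ht hDs hDc hD hu
  induction n with
  | zero => exact le_top
  | succ n ih =>
    rw [words_succ]
    conv_lhs => rw [← h1]
    exact iSup_mono fun s => Submodule.map_mono ih

/-- **nil**: by maximality, the stable image of `t + x t'` is `W`. -/
theorem nil_of_max {x : L} (hu : IsUnit (1 + x • D))
    (hmax : ∀ C' : Core 𝒟.q (Res 𝒟 (t + x • t')), finrank L C'.V1 ≤ finrank L C.V1) :
    ∃ N, words (Res 𝒟 (t + x • t')) N ≤ C.W := by
  have hq := hG.form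
  have hSA : ∀ s, IsSA 𝒟.q (Res 𝒟 (t + x • t') s) :=
    Sop_SA 𝒟.arm hq (Tt L (t + x • t')) hG.skew
  obtain ⟨C'⟩ := exists_core 𝒟.q (Res 𝒟 (t + x • t'))
  have hWW : C.W ≤ C'.W := by
    rw [C'.hN]
    exact W_le_words hG C hI ht hDs hDc hD hu _
  have hV1 : ∀ v : C.V1, (v : V) ∈ C'.W := fun v => hWW (C.V1_le v.2)
  -- the projection `C.V1 → C'.V1`
  set g : C.V1 →ₗ[L] C'.V1 := C'.P hq ∘ₗ C.V1.subtype with hg
  have hginj : Function.Injective g := by
    rw [← LinearMap.ker_eq_bot, LinearMap.ker_eq_bot']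
    intro v hv
    apply (C.isForm hq).nondeg
    intro w
    have h1 := C'.sub_P_mem_I hq (hV1 v)
    have h2 : C'.P hq (v : V) = 0 := hv
    rw [h2, Submodule.coe_zero, sub_zero] at h1
    exact h1.2 _ (hV1 w)
  have hgsurj : Function.Surjective g := by
    have h1 : finrank L C.V1 = finrank L C'.V1 :=
      le_antisymm (LinearMap.finrank_le_finrank_of_injective hginj) (hmax C')
    exact (LinearMap.injective_iff_surjective_of_finrank_eq_finrank h1).mp hginj
  refine ⟨C'.N, ?_⟩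
  rw [← C'.hN]
  refine W_le_of hq hSA C' (fun s v hv => ?_) fun w hw => ?_
  · exact (compat_tx hG ht x).map_W C s hv
  · obtain ⟨v, hv⟩ := hgsurj (C'.P hq w)
    have h1 := C'.sub_P_mem_I hq hw
    have h2 := C'.sub_P_mem_I hq (hV1 v)
    have h3 : C'.P hq (v : V) = C'.P hq w := hv
    have h4 : w - v ∈ perp 𝒟.q C'.W := by
      have h5 := Submodule.sub_mem _ h1 h2
      rw [h3, sub_sub_sub_cancel_right] at h5
      exact h5.2
    have h6 : (v : V) + (w - v) = w := by abel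
    rw [← h6]
    exact Submodule.add_mem_sup (C.V1_le v.2) h4

/-- the core of `t + x t'` -/
noncomputable def coreY {x : L} (hu : IsUnit (1 + x • D))
    (hn : ∃ N, words (Res 𝒟 (t + x • t')) N ≤ C.W) : Core 𝒟.q (Res 𝒟 (t + x • t')) where
  N := hn.choose
  W := C.W
  hN := le_antisymm (W_le_words hG C hI ht hDs hDc hD hu _) hn.choose_spec
  hW := map_Wx hG C hI ht hDs hDc hD hu
  V1 := C.V1
  sup := C.sup
  disj := C.disj

/-- the operators `(1 + x D)² S_s` are of the same null type -/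
theorem nul_tx {x : L} (hu : IsUnit (1 + x • D)) {p : Fin 3 → ℕ}
    (hp : H89.Nul C.q1 (C.S1 hG.form) p) :
    H89.Nul C.q1 (fun s => (1 + x • D) ^ 2 * C.S1 hG.form s) p := by
  have hcs := fun s => comm_sq hG C hDc x s
  obtain ⟨g, hg⟩ := (hu.pow 2).exists_left_inv
  obtain ⟨g', hg'⟩ := (hu.pow 2).exists_right_inv
  have hker : ∀ s, LinearMap.ker ((1 + x • D) ^ 2 * C.S1 hG.form s) =
      LinearMap.ker (C.S1 hG.form s) := by
    intro s
    ext v
    rw [LinearMap.mem_ker, LinearMap.mem_ker, Module.End.mul_apply]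
    constructor
    · intro h
      have h1 : (g * (1 + x • D) ^ 2 : End L C.V1) (C.S1 hG.form s v) = 0 := by
        rw [Module.End.mul_apply, h, map_zero]
      rw [hg] at h1
      exact h1
    · intro h
      rw [h, map_zero]
  have hs1 : IsSA C.q1 (1 + x • D) := sa_one_add hG C hI ht hDs hDc hD x
  refine ⟨hp.form, fun s u v => ?_, ?_, fun s => ?_, fun s => ?_, ?_, ?_⟩
  · have h2 : ∀ a b, C.q1 (((1 + x • D) ^ 2 : End L C.V1) a) b =
        C.q1 a (((1 + x • D) ^ 2 : End L C.V1) b) := by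
      intro a b
      rw [pow_two, Module.End.mul_apply, Module.End.mul_apply, hs1, hs1]
    have h3 : ((1 + x • D) ^ 2 * C.S1 hG.form s : End L C.V1) v =
        C.S1 hG.form s (((1 + x • D) ^ 2 : End L C.V1) v) := by
      rw [hcs, Module.End.mul_apply]
    show C.q1 (((1 + x • D) ^ 2 * C.S1 hG.form s : End L C.V1) u) v =
      C.q1 u (((1 + x • D) ^ 2 * C.S1 hG.form s : End L C.V1) v)
    rw [h3, Module.End.mul_apply, h2, hp.sa s]
  · rw [← Finset.mul_sum, hp.sum, mul_zero]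
  · have h1 : Commute ((1 + x • D) ^ 2) (C.S1 hG.form s) := hcs s
    show ((1 + x • D) ^ 2 * C.S1 hG.form s) ^ p s = 0
    rw [h1.mul_pow, hp.pow, mul_zero]
  · show _ = p s * finrank L (LinearMap.ker ((1 + x • D) ^ 2 * C.S1 hG.form s))
    rw [hker]
    exact hp.rk s
  · rw [← hp.tot]
    exact Finset.sum_congr rfl fun s _ => by rw [hker]
  · rw [eq_top_iff, ← hp.span]
    refine iSup_mono fun s => ?_
    rintro _ ⟨v, rfl⟩
    refine ⟨g' v, ?_⟩
    show ((1 + x • D) ^ 2 * C.S1 hG.form s : End L C.V1) (g' v) = _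
    rw [hcs, Module.End.mul_apply, ← Module.End.mul_apply ((1 + x • D) ^ 2 : End L C.V1), hg']
    rfl

variable [IsAlgClosed L] [CharZero L]

/-- **central**: by the structure theorem for `t + x t'`. -/
theorem central_of_moves (hV : 𝒟.Versal) {x : L} (hu : IsUnit (1 + x • D))
    (hn : ∃ N, words (Res 𝒟 (t + x • t')) N ≤ C.W) (hx : t + x • t' ∈ 𝒟.K)
    (hm : Moves 𝒟 (t + x • t')) (hN : NullCore C hG.form) (M : End L C.V1)
    (hM : IsSA C.q1 M)
    (hMS : ∀ s, M * ((1 + x • D) ^ 2 * C.S1 hG.form s) = (1 + x • D) ^ 2 * C.S1 hG.form s * M) :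
    M * D = D * M := by
  have hR : H89.RealS C.q1 (fun s => C.res hG.form (Res 𝒟 (t + x • t') s)) :=
    H258.realS_core hG hV hx hm (coreY hG C hI ht hDs hDc hD hu hn)
  simp only [resx_eq hG C hI ht hDs hDc hD] at hR
  obtain ⟨p, hp⟩ := H258.nul_core hG t C hN
  have hstr := H58.structThm _ _ _ p (nul_tx hG C hI ht hDs hDc hD hu hp) hR
  refine comm_of_struct hstr hM hMS hDs (fun s => ?_)
  have h1 : D * (1 + x • D) ^ 2 = (1 + x • D) ^ 2 * D := by
    have h2 : Commute D (1 + x • D) :=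
      (Commute.one_right D).add_right ((Commute.refl D).smul_right x)
    exact (h2.pow_right 2)
  rw [← mul_assoc, h1, mul_assoc, hDc, mul_assoc]

end base

/-! ### the parameters -/

/-- `1 + x D` is invertible for almost all `x` -/
theorem eventually_unit {E : Type*} [AddCommGroup E] [Module L E] [FiniteDimensional L E]
    (D : End L E) : ∀ᶠ x : L in cofinite, IsUnit (1 + x • D) := by
  have hfin : Set.Finite {μ : L | D.HasEigenvalue μ} := Module.End.finite_hasEigenvalue D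
  have h1 : Set.Finite {x : L | D.HasEigenvalue (-x⁻¹)} := by
    refine Set.Finite.preimage (f := fun x : L => -x⁻¹) (fun a _ b _ hab => ?_) hfin
    have : -a⁻¹ = -b⁻¹ := hab
    exact inv_injective (neg_injective this)
  have h2 : ∀ᶠ x : L in cofinite, ¬ D.HasEigenvalue (-x⁻¹) := h1.eventually_cofinite_notMem
  filter_upwards [h2] with x hx
  rw [LinearMap.isUnit_iff_ker_eq_bot, LinearMap.ker_eq_bot']
  intro v hv
  by_contra hv0
  apply hx
  have h3 : v + x • D v = 0 := hv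
  have hx0 : x ≠ 0 := by
    rintro rfl
    rw [zero_smul, add_zero] at h3
    exact hv0 h3
  refine Module.End.hasEigenvalue_of_hasEigenvector (x := v) ⟨?_, hv0⟩
  rw [Module.End.mem_eigenspace_iff]
  have h4 : x • D v = -v := (neg_eq_of_add_eq_zero_right h3).symm
  have h5 : x⁻¹ • (x • D v) = x⁻¹ • (-v) := by rw [h4]
  rw [smul_smul, inv_mul_cancel₀ hx0, one_smul, smul_neg] at h5
  rw [h5, neg_smul]

/-- the derivatives of `t + n t'` span `K` for almost all `n` -/
theorem eventually_moves [CharZero L] {t t' : J → V} (ht : t ∈ 𝒟.K) (ht' : t' ∈ 𝒟.K)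
    (hK : ∀ k ∈ 𝒟.K, ∃ a b : L, k = a • t + b • t') (hm : Moves 𝒟 t) :
    ∀ᶠ x : L in cofinite, (∃ n : ℕ, x = n) → Moves 𝒟 (t + x • t') := by
  obtain ⟨m0, h01, h02, h03⟩ := hm t ht
  obtain ⟨m1, h11, h12, h13⟩ := hm t' ht'
  obtain ⟨a0, b0, e0⟩ := hK _ (H258.isD_K ⟨h01, h02⟩ ht')
  obtain ⟨a1, b1, e1⟩ := hK _ (H258.isD_K ⟨h11, h12⟩ ht')
  have e0' : ∀ l, m0.δ (t' l) = a0 • t l + b0 • t' l := fun l => congrFun e0 l
  have e1' : ∀ l, m1.δ (t' l) = a1 • t l + b1 • t' l := fun l => congrFun e1 l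
  have hf : H250.IsPoly fun x : L => (1 + x * a0) * (1 + x * b1) - x * x * (a1 * b0) :=
    (((H250.IsPoly.const 1).add (H250.IsPoly.id.mul (H250.IsPoly.const a0))).mul
      ((H250.IsPoly.const 1).add (H250.IsPoly.id.mul (H250.IsPoly.const b1)))).sub
      ((H250.IsPoly.id.mul H250.IsPoly.id).mul (H250.IsPoly.const (a1 * b0)))
  have h1 := hf.eventually_ne_zero (a := 0) (by simp)
  filter_upwards [h1] with x hx
  rintro ⟨n, rfl⟩
  set x : L := (n : L) with hxn
  set f : L := (1 + x * a0) * (1 + x * b1) - x * x * (a1 * b0) with hfd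
  have hf0 : f ≠ 0 := hx
  intro z hz
  obtain ⟨α, β, hαβ⟩ := hK z hz
  set c0 : L := (α * (1 + x * b1) - β * (x * a1)) / f with hc0
  set c1 : L := (β * (1 + x * a0) - α * (x * b0)) / f with hc1
  have hD0 : IsD 𝒟 m0 := ⟨h01, h02⟩
  have hD1 : IsD 𝒟 m1 := ⟨h11, h12⟩
  have hD := hD0.ccomb hD1 c0 c1
  refine ⟨_, hD.1, hD.2, fun l => ?_⟩
  rw [ccomb_δ, hαβ]
  simp only [Pi.add_apply, Pi.smul_apply]
  rw [map_add, map_add, m0.smul, m1.smul, h03, h13, e0', e1', H258.conn_nat, H258.conn_nat,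
    zero_smul, zero_add, zero_add]
  have k1 : c0 * (1 + x * a0) + c1 * (x * a1) = α := by
    rw [hc0, hc1]
    field_simp
    rw [hfd]
    ring
  have k2 : c0 * (x * b0) + c1 * (1 + x * b1) = β := by
    rw [hc0, hc1]
    field_simp
    rw [hfd]
    ring
  rw [← k1, ← k2]
  module

variable [IsAlgClosed L] [CharZero L]

/-- **(G)**: infinitely many good parameters. -/
theorem exists_goodL (h : CritN 𝒟) {t : J → V} (ht : MaxCoreC 𝒟 t) (hm : Moves 𝒟 t)
    (C : Core 𝒟.q (Res 𝒟 t)) (hI : C.I = ⊥) {t' : J → V} (ht' : t' ∈ 𝒟.K) {D : End L C.V1}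
    (hDs : IsSA C.q1 D) (hDc : ∀ s, D * C.S1 h.good.form s = C.S1 h.good.form s * D)
    (hD : ∀ l, C.P h.good.form (t' l) = D (C.P h.good.form (t l)))
    (hK : ∀ k ∈ 𝒟.K, ∃ a b : L, k = a • t + b • t') (hN : NullCore C h.good.form) :
    {x : L | GoodL h.good (t' := t') C D x}.Infinite := by
  have h1 := (eventually_unit D).and (eventually_moves ht.1 ht' hK hm)
  have h2 : (Set.range fun n : ℕ => (n : L)).Infinite :=
    Set.infinite_range_of_injective Nat.cast_injective
  have h3 : {x : L | ¬ (IsUnit (1 + x • D) ∧ ((∃ n : ℕ, x = n) → Moves 𝒟 (t + x • t')))}.Finite :=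
    h1
  have hrel := Rel_K h.good h.versal ht.1 ht'
  refine (h2.sdiff h3).mono ?_
  rintro x ⟨⟨n, rfl⟩, hx⟩
  have hx' : IsUnit (1 + (n : L) • D) ∧
      ((∃ m : ℕ, (n : L) = m) → Moves 𝒟 (t + (n : L) • t')) := by
    by_contra hcon
    exact hx hcon
  obtain ⟨hu, hmx⟩ := hx'
  have hxK : t + (n : L) • t' ∈ 𝒟.K :=
    Submodule.add_mem _ ht.1 (Submodule.smul_mem _ _ ht')
  have hnil := nil_of_max h.good C hI hrel hDs hDc hD hu fun C' => ht.2 _ hxK C C'
  exact ⟨hu, central_of_moves h.good C hI hrel hDs hDc hD h.versal hu hnil hxK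
    (hmx ⟨n, rfl⟩) hN, hnil⟩

/-- **The honest null case does not occur.** -/
theorem not_null_honest (h : CritN 𝒟) {t : J → V} (ht : MaxCoreC 𝒟 t) (hm : Moves 𝒟 t)
    (C : Core 𝒟.q (Res 𝒟 t)) (hI : C.I = ⊥) {t' : J → V} (ht' : t' ∈ 𝒟.K) {D : End L C.V1}
    (hDs : IsSA C.q1 D)
    (hD1 : ∀ s, C.res h.good.form (opr 𝒟.q (Tt L t) (Gm 𝒟.arm 𝒟.Ω s) (Tt L t')) =
      C.S1 h.good.form s * D)
    (hD2 : ∀ s, C.res h.good.form (opr 𝒟.q (Tt L t) (Gm 𝒟.arm 𝒟.Ω s) (Tt L t')) =
      D * C.S1 h.good.form s)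
    (he : ∃ a b : L, a ≠ b ∧ D.HasEigenvalue a ∧ D.HasEigenvalue b) :
    ¬ NullCore C h.good.form := by
  intro hN
  have hrel := Rel_K h.good h.versal ht.1 ht'
  exact null_honest_crit' h ht hm C hI ht' hDs hD1 hD2 he
    (exists_goodL h ht hm C hI ht' hDs (fun s => by rw [← hD2, ← hD1])
      (P_of_D h.good hrel C hI hD1) (span_of_D h.good h.dim ht.1 ht' C hD1 he) hN)
    (fun x hx => hx) hN

end cfg

end Vale.Agent.P182.H55
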