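import Vale.Agent.P182.H55.NullG
import Vale.Agent.P182.H578.NullLU
import Vale.Agent.P182.H578.GenU
import Vale.Agent.P182.H578.RealRS

/-!
# The honest null case in the common context (versal and special configurations)
-/

namespace Vale.Agent.P182.H55

open Module Filter Vale.Agent.P182.H533 Vale.Agent.P182.B1 Vale.Agent.P182.H578
  Vale.Agent.P182.H922 Vale.Agent.P182.H588

universe u v w

variable {L : Type u} {V : Type v} {J : Type w} [Field L] [AddCommGroup V] [Module L V]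
  [FiniteDimensional L V] [Fintype J] [DecidableEq J] {𝒟 : Cfg L V J} {u : J → L}

/-- `K` is spanned by `t` and `t'` -/
theorem span_of_DU (hG : 𝒟.Good) (K : Submodule L (J → V)) (hd : finrank L K = 2)
    {t t' : J → V} (ht : t ∈ K) (ht' : t' ∈ K) (C : Core 𝒟.q (Res 𝒟 t)) {D : End L C.V1}
    (hD1 : ∀ s, C.res hG.form (opr 𝒟.q (Tt L t) (Gm 𝒟.arm 𝒟.Ω s) (Tt L t')) =
      C.S1 hG.form s * D)
    (he : ∃ a b : L, a ≠ b ∧ D.HasEigenvalue a ∧ D.HasEigenvalue b) :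
    ∀ k ∈ K, ∃ a b : L, k = a • t + b • t' := by
  obtain ⟨a, b, hab, ha, hb⟩ := he
  -- `t'` is not a multiple of `t`
  have key : ∀ c : L, t' ≠ c • t := by
    intro c hc
    have hDc : D = c • (1 : End L C.V1) := by
      refine eq_of_S1_mul hG C fun s => ?_
      rw [← hD1, hc, Tt_smul, opr_smul_right, C.res_smul, mul_smul_comm, mul_one]
      exact congrArg (c • ·) (C.res_S hG.form s)
    have h4 : ∀ e : L, D.HasEigenvalue e → e = c := by
      intro e he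
      obtain ⟨v, hv⟩ := he.exists_hasEigenvector
      have h5 := hv.apply_eq_smul
      rw [hDc, LinearMap.smul_apply, Module.End.one_apply] at h5
      have h6 : (e - c) • v = 0 := by rw [sub_smul, ← h5, sub_self]
      exact sub_eq_zero.mp ((smul_eq_zero.mp h6).resolve_right hv.2)
    exact hab ((h4 a ha).trans (h4 b hb).symm)
  have ht0 : t ≠ 0 := by
    rintro rfl
    -- then the core is trivial, but `D` has an eigenvector
    obtain ⟨v, hv⟩ := ha.exists_hasEigenvector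
    apply hv.2
    have h1 : ∀ s, C.S1 hG.form s = 0 := by
      intro s
      refine LinearMap.ext fun w => ?_
      rw [C.S1_apply]
      have h2 : Res 𝒟 (0 : J → V) s (w : V) = 0 := by
        have h3 : Tt L (0 : J → V) = 0 := LinearMap.ext fun x => by simp [Tt_apply]
        show opr 𝒟.q (Tt L (0 : J → V)) (Gm 𝒟.arm 𝒟.Ω s) (Tt L (0 : J → V)) (w : V) = 0
        rw [h3]
        have h4 := opr_smul_right 𝒟.q (0 : (J → L) →ₗ[L] V) (Gm 𝒟.arm 𝒟.Ω s) (0 : L)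
          (0 : (J → L) →ₗ[L] V)
        rw [zero_smul, zero_smul] at h4
        rw [h4, LinearMap.zero_apply]
      rw [h2, map_zero, LinearMap.zero_apply]
    have h5 : D = 0 := eq_of_S1_mul hG C fun s => by rw [h1, zero_mul, zero_mul]
    have h6 : (1 : End L C.V1) = 0 := eq_of_S1_mul hG C fun s => by rw [h1, zero_mul, zero_mul]
    have h7 : (1 : End L C.V1) v = 0 := by rw [h6]; rfl
    simpa using h7
  -- the two elements are a basis
  have hli : LinearIndependent L ![(⟨t, ht⟩ : K), ⟨t', ht'⟩] := by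
    rw [LinearIndependent.pair_iff]
    intro x y hxy
    have h1 : x • t + y • t' = 0 := congrArg Subtype.val hxy
    have hy : y = 0 := by
      by_contra hy
      apply key (-(y⁻¹ * x))
      have h2 : y⁻¹ • (x • t + y • t') = 0 := by rw [h1, smul_zero]
      rw [smul_add, smul_smul, smul_smul, inv_mul_cancel₀ hy, one_smul] at h2
      rw [neg_smul]
      exact (neg_eq_of_add_eq_zero_right h2).symm
    rw [hy, zero_smul, add_zero] at h1
    exact ⟨(smul_eq_zero.mp h1).resolve_right ht0, hy⟩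
  intro k hk
  have hspan := hli.span_eq_top_of_card_eq_finrank' (by rw [hd]; simp)
  have h1 : (⟨k, hk⟩ : K) ∈ Submodule.span L (Set.range ![(⟨t, ht⟩ : K), ⟨t', ht'⟩]) := by
    rw [hspan]; trivial
  rw [Matrix.range_cons_cons_empty, Submodule.mem_span_pair] at h1
  obtain ⟨x, y, hxy⟩ := h1
  exact ⟨x, y, (congrArg Subtype.val hxy).symm⟩

/-- the derivatives of `t + n t'` span `K` for almost all `n` -/
theorem eventually_movesU [CharZero L] (K : Submodule L (J → V))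
    (hKD : ∀ c : H533.Conn 𝒟.q, IsD 𝒟 c → ∀ z ∈ K, (fun l => c.δ (z l)) ∈ K)
    {t t' : J → V} (ht : t ∈ K) (ht' : t' ∈ K)
    (hK : ∀ k ∈ K, ∃ a b : L, k = a • t + b • t')
    (hm : ∀ z ∈ K, ∃ n : H533.Conn 𝒟.q, (∀ s i, ∀ f ∈ 𝒟.F s i, n.δ f ∈ 𝒟.F s i) ∧
      (∀ l k, n.d (𝒟.Ω l k) = 0) ∧ ∀ l, n.δ (t l) = z l) :
    ∀ᶠ x : L in cofinite, (∃ n : ℕ, x = n) → ∀ z ∈ K, ∃ n : H533.Conn 𝒟.q,
      (∀ s i, ∀ f ∈ 𝒟.F s i, n.δ f ∈ 𝒟.F s i) ∧
      (∀ l k, n.d (𝒟.Ω l k) = 0) ∧ ∀ l, n.δ ((t + x • t') l) = z l := by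
  obtain ⟨m0, h01, h02, h03⟩ := hm t ht
  obtain ⟨m1, h11, h12, h13⟩ := hm t' ht'
  obtain ⟨a0, b0, e0⟩ := hK _ (hKD _ ⟨h01, h02⟩ _ ht')
  obtain ⟨a1, b1, e1⟩ := hK _ (hKD _ ⟨h11, h12⟩ _ ht')
  have e0' : ∀ l, m0.δ (t' l) = a0 • t l + b0 • t' l := fun l => congrFun e0 l
  have e1' : ∀ l, m1.δ (t' l) = a1 • t l + b1 • t' l := fun l => congrFun e1 l
  have hf : H250.IsPoly fun x : L => (1 + x * a0) * (1 + x * b1) - x * x * (a1 * b0) :=
    (((H250.IsPoly.const 1).add (H250.IsPoly.id.mul (H250.IsPoly.const a0))).mul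
      ((H250.IsPoly.const 1).add (H250.IsPoly.id.mul (H250.IsPoly.const b1)))).sub
      ((H250.IsPoly.id.mul H250.IsPoly.id).mul (H250.IsPoly.const (a1 * b0)))
  have h1 := hf.eventually_ne_zero (a := 0) (by simp)
  filter_upwards [h1] with x hx
  rintro ⟨n, rfl⟩
  set x : L := (n : L) with hxn
  set f : L := (1 + x * a0) * (1 + x * b1) - x * x * (a1 * b0) with hfd
  have hf0 : f ≠ 0 := hx
  intro z hz
  obtain ⟨α, β, hαβ⟩ := hK z hz
  set c0 : L := (α * (1 + x * b1) - β * (x * a1)) / f with hc0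
  set c1 : L := (β * (1 + x * a0) - α * (x * b0)) / f with hc1
  have hD0 : IsD 𝒟 m0 := ⟨h01, h02⟩
  have hD1 : IsD 𝒟 m1 := ⟨h11, h12⟩
  have hD := hD0.ccomb hD1 c0 c1
  refine ⟨_, hD.1, hD.2, fun l => ?_⟩
  rw [ccomb_δ, hαβ]
  simp only [Pi.add_apply, Pi.smul_apply]
  rw [map_add, map_add, m0.smul, m1.smul, h03, h13, e0', e1', H258.conn_nat, H258.conn_nat,
    zero_smul, zero_add, zero_add]
  have k1 : c0 * (1 + x * a0) + c1 * (x * a1) = α := by
    rw [hc0, hc1]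
    field_simp
    rw [hfd]
    ring
  have k2 : c0 * (x * b0) + c1 * (1 + x * b1) = β := by
    rw [hc0, hc1]
    field_simp
    rw [hfd]
    ring
  rw [← k1, ← k2]
  module


/-- **central**, from exact realisation at `t + x t'`. -/
theorem central_of_realS [IsAlgClosed L] [CharZero L] (hG : 𝒟.Good) {t t' : J → V}
    (C : Core 𝒟.q (Res 𝒟 t)) {D : End L C.V1}
    (hI : C.I = ⊥) (ht : Rel 𝒟 t t') (hDs : IsSA C.q1 D)
    (hDc : ∀ s, D * C.S1 hG.form s = C.S1 hG.form s * D)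
    (hD : ∀ l, C.P hG.form (t' l) = D (C.P hG.form (t l))) {x : L} (hu : IsUnit (1 + x • D))
    (hn : ∃ N, words (Res 𝒟 (t + x • t')) N ≤ C.W)
    (hm : ∀ C' : Core 𝒟.q (Res 𝒟 (t + x • t')), H89.RealS C'.q1 (C'.S1 hG.form))
    (hN : NullCore C hG.form) (M : End L C.V1)
    (hM : IsSA C.q1 M)
    (hMS : ∀ s, M * ((1 + x • D) ^ 2 * C.S1 hG.form s) = (1 + x • D) ^ 2 * C.S1 hG.form s * M) :
    M * D = D * M := by
  have hR : H89.RealS C.q1 (fun s => C.res hG.form (Res 𝒟 (t + x • t') s)) :=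
    hm (coreY hG C hI ht hDs hDc hD hu hn)
  simp only [resx_eq hG C hI ht hDs hDc hD] at hR
  obtain ⟨p, hp⟩ := H258.nul_core hG t C hN
  have hstr := H58.structThm _ _ _ p (nul_tx hG C hI ht hDs hDc hD hu hp) hR
  refine comm_of_struct hstr hM hMS hDs (fun s => ?_)
  have h1 : D * (1 + x • D) ^ 2 = (1 + x • D) ^ 2 * D := by
    have h2 : Commute D (1 + x • D) :=
      (Commute.one_right D).add_right ((Commute.refl D).smul_right x)
    exact (h2.pow_right 2)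
  rw [← mul_assoc, h1, mul_assoc, hDc, mul_assoc]

/-- **The honest null case is impossible**, common context. -/
theorem null_honestU [CharZero L] (hC : Ctx 𝒟 u) {σ : J → L} (hR : RealU 𝒟 u σ)
    {t t' : J → V} (ht : t ∈ Ku 𝒟 u) (ht' : t' ∈ Ku 𝒟 u)
    (C : Core 𝒟.q (Res 𝒟 t)) (hI : C.I = ⊥) {D : End L C.V1}
    (hDs : IsSA C.q1 D) (hDc : ∀ s, D * C.S1 hC.good.form s = C.S1 hC.good.form s * D)
    (hD : ∀ l, C.P hC.good.form (t' l) = D (C.P hC.good.form (t l)))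
    (he : ∃ a b : L, a ≠ b ∧ D.HasEigenvalue a ∧ D.HasEigenvalue b)
    (hN : NullCore C hC.good.form) (hK : ∀ k ∈ Ku 𝒟 u, ∃ a b : L, k = a • t + b • t')
    (hS : H89.StructS C.q1 (C.S1 hC.good.form))
    {X : Set L} (hX : X.Infinite) (hXg : ∀ x ∈ X, GoodL hC.good (t' := t') C D x) : False := by
  have hrel : Rel 𝒟 t t' := U.rel_of_krel hC.krel ht ht'
  have hS' := hS
  obtain ⟨⟨m, e, hes, hec, hem, he1, hspan⟩, -⟩ := hS
  obtain ⟨κ, hκ⟩ := hspan D hDs hDc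
  obtain ⟨n, P, d, hPS, hPc, hPP, hP1, hP0, hd, hDP⟩ := group_idem hes hec hem he1 hκ
  obtain ⟨a, b, hab, ha, hb⟩ := he
  have hnt := nontrivial_of_two_eig hP1 hDP hab ha hb
  have hXd : ∀ x ∈ X, ∀ i, 1 + x * d i ≠ 0 := by
    intro x hx i h0
    have hu := (hXg x hx).unit
    have h1 : (1 + x • D) * P i = 0 := by
      have h3 : D * P i = d i • P i := by
        rw [hDP, Finset.sum_mul, Finset.sum_eq_single i]
        · rw [smul_mul_assoc, hPP, if_pos rfl]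
        · intro j _ hj
          rw [smul_mul_assoc, hPP, if_neg hj, smul_zero]
        · intro h
          exact absurd (Finset.mem_univ i) h
      rw [add_mul, one_mul, smul_mul_assoc, h3, smul_smul]
      have h4 : P i + (x * d i) • P i = (1 + x * d i) • P i := by rw [add_smul, one_smul]
      rw [h4, h0, zero_smul]
    exact hP0 i ((hu.mul_right_eq_zero).mp h1)
  obtain ⟨p, hp, hfree, hsum⟩ := hN
  have hSA : ∀ s, IsSA C.q1 (C.S1 hC.good.form s) := fun s =>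
    C.S1_SA hC.good.form (Sop_SA 𝒟.arm hC.good.form (Tt L t) hC.good.skew) s
  refine null_end (C.isForm hC.good.form) two_ne_zero hSA hp hfree hsum
    (three_lt_of_two_eig hp hfree hsum hDc hab ha hb) (H := U.HHU hC.good u C) ?_
    fun h hh => U.HHU_end hC C hDs hD ht.2 hK hh
  intro s h hh
  refine H388.abs two_ne_zero (C.isForm hC.good.form) (hSA s) (hp s) (hfree s) P hPS
    (fun i => by rw [hPP, if_pos rfl]) (fun i j hij => by rw [hPP, if_neg hij]) hP1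
    (fun i => hPc i s) hP0 d hd hDP (U.HHU hC.good u C s) X hX hXd
    (fun x hx β hβ hc => U.mem_HHU hC C hI hrel hDs hDc hD (hXg x hx)
      (Submodule.add_mem _ ht (Submodule.smul_mem _ _ ht')) s hβ hc)
    (fun hH x hx Y Y' hY hYo hYc hYY h hho hhf =>
      U.der_HHU hC.good hC.krel hR hI ht ht' hK ⟨fun i => by rw [hPP, if_pos rfl],
        fun i j hij => by rw [hPP, if_neg hij], hP1, hd, hDP⟩ hPS hPc hD
        (fun M hM hMS => comm_of_struct hS' hM hMS hDs hDc) (hXg x hx) s hH hY hYo hYc hYY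
        hho hhf)
    h hh

/-- **The honest null case does not occur**, common context. -/
theorem not_null_honestU [IsAlgClosed L] [CharZero L] (h : CritU 𝒟 u) {σ : J → L}
    (hR : RealU 𝒟 u σ)
    (hRS : ∀ t : J → V, t ∈ Ku 𝒟 u → MovesU 𝒟 u t → ∀ C : Core 𝒟.q (Res 𝒟 t),
      H89.RealS C.q1 (C.S1 h.ctx.good.form))
    {t : J → V} (ht : MaxCoreU 𝒟 u t) (hm : MovesU 𝒟 u t)
    (C : Core 𝒟.q (Res 𝒟 t)) (hI : C.I = ⊥) {t' : J → V} (ht' : t' ∈ Ku 𝒟 u)
    {D : End L C.V1} (hDs : IsSA C.q1 D)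
    (hD1 : ∀ s, C.res h.ctx.good.form (opr 𝒟.q (Tt L t) (Gm 𝒟.arm 𝒟.Ω s) (Tt L t')) =
      C.S1 h.ctx.good.form s * D)
    (hD2 : ∀ s, C.res h.ctx.good.form (opr 𝒟.q (Tt L t) (Gm 𝒟.arm 𝒟.Ω s) (Tt L t')) =
      D * C.S1 h.ctx.good.form s)
    (he : ∃ a b : L, a ≠ b ∧ D.HasEigenvalue a ∧ D.HasEigenvalue b) :
    ¬ NullCore C h.ctx.good.form := by
  intro hN
  have hC := h.ctx
  have hG := hC.good
  have hrel : Rel 𝒟 t t' := U.rel_of_krel hC.krel ht.1 ht'
  have hDc : ∀ s, D * C.S1 hG.form s = C.S1 hG.form s * D := fun s => by rw [← hD2, ← hD1]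
  have hD : ∀ l, C.P hG.form (t' l) = D (C.P hG.form (t l)) := P_of_D hG hrel C hI hD1
  have hK := span_of_DU hG (Ku 𝒟 u) h.dim ht.1 ht' C hD1 he
  obtain ⟨p, hp⟩ := H258.nul_core hG t C hN
  have hstr := H58.structThm _ _ _ p hp (hRS t ht.1 hm C)
  -- the good parameters
  have h1 := (eventually_unit D).and (eventually_movesU (𝒟 := 𝒟) (Ku 𝒟 u)
    (fun c hc z hz => isD_Ku hR hc hz) ht.1 ht' hK hm)
  have h2 : (Set.range fun n : ℕ => (n : L)).Infinite :=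
    Set.infinite_range_of_injective Nat.cast_injective
  refine null_honestU hC hR ht.1 ht' C hI hDs hDc hD he hN hK hstr (h2.sdiff h1) ?_
  rintro x ⟨⟨n, rfl⟩, hx⟩
  obtain ⟨hu, hmx⟩ := Classical.not_not.mp hx
  have hxK : t + (n : L) • t' ∈ Ku 𝒟 u :=
    Submodule.add_mem _ ht.1 (Submodule.smul_mem _ _ ht')
  have hnil := nil_of_max hG C hI hrel hDs hDc hD hu fun C' => ht.2 _ hxK C C'
  exact ⟨hu, central_of_realS hG C hI hrel hDs hDc hD hu hnil
    (fun C' => hRS _ hxK (hmx ⟨n, rfl⟩) C') hN, hnil⟩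

/-- **The honest null case does not occur**, with the fields of the context. -/
theorem not_null_honestU' [IsAlgClosed L] [CharZero L] (h : CritU 𝒟 u)
    {t : J → V} (ht : MaxCoreU 𝒟 u t) (hm : MovesU 𝒟 u t)
    (C : Core 𝒟.q (Res 𝒟 t)) (hI : C.I = ⊥) {t' : J → V} (ht' : t' ∈ Ku 𝒟 u)
    {D : End L C.V1} (hDs : IsSA C.q1 D)
    (hD1 : ∀ s, C.res h.ctx.good.form (opr 𝒟.q (Tt L t) (Gm 𝒟.arm 𝒟.Ω s) (Tt L t')) =
      C.S1 h.ctx.good.form s * D)
    (hD2 : ∀ s, C.res h.ctx.good.form (opr 𝒟.q (Tt L t) (Gm 𝒟.arm 𝒟.Ω s) (Tt L t')) =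
      D * C.S1 h.ctx.good.form s)
    (he : ∃ a b : L, a ≠ b ∧ D.HasEigenvalue a ∧ D.HasEigenvalue b) :
    ¬ NullCore C h.ctx.good.form := by
  obtain ⟨σ, hR⟩ := h.ctx.real
  exact not_null_honestU h hR h.ctx.realS ht hm C hI ht' hDs hD1 hD2 he

/-- **The glued null case**: the part of `HypNullU` with `C.I ≠ ⊥`. -/
def HypGlueU (L : Type u) (J : Type w) [Field L] [Fintype J] [DecidableEq J] : Prop :=
  ∀ (V : Type v) [AddCommGroup V] [Module L V] [FiniteDimensional L V]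
  (𝒟 : Cfg L V J) (u : J → L) (h : CritU 𝒟 u) (t : J → V), MaxCoreU 𝒟 u t → MovesU 𝒟 u t →
  ∀ C : Core 𝒟.q (Res 𝒟 t), C.I ≠ ⊥ → 0 < finrank L C.V1 → ∀ t' ∈ Ku 𝒟 u,
  ∀ D : End L C.V1, IsSA C.q1 D →
  (∀ s, C.res h.ctx.good.form (opr 𝒟.q (Tt L t) (Gm 𝒟.arm 𝒟.Ω s) (Tt L t')) =
    C.S1 h.ctx.good.form s * D) →
  (∀ s, C.res h.ctx.good.form (opr 𝒟.q (Tt L t) (Gm 𝒟.arm 𝒟.Ω s) (Tt L t')) =
    D * C.S1 h.ctx.good.form s) →
  (∃ a b : L, a ≠ b ∧ D.HasEigenvalue a ∧ D.HasEigenvalue b) → ¬ NullCore C h.ctx.good.form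

/-- the null case from the glued null case -/
theorem hypNullU_of_glue (L : Type u) (J : Type w) [Field L] [Fintype J] [DecidableEq J]
    [IsAlgClosed L] [CharZero L] (h : HypGlueU.{u, v, w} L J) : HypNullU.{u, v, w} L J := by
  intro V _ _ _ 𝒟 u hc t ht hm C h0 t' ht' D hDs hD1 hD2 he
  by_cases hI : C.I = ⊥
  · exact not_null_honestU' hc ht hm C hI ht' hDs hD1 hD2 he
  · exact h V 𝒟 u hc t ht hm C hI h0 t' ht' D hDs hD1 hD2 he

end Vale.Agent.P182.H55
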