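import Vale.Agent.P182.H55.Bil
import Vale.Agent.P182.H922.Adapt

/-!
# NULL-A: three free nilpotent self-adjoint operators with `Σ 1 / p_s = 1`: a nonzero skew
endomorphism preserving all images `range (S_s ^ b)`
-/

namespace Vale.Agent.P182.H55

open Module Vale.Agent.P182.H533 Vale.Agent.P182.H922

section ranks

variable {L V : Type*} [Field L] [AddCommGroup V] [Module L V] [FiniteDimensional L V]

theorem finrank_range_succ (S : End L V) (b : ℕ) :
    finrank L (LinearMap.range (S ^ b)) ≤
      finrank L (LinearMap.range (S ^ (b + 1))) + finrank L (LinearMap.ker S) := by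
  set W := LinearMap.range (S ^ b) with hW
  have h1 := LinearMap.finrank_range_add_finrank_ker (S.domRestrict W)
  have h2 : LinearMap.range (S.domRestrict W) = LinearMap.range (S ^ (b + 1)) := by
    rw [LinearMap.range_domRestrict, hW, pow_succ', Module.End.mul_eq_comp, LinearMap.range_comp]
  have h3 : finrank L (LinearMap.ker (S.domRestrict W)) ≤ finrank L (LinearMap.ker S) := by
    let f : LinearMap.ker (S.domRestrict W) →ₗ[L] LinearMap.ker S :=
      LinearMap.codRestrict _ (W.subtype ∘ₗ (LinearMap.ker (S.domRestrict W)).subtype) fun x => by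
        rw [LinearMap.mem_ker]
        exact x.2
    refine LinearMap.finrank_le_finrank_of_injective (f := f) fun x y hxy => ?_
    have := congrArg Subtype.val hxy
    exact Subtype.ext (Subtype.ext this)
  rw [h2] at h1
  omega

/-- the ranks of the powers of a free nilpotent operator -/
theorem finrank_range_pow (S : End L V) {p m : ℕ} (hp : S ^ p = 0)
    (hm : finrank L (LinearMap.ker S) = m) (hV : finrank L V = p * m) {b : ℕ} (hb : b ≤ p) :
    finrank L (LinearMap.range (S ^ b)) = (p - b) * m := by
  have up : ∀ b, b ≤ p → finrank L V ≤ finrank L (LinearMap.range (S ^ b)) + b * m := by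
    intro b
    induction b with
    | zero =>
      intro _
      rw [pow_zero, Module.End.one_eq_id, LinearMap.range_id, finrank_top]
      omega
    | succ b ih =>
      intro hb
      have h1 := ih (by omega)
      have h2 := finrank_range_succ S b
      rw [hm] at h2
      rw [add_mul, one_mul]
      omega
  have down : ∀ c, c ≤ p → finrank L (LinearMap.range (S ^ (p - c))) ≤ c * m := by
    intro c
    induction c with
    | zero =>
      intro _
      rw [Nat.sub_zero, hp, LinearMap.range_zero, finrank_bot]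
      omega
    | succ c ih =>
      intro hc
      have h1 := ih (by omega)
      have h2 := finrank_range_succ S (p - (c + 1))
      rw [hm, show p - (c + 1) + 1 = p - c by omega] at h2
      rw [add_mul, one_mul]
      omega
  have h1 := up b hb
  have h2 := down (p - b) (Nat.sub_le _ _)
  rw [Nat.sub_sub_self hb] at h2
  have h3 : (p - b) * m + b * m = p * m := by rw [← add_mul, Nat.sub_add_cancel hb]
  omega

theorem perp_range_pow {q : V →ₗ[L] V →ₗ[L] L} (hq : IsForm q) {S : End L V} (hS : IsSA q S)
    {p m : ℕ} (hp : S ^ p = 0) (hm : finrank L (LinearMap.ker S) = m)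
    (hV : finrank L V = p * m) {b : ℕ} (hb : b ≤ p) :
    perp q (LinearMap.range (S ^ b)) = LinearMap.range (S ^ (p - b)) := by
  symm
  apply Submodule.eq_of_le_of_finrank_eq
  · rintro _ ⟨x, rfl⟩ _ ⟨y, rfl⟩
    rw [H89.SA_pow hS, ← Module.End.mul_apply, ← pow_add, Nat.sub_add_cancel hb, hp]
    simp
  · have h1 := H89.finrank_perp hq (LinearMap.range (S ^ b))
    rw [finrank_range_pow S hp hm hV hb] at h1
    rw [finrank_range_pow S hp hm hV (Nat.sub_le _ _), Nat.sub_sub_self hb]
    have h3 : (p - b) * m + b * m = p * m := by rw [← add_mul, Nat.sub_add_cancel hb]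
    omega

end ranks

section levels

/-- the number of pairs `i < j` with `β i + β j ≥ p`, when there are `(p - c) m` indices of level
at least `c` -/
theorem card_pairs {v p m : ℕ} (β : Fin v → ℕ) (hβ : ∀ i, β i < p)
    (hN : ∀ c ≤ p, (Finset.univ.filter fun i => c ≤ β i).card = (p - c) * m) :
    4 * (Finset.univ.filter fun x : Fin v × Fin v => x.1 < x.2 ∧ p ≤ β x.1 + β x.2).card +
      2 * (m * (p / 2)) + m * (p * m) = (p * m) * (p * m) := by
  classical
  set P := Finset.univ.filter fun x : Fin v × Fin v => x.1 < x.2 ∧ p ≤ β x.1 + β x.2 with hP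
  -- all ordered pairs
  set Q := Finset.univ.filter fun x : Fin v × Fin v => p ≤ β x.1 + β x.2 with hQ
  have h1 : Q.card = 2 * P.card + (Finset.univ.filter fun i => p ≤ 2 * β i).card := by
    set P' := Finset.univ.filter fun x : Fin v × Fin v => x.2 < x.1 ∧ p ≤ β x.1 + β x.2 with hP'
    set D := Finset.univ.filter fun x : Fin v × Fin v => x.1 = x.2 ∧ p ≤ β x.1 + β x.2 with hD
    have e1 : Q = (P ∪ P') ∪ D := by
      ext x
      simp only [hQ, hP, hP', hD, Finset.mem_filter, Finset.mem_univ, true_and, Finset.mem_union]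
      constructor
      · intro h
        rcases lt_trichotomy x.1 x.2 with h' | h' | h'
        · exact Or.inl (Or.inl ⟨h', h⟩)
        · exact Or.inr ⟨h', h⟩
        · exact Or.inl (Or.inr ⟨h', h⟩)
      · rintro ((h | h) | h)
        · exact h.2
        · exact h.2
        · exact h.2
    have e2 : Disjoint P P' := by
      rw [Finset.disjoint_left]
      intro x hx hx'
      simp only [hP, hP', Finset.mem_filter] at hx hx'
      exact absurd hx.2.1 (not_lt.2 hx'.2.1.le)
    have e3 : Disjoint (P ∪ P') D := by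
      rw [Finset.disjoint_left]
      intro x hx hx'
      simp only [hP, hP', hD, Finset.mem_filter, Finset.mem_union] at hx hx'
      rcases hx with hx | hx
      · exact absurd hx'.2.1 hx.2.1.ne
      · exact absurd hx'.2.1 hx.2.1.ne'
    have e4 : P'.card = P.card := by
      refine Finset.card_bij (fun x _ => (x.2, x.1)) ?_ ?_ ?_
      · intro x hx
        simp only [hP, hP', Finset.mem_filter, Finset.mem_univ, true_and] at hx ⊢
        exact ⟨hx.1, by omega⟩
      · intro x _ y _ h
        simp only [Prod.mk.injEq] at h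
        exact Prod.ext h.2 h.1
      · intro x hx
        refine ⟨(x.2, x.1), ?_, rfl⟩
        simp only [hP, hP', Finset.mem_filter, Finset.mem_univ, true_and] at hx ⊢
        exact ⟨hx.1, by omega⟩
    have e5 : D.card = (Finset.univ.filter fun i => p ≤ 2 * β i).card := by
      refine Finset.card_bij (fun x _ => x.1) ?_ ?_ ?_
      · intro x hx
        simp only [hD, Finset.mem_filter, Finset.mem_univ, true_and] at hx ⊢
        obtain ⟨h, h'⟩ := hx
        rw [h]
        rw [h] at h'
        omega
      · intro x hx y hy h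
        simp only [hD, Finset.mem_filter] at hx hy
        exact Prod.ext h (by rw [← hx.2.1, ← hy.2.1, h])
      · intro i hi
        refine ⟨(i, i), ?_, rfl⟩
        simp only [hD, Finset.mem_filter, Finset.mem_univ, true_and] at hi ⊢
        omega
    rw [e1, Finset.card_union_of_disjoint e3, Finset.card_union_of_disjoint e2, e4, e5]
    ring
  have h2 : (Finset.univ.filter fun i => p ≤ 2 * β i).card = m * (p / 2) := by
    have e1 : (Finset.univ.filter fun i => p ≤ 2 * β i) =
        Finset.univ.filter fun i => (p + 1) / 2 ≤ β i := by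
      ext i
      simp only [Finset.mem_filter, Finset.mem_univ, true_and]
      omega
    rw [e1]
    rcases Nat.eq_zero_or_pos p with h0 | h0
    · rw [hN _ (by omega), h0]
      simp
    · rw [hN _ (by omega), mul_comm, show p - (p + 1) / 2 = p / 2 by omega]
  have h3 : Q.card = m * ∑ i, β i := by
    have e1 : Q.card = ∑ i, (Finset.univ.filter fun j => p - β i ≤ β j).card := by
      rw [hQ, Finset.card_filter, Fintype.sum_prod_type]
      refine Finset.sum_congr rfl fun i _ => ?_
      rw [Finset.card_filter]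
      refine Finset.sum_congr rfl fun j _ => ?_
      congr 1
      rw [eq_iff_iff]
      have := hβ i
      constructor <;> intro h <;> simp only at * <;> omega
    rw [e1, Finset.mul_sum]
    refine Finset.sum_congr rfl fun i _ => ?_
    rw [hN _ (Nat.sub_le _ _), Nat.sub_sub_self (hβ i).le, mul_comm]
  have h4 : ∑ i, β i = ∑ c ∈ Finset.range p, (p - (c + 1)) * m := by
    have e1 : ∀ i, β i = ∑ c ∈ Finset.range p, if c + 1 ≤ β i then 1 else 0 := by
      intro i
      rw [← Finset.card_filter]
      have : (Finset.range p).filter (fun c => c + 1 ≤ β i) = Finset.range (β i) := by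
        ext c
        simp only [Finset.mem_filter, Finset.mem_range]
        have := hβ i
        omega
      rw [this, Finset.card_range]
    calc ∑ i, β i = ∑ i, ∑ c ∈ Finset.range p, (if c + 1 ≤ β i then 1 else 0) :=
          Finset.sum_congr rfl fun i _ => e1 i
      _ = ∑ c ∈ Finset.range p, ∑ i, (if c + 1 ≤ β i then 1 else 0) := Finset.sum_comm
      _ = _ := by
        refine Finset.sum_congr rfl fun c hc => ?_
        rw [← Finset.card_filter, hN _ (Finset.mem_range.1 hc)]
  have h5 : 2 * ∑ c ∈ Finset.range p, (p - (c + 1)) * m + p * m = p * p * m := by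
    have e1 : ∑ c ∈ Finset.range p, (p - (c + 1)) * m = (∑ c ∈ Finset.range p, c) * m := by
      rw [← Finset.sum_mul, ← Finset.sum_range_reflect]
      congr 1
      refine Finset.sum_congr rfl fun c hc => ?_
      have := Finset.mem_range.1 hc
      omega
    have e2 := Finset.sum_range_id_mul_two p
    rw [e1]
    rcases Nat.eq_zero_or_pos p with h0 | h0
    · simp [h0]
    · obtain ⟨r, rfl⟩ : ∃ r, p = r + 1 := ⟨p - 1, by omega⟩
      rw [Nat.add_sub_cancel] at e2
      calc 2 * ((∑ c ∈ Finset.range (r + 1), c) * m) + (r + 1) * m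
          = ((∑ c ∈ Finset.range (r + 1), c) * 2) * m + (r + 1) * m := by ring
        _ = _ := by rw [e2]; ring
  have h6 : 2 * P.card + m * (p / 2) = m * ∑ c ∈ Finset.range p, (p - (c + 1)) * m := by
    rw [← h2, ← h1, h3, h4]
  calc 4 * P.card + 2 * (m * (p / 2)) + m * (p * m)
      = 2 * (2 * P.card + m * (p / 2)) + m * (p * m) := by ring
    _ = m * (2 * ∑ c ∈ Finset.range p, (p - (c + 1)) * m + p * m) := by rw [h6]; ring
    _ = _ := by rw [h5]; ring

theorem card_lt (v : ℕ) : 2 * Fintype.card {x : Fin v × Fin v // x.1 < x.2} = v * (v - 1) := by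
  classical
  rw [Fintype.card_subtype, Finset.card_filter, Fintype.sum_prod_type_right]
  have h1 : ∀ j : Fin v, (∑ i : Fin v, if i < j then 1 else 0) = (j : ℕ) := fun j => by
    rw [← Finset.card_filter]
    have : (Finset.univ.filter fun i => i < j) = Finset.Iio j := by
      ext i
      simp
    rw [this, Fin.card_Iio]
  simp only [h1]
  rw [Fin.sum_univ_eq_sum_range (fun i => i) v, mul_comm, Finset.sum_range_id_mul_two]

end levels

section main

variable {L V : Type*} [Field L] [AddCommGroup V] [Module L V] [FiniteDimensional L V]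

/-- the skew matrix with given entries above the diagonal -/
def skM (v : ℕ) (L : Type*) [Field L] :
    ({x : Fin v × Fin v // x.1 < x.2} → L) →ₗ[L] Matrix (Fin v) (Fin v) L where
  toFun := fun f => Matrix.of fun i j =>
    if h : i < j then f ⟨(i, j), h⟩ else if h' : j < i then - f ⟨(j, i), h'⟩ else 0
  map_add' := fun f g => by
    ext i j
    simp only [Matrix.of_apply, Matrix.add_apply, Pi.add_apply]
    split_ifs <;> ring
  map_smul' := fun a f => by
    ext i j
    simp only [Matrix.of_apply, Matrix.smul_apply, Pi.smul_apply, RingHom.id_apply, smul_eq_mul]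
    split_ifs <;> ring

theorem skM_apply {v : ℕ} (f : {x : Fin v × Fin v // x.1 < x.2} → L) (i j : Fin v) :
    skM v L f i j = if h : i < j then f ⟨(i, j), h⟩ else if h' : j < i then - f ⟨(j, i), h'⟩
    else 0 := rfl

/-- fewer conditions than unknowns -/
theorem exists_skew_of_pairs {q : V →ₗ[L] V →ₗ[L] L} (hq : IsForm q)
    (P : Fin 3 → Finset (Fin (finrank L V) × Fin (finrank L V)))
    (b : Fin 3 → Basis (Fin (finrank L V)) L V)
    (hP : 2 * ∑ s, (P s).card < finrank L V * (finrank L V - 1)) :
    ∃ A : End L V, A ≠ 0 ∧ IsSk q A ∧ ∀ s, ∀ x ∈ P s, q (A (b s x.1)) (b s x.2) = 0 := by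
  classical
  let b0 := Module.finBasis L V
  let T := {x : Fin (finrank L V) × Fin (finrank L V) // x.1 < x.2}
  let F : (T → L) →ₗ[L] End L V := (eM hq b0).symm.toLinearMap ∘ₗ skM _ L
  have hF : ∀ f i j, eM hq b0 (F f) i j = skM _ L f i j := fun f i j => by
    show eM hq b0 ((eM hq b0).symm (skM _ L f)) i j = _
    rw [LinearEquiv.apply_symm_apply]
  let Φ : (T → L) →ₗ[L] ((Σ s, P s) → L) :=
    LinearMap.pi fun y => (q.flip (b y.1 y.2.1.2)) ∘ₗ (LinearMap.applyₗ (b y.1 y.2.1.1)) ∘ₗ F
  have hΦ : ∀ f y, Φ f y = q (F f (b y.1 y.2.1.1)) (b y.1 y.2.1.2) := fun f y => rfl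
  have hdim : finrank L ((Σ s, P s) → L) < finrank L (T → L) := by
    rw [Module.finrank_fintype_fun_eq_card, Module.finrank_fintype_fun_eq_card,
      Fintype.card_sigma]
    have h1 := card_lt (finrank L V)
    have h2 : ∀ s, Fintype.card (P s) = (P s).card := fun s => Fintype.card_coe _
    simp only [h2]
    show _ < Fintype.card T
    have h3 : Fintype.card T = Fintype.card {x : Fin (finrank L V) × Fin (finrank L V) //
      x.1 < x.2} := rfl
    omega
  obtain ⟨f, hf, hf0⟩ := (Submodule.ne_bot_iff _).1 (LinearMap.ker_ne_bot_of_finrank_lt hdim)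
  refine ⟨F f, fun h0 => hf0 ?_, (isSk_iff hq b0 _).2 fun i j => ?_, fun s x hx => ?_⟩
  · funext x
    have h1 := hF f x.1.1 x.1.2
    rw [h0, map_zero, skM_apply, dif_pos x.2] at h1
    exact h1.symm
  · rw [hF, hF, skM_apply, skM_apply]
    rcases lt_trichotomy i j with h | h | h
    · rw [dif_pos h, dif_neg h.not_gt, dif_pos h, neg_neg]
    · subst h
      simp
    · rw [dif_neg h.not_gt, dif_pos h, dif_pos h]
  · have h1 := congrFun (LinearMap.mem_ker.1 hf) ⟨s, ⟨x, hx⟩⟩
    rw [hΦ] at h1
    exact h1

omit [FiniteDimensional L V] in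
theorem card_adapted {n : ℕ} (b : Basis (Fin n) L V) {W : Submodule L V}
    [DecidablePred fun i => b i ∈ W]
    (hb : ∀ v ∈ W, ∀ i, b.repr v i ≠ 0 → b i ∈ W) :
    (Finset.univ.filter fun i => b i ∈ W).card = finrank L W := by
  have h1 : W = Submodule.span L (Set.range fun i : {i // b i ∈ W} => b i) := by
    apply le_antisymm
    · intro v hv
      rw [← b.sum_repr v]
      refine Submodule.sum_mem _ fun i _ => ?_
      by_cases h : b.repr v i = 0
      · rw [h, zero_smul]
        exact Submodule.zero_mem _
      · exact Submodule.smul_mem _ _ (Submodule.subset_span ⟨⟨i, hb v hv i h⟩, rfl⟩)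
    · rw [Submodule.span_le]
      rintro _ ⟨i, rfl⟩
      exact i.2
  have h2 : LinearIndependent L fun i : {i // b i ∈ W} => b i :=
    b.linearIndependent.comp _ Subtype.val_injective
  have h3 := finrank_span_eq_card h2
  rw [← h1] at h3
  rw [h3, Fintype.card_subtype]

/-- one arm: an adapted basis and its pairs -/
theorem exists_arm {q : V →ₗ[L] V →ₗ[L] L} (hq : IsForm q) (h2 : (2 : L) ≠ 0) {S : End L V}
    (hS : IsSA q S) {p m : ℕ} (hp : S ^ p = 0) (hm : finrank L (LinearMap.ker S) = m)
    (hV : finrank L V = p * m) :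
    ∃ (b : Basis (Fin (finrank L V)) L V) (P : Finset (Fin (finrank L V) × Fin (finrank L V))),
      4 * P.card + 2 * (m * (p / 2)) + m * (p * m) = (p * m) * (p * m) ∧
      ∀ A : End L V, IsSk q A → (∀ x ∈ P, q (A (b x.1)) (b x.2) = 0) →
        ∀ c, ∀ v ∈ LinearMap.range (S ^ c), A v ∈ LinearMap.range (S ^ c) := by
  classical
  have hanti : ∀ {a c : ℕ}, a ≤ c → LinearMap.range (S ^ c) ≤ LinearMap.range (S ^ a) := by
    intro a c hac
    rintro _ ⟨x, rfl⟩
    refine ⟨(S ^ (c - a)) x, ?_⟩
    rw [← Module.End.mul_apply, ← pow_add, Nat.add_sub_cancel' hac]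
  let 𝒞 : Finset (Submodule L V) := (Finset.range (p + 1)).image fun c => LinearMap.range (S ^ c)
  have hmem : ∀ c ≤ p, LinearMap.range (S ^ c) ∈ 𝒞 := fun c hc =>
    Finset.mem_image_of_mem _ (Finset.mem_range.2 (by omega))
  have hchain : IsChain (· ≤ ·) (𝒞 : Set (Submodule L V)) := by
    rintro A hA B hB -
    rw [Finset.mem_coe, Finset.mem_image] at hA hB
    obtain ⟨a, -, rfl⟩ := hA
    obtain ⟨c, -, rfl⟩ := hB
    rcases le_total a c with h | h
    · exact Or.inr (hanti h)
    · exact Or.inl (hanti h)
  obtain ⟨b, hb⟩ := exists_adapted_basis 𝒞 hchain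
  let β : Fin (finrank L V) → ℕ := fun i =>
    Nat.findGreatest (fun c => b i ∈ LinearMap.range (S ^ c)) p
  have hβ1 : ∀ i, b i ∈ LinearMap.range (S ^ (β i)) := fun i =>
    Nat.findGreatest_spec (P := fun c => b i ∈ LinearMap.range (S ^ c)) (Nat.zero_le p)
      ⟨b i, by simp⟩
  have hβ2 : ∀ i, ∀ c ≤ p, (b i ∈ LinearMap.range (S ^ c) ↔ c ≤ β i) := fun i c hc =>
    ⟨fun h => Nat.le_findGreatest hc h, fun h => hanti h (hβ1 i)⟩
  have hβ3 : ∀ i, β i < p := by
    intro i
    refine lt_of_le_of_ne (Nat.findGreatest_le p) fun h => ?_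
    have h1 := hβ1 i
    rw [h, hp, LinearMap.range_zero, Submodule.mem_bot] at h1
    exact b.ne_zero i h1
  have hN : ∀ c ≤ p, (Finset.univ.filter fun i => c ≤ β i).card = (p - c) * m := by
    intro c hc
    rw [← finrank_range_pow S hp hm hV hc, ← card_adapted b (hb _ (hmem c hc))]
    congr 1
    ext i
    simp only [Finset.mem_filter, Finset.mem_univ, true_and]
    exact (hβ2 i c hc).symm
  refine ⟨b, Finset.univ.filter fun x => x.1 < x.2 ∧ p ≤ β x.1 + β x.2,
    card_pairs β hβ3 hN, ?_⟩
  intro A hA hP c v hv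
  by_cases hc : c ≤ p
  swap
  · have h0 : S ^ c = 0 := by
      rw [← Nat.add_sub_cancel' (not_le.1 hc).le, pow_add, hp, zero_mul]
    rw [h0, LinearMap.range_zero, Submodule.mem_bot] at hv
    rw [hv, map_zero]
    exact Submodule.zero_mem _
  have key : ∀ i j, p ≤ β i + β j → q (A (b i)) (b j) = 0 := by
    intro i j hij
    rcases lt_trichotomy i j with h | h | h
    · exact hP (i, j) (by simpa using ⟨h, hij⟩)
    · subst h
      have h1 := hA (b i) (b i)
      rw [hq.symm (b i)] at h1
      have h3 : (2 : L) * q (A (b i)) (b i) = 0 := by linear_combination h1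
      exact (mul_eq_zero.1 h3).resolve_left h2
    · have h1 := hP (j, i) (by simpa using ⟨h, by omega⟩)
      rw [hA, hq.symm, h1, neg_zero]
  rw [← H89.perp_perp hq (LinearMap.range (S ^ c)), perp_range_pow hq hS hp hm hV hc]
  intro w hw
  have h1 := hb _ (hmem c hc) v hv
  have h3 := hb _ (hmem (p - c) (Nat.sub_le _ _)) w hw
  rw [← b.sum_repr v, ← b.sum_repr w, map_sum A, map_sum q, LinearMap.sum_apply]
  refine Finset.sum_eq_zero fun i _ => ?_
  rw [map_sum]
  refine Finset.sum_eq_zero fun j _ => ?_
  by_cases hi : b.repr v i = 0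
  · rw [hi, zero_smul, map_zero, map_zero, LinearMap.zero_apply]
  by_cases hj : b.repr w j = 0
  · rw [hj, zero_smul, map_zero]
  have h4 := (hβ2 i c hc).1 (h1 i hi)
  have h5 := (hβ2 j (p - c) (Nat.sub_le _ _)).1 (h3 j hj)
  rw [map_smul, map_smul, map_smul, LinearMap.smul_apply, key i j (by omega), smul_zero,
    smul_zero]

/-- **NULL-A.** Three free nilpotent self-adjoint operators with `Σ 1 / p_s = 1` in dimension
greater than `3`: there is a nonzero skew endomorphism preserving all `range (S_s ^ b)`. -/
theorem exists_so_flags {q : V →ₗ[L] V →ₗ[L] L} (hq : IsForm q) (h2 : (2 : L) ≠ 0)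
    {S : Fin 3 → End L V} (hS : ∀ s, IsSA q (S s)) {p : Fin 3 → ℕ} (hp : ∀ s, S s ^ p s = 0)
    (hfree : ∀ s, finrank L V = p s * finrank L (LinearMap.ker (S s)))
    (hsum : ∑ s, finrank L (LinearMap.ker (S s)) = finrank L V) (h3 : 3 < finrank L V) :
    ∃ A : End L V, A ≠ 0 ∧ IsSk q A ∧
      ∀ s b, ∀ v ∈ LinearMap.range (S s ^ b), A v ∈ LinearMap.range (S s ^ b) := by
  classical
  set v := finrank L V with hv
  let m : Fin 3 → ℕ := fun s => finrank L (LinearMap.ker (S s))
  have hm : ∀ s, v = p s * m s := hfree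
  have hsum' : m 0 + m 1 + m 2 = v := by
    rw [Fin.sum_univ_three] at hsum
    exact hsum
  have hmpos : ∀ s, 0 < m s := fun s => by
    rcases Nat.eq_zero_or_pos (m s) with h | h
    · have := hm s
      rw [h, mul_zero] at this
      omega
    · exact h
  by_cases hodd : ∀ s, p s % 2 = 1
  · -- type (3,3,3)
    have hp3 : ∀ s, 3 ≤ p s := by
      intro s
      by_contra hlt
      have h1 : p s = 1 := by
        have := hodd s
        omega
      have h4 := hm s
      rw [h1, one_mul] at h4
      have a0 := hmpos 0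
      have a1 := hmpos 1
      have a2 := hmpos 2
      fin_cases s <;> simp only [Fin.zero_eta, Fin.mk_one, Fin.reduceFinMk] at h4 <;> omega
    have hle : ∀ s, 3 * m s ≤ v := fun s => by
      rw [hm s]
      exact Nat.mul_le_mul_right _ (hp3 s)
    have hk : ∀ s, 3 * m s = v := by
      intro s
      have a0 := hle 0
      have a1 := hle 1
      have a2 := hle 2
      fin_cases s <;> simp only [Fin.zero_eta, Fin.mk_one, Fin.reduceFinMk] <;> omega
    have hpe : ∀ s, p s = 3 := fun s => by
      have h1 := hm s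
      rw [← hk s] at h1
      exact (Nat.eq_of_mul_eq_mul_right (hmpos s) h1).symm
    have hmk : ∀ s, m s = m 0 := fun s => by
      have h1 := hk s
      have h4 := hk 0
      omega
    have hp' : ∀ s, S s ^ 3 = 0 := fun s => by
      have := hp s
      rwa [hpe s] at this
    have hV3 : ∀ s, finrank L V = 3 * m s := fun s => (hk s).symm
    have hW : ∀ s, finrank L (LinearMap.range (S s ^ 2)) = m 0 := fun s => by
      rw [finrank_range_pow (S s) (hp' s) rfl (hV3 s) (by norm_num : 2 ≤ 3), ← hmk s]
      simp [m]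
    have hiso : ∀ s, ∀ u ∈ LinearMap.range (S s ^ 2), ∀ w ∈ LinearMap.range (S s ^ 2),
        q u w = 0 := by
      rintro s _ ⟨x, rfl⟩ _ ⟨y, rfl⟩
      rw [H89.SA_pow (hS s), ← Module.End.mul_apply, ← pow_add,
        show 2 + 2 = 3 + 1 from rfl, pow_succ, hp' s]
      simp
    obtain ⟨A, hA0, hAs, hA1, hA2, hA3⟩ := exists_three hq (hiso 0) (hiso 1) (hiso 2)
      (k := m 0) (by have := hk 0; omega) (hW 0) (hW 1) (hW 2) (hV3 0)
    have hA : ∀ s, ∀ w ∈ LinearMap.range (S s ^ 2), A w ∈ LinearMap.range (S s ^ 2) := by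
      intro s
      fin_cases s
      · exact hA1
      · exact hA2
      · exact hA3
    refine ⟨A, hA0, hAs, fun s b w hw => ?_⟩
    match b, hw with
    | 0, _ => exact ⟨A w, by simp⟩
    | 1, hw =>
      have hperp := perp_range_pow hq (hS s) (hp' s) rfl (hV3 s) (by norm_num : 2 ≤ 3)
      have e1 : 3 - 2 = 1 := rfl
      rw [e1] at hperp
      rw [← hperp] at hw ⊢
      intro u hu
      rw [hAs, hw _ (hA s u hu), neg_zero]
    | 2, hw => exact hA s w hw
    | n + 3, hw =>
      have h0 : S s ^ (n + 3) = 0 := by rw [pow_add, hp' s, mul_zero]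
      rw [h0, LinearMap.range_zero, Submodule.mem_bot] at hw
      rw [hw, map_zero]
      exact Submodule.zero_mem _
  · -- count
    push Not at hodd
    obtain ⟨s0, hs0⟩ := hodd
    have harm := fun s => exists_arm hq h2 (hS s) (hp s) rfl (hfree s)
    choose b P hP hpres using harm
    have hcount : 2 * ∑ s, (P s).card < finrank L V * (finrank L V - 1) := by
      have c1 : ∀ s, 4 * (P s).card + 2 * (m s * (p s / 2)) + m s * v = v * v := fun s => by
        have := hP s
        show 4 * (P s).card + 2 * (m s * (p s / 2)) + m s * v = v * v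
        have e := hm s
        calc _ = 4 * (P s).card + 2 * (m s * (p s / 2)) + m s * (p s * m s) := by rw [← e]
          _ = (p s * m s) * (p s * m s) := this
          _ = _ := by rw [← e]
      have c2 : ∀ s, v ≤ 2 * (m s * (p s / 2)) + m s := fun s => by
        have e := hm s
        have e1 : p s ≤ 2 * (p s / 2) + 1 := by omega
        calc v = p s * m s := e
          _ ≤ (2 * (p s / 2) + 1) * m s := Nat.mul_le_mul_right _ e1
          _ = _ := by ring
      have c3 : v = 2 * (m s0 * (p s0 / 2)) := by
        have e := hm s0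
        have e1 : p s0 = 2 * (p s0 / 2) := by omega
        calc v = p s0 * m s0 := e
          _ = (2 * (p s0 / 2)) * m s0 := by rw [← e1]
          _ = _ := by ring
      have c4 := hmpos s0
      have t0 := c1 0
      have t1 := c1 1
      have t2 := c1 2
      have u0 := c2 0
      have u1 := c2 1
      have u2 := c2 2
      have hsv : m 0 * v + m 1 * v + m 2 * v = v * v := by rw [← hsum']; ring
      have hvv : v * (v - 1) + v = v * v := by
        obtain ⟨w, hw⟩ : ∃ w, v = w + 1 := ⟨v - 1, by omega⟩
        rw [hw]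
        simp
        ring
      have key : 2 * v < 2 * (m 0 * (p 0 / 2)) + 2 * (m 1 * (p 1 / 2)) +
          2 * (m 2 * (p 2 / 2)) := by
        fin_cases s0 <;>
          simp only [Fin.zero_eta, Fin.mk_one, Fin.reduceFinMk] at c3 c4 <;> omega
      rw [Fin.sum_univ_three]
      show _ < v * (v - 1)
      omega
    obtain ⟨A, hA0, hAs, hAP⟩ := exists_skew_of_pairs hq P b hcount
    exact ⟨A, hA0, hAs, fun s c w hw => hpres s A hAs (hAP s) c w hw⟩

end main

end Vale.Agent.P182.H55
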