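import Vale.Agent.P182.H55.DerI
import Vale.Agent.P182.H952.Flow3

/-!
# FLOW in the form used by the derivation step, and the operators of `Ku`
-/

namespace Vale.Agent.P182.H55

open Module Matrix Vale.Agent.P182.H533 Vale.Agent.P182.B1 Vale.Agent.P182.H578
  Vale.Agent.P182.H922 Vale.Agent.P182.H588 Vale.Agent.P182.H983 Vale.Agent.P182.H181
  Vale.Agent.P182.H952

universe u v w

variable {L : Type u} {V : Type v} {J : Type w} [Field L] [AddCommGroup V] [Module L V]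
  [FiniteDimensional L V] [Fintype J] [DecidableEq J] {𝒟 : Cfg L V J} {u σ : J → L} {t : J → V}

/-- **FLOW** -/
theorem rowFlow (hG : 𝒟.Good)
    (hK : KRel 𝒟.arm 𝒟.q 𝒟.Ω (Tt L '' (Ku 𝒟 u : Set (J → V)))) (hR : RealL 𝒟 u σ)
    (ht : t ∈ Ku 𝒟 u) (C : Core 𝒟.q (Res 𝒟 t)) : RowFlow 𝒟 u t C.W C.I := by
  intro Y hYsk hYT hsum
  obtain ⟨ξ, hξ1, hξ2⟩ := exists_section C
  have hB : Bs 𝒟 t C.W ξ := ⟨fun a w hw => C.map_W hw, hξ1, hξ2⟩
  have hY : Yd 𝒟 t C.W Y := ⟨hYsk, fun a v => (hYT a).1 v, by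
    rw [← neg_eq_zero, ← Finset.sum_neg_distrib, ← hsum]
    exact Finset.sum_congr rfl fun a _ => by rw [neg_sub]⟩
  obtain ⟨n, R, hF⟩ := exists_flow hG hR.toRealU ht hB hY
  have hop : ∀ r r' : J → V, r ∈ Ku 𝒟 u → r' ∈ Ku 𝒟 u → ∀ a, ∀ w ∈ C.W,
      opr 𝒟.q (Tt L r) (Gm 𝒟.arm 𝒟.Ω a) (Tt L r') w ∈ C.W := fun r r' hr hr' a w hw =>
    U.opr_map_W hG hK ht hr hr' a w hw
  refine ⟨n, R, hF.mem, hF.flag, hF.mapW hG hB hY (N := C.N) C.hN.ge hop ht, hF.tau, hF.om,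
    fun Γ r hru hΓ => ?_⟩
  have hr : Fd 𝒟 t C.W r Γ (fun a => opr 𝒟.q (Tt L r) (Gm 𝒟.arm 𝒟.Ω a) (Tt L t)) := by
    refine ⟨fun w hw l => ?_, hΓ.mapW, fun a w _ => rfl, fun a w hw => ?_⟩
    · rw [hG.form.symm, hΓ.one w hw l, hG.form.symm]
    · have h1 := C.I_le (hΓ.two a w hw)
      have h2 := add_mem h1 (C.map_W (s := a) (hΓ.mapW w hw))
      rwa [sub_add_cancel] at h2
  refine ⟨_, hF.rr_mem hG hR ht hB hY hr hru, _, fun a => ⟨fun v => Bo_mem hG hB hY hr a v,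
    fun v hv => ?_⟩, fun a x w hw => ?_, fun l => ?_, fun l => ?_⟩
  · apply hG.form.nondeg
    intro x
    rw [q_Bo]
    refine hv _ ?_
    rw [Bad, LinearMap.sub_apply, LinearMap.sub_apply, Module.End.mul_apply,
      Module.End.mul_apply, Module.End.mul_apply, LinearMap.sum_apply]
    refine sub_mem (sub_mem (hr.mapD _ (hY.mem _ _)) (hY.mem _ _)) (hB.mapξ _ _
      (sum_mem fun c _ => ?_))
    exact hY.mem _ _
  · rw [q_Bo, Bad_W hG hB hY hr a hw]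
  · rw [rr_apply]
    abel
  · rw [hF.om_rr hG hB hY hr]
    abel

/-- the operator of an element of `Ku` -/
theorem exists_KuE (hG : 𝒟.Good)
    (hK : KRel 𝒟.arm 𝒟.q 𝒟.Ω (Tt L '' (Ku 𝒟 u : Set (J → V)))) {t' : J → V}
    (ht : t ∈ Ku 𝒟 u) (ht' : t' ∈ Ku 𝒟 u)
    (hspan : ∀ k ∈ Ku 𝒟 u, ∃ a b : L, k = a • t + b • t') (C : Core 𝒟.q (Res 𝒟 t))
    {D : End L C.V1} (hDs : IsSA C.q1 D)
    (hD1 : ∀ s, C.res hG.form (opr 𝒟.q (Tt L t) (Gm 𝒟.arm 𝒟.Ω s) (Tt L t')) =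
      C.S1 hG.form s * D)
    (hD2 : ∀ s, C.res hG.form (opr 𝒟.q (Tt L t) (Gm 𝒟.arm 𝒟.Ω s) (Tt L t')) =
      D * C.S1 hG.form s) :
    ∀ R ∈ Ku 𝒟 u, ∃ E : End L V, RelG 𝒟 C.W C.I t E R ∧
      ∃ α β : L, C.res hG.form E = α • 1 + β • D := by
  intro R hR
  have hq := hG.form
  have hSA : ∀ s, IsSA 𝒟.q (Res 𝒟 t s) := fun s => Sop_SA 𝒟.arm hq (Tt L t) hG.skew s
  obtain ⟨Dh, h1, h2, h3, h4⟩ := exists_Dhat hG hK ht ht' C hD2
  obtain ⟨α, β, hαβ⟩ := hspan R hR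
  have hP : ∀ w ∈ C.W, C.P hq ((α • (1 : End L V) + β • Dh) w) =
      (α • (1 : End L C.V1) + β • D) (C.P hq w) := by
    intro w hw
    rw [LinearMap.add_apply, LinearMap.smul_apply, LinearMap.smul_apply, Module.End.one_apply,
      map_add, map_smul, map_smul, h4 w hw]
    rfl
  have hW : ∀ w ∈ C.W, (α • (1 : End L V) + β • Dh) w ∈ C.W := fun w hw =>
    add_mem (Submodule.smul_mem _ _ hw) (Submodule.smul_mem _ _ (h1 w hw))
  have hI : ∀ w ∈ C.I, (α • (1 : End L V) + β • Dh) w ∈ C.I := fun w hw =>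
    add_mem (Submodule.smul_mem _ _ hw) (Submodule.smul_mem _ _ (h2 w hw))
  have hone : ∀ w ∈ C.W, ∀ l, 𝒟.q w (R l) = 𝒟.q ((α • (1 : End L V) + β • Dh) w) (t l) := by
    intro w hw l
    have e1 := h3 w hw l
    rw [hαβ, LinearMap.add_apply, LinearMap.smul_apply, LinearMap.smul_apply,
      Module.End.one_apply, Pi.add_apply, Pi.smul_apply, Pi.smul_apply, map_add, map_smul,
      map_smul, map_add, map_smul, map_smul, LinearMap.add_apply, LinearMap.smul_apply,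
      LinearMap.smul_apply, hq.symm w (t' l), e1, hq.symm (t l)]
  refine ⟨α • 1 + β • Dh, ⟨hW, hI, ?_, fun a w hw => ?_, hone, fun a w hw => ?_⟩, α, β, ?_⟩
  · refine sa_of_P hq C (M := α • 1 + β • D) (fun v w => ?_) hW hP
    simp only [LinearMap.add_apply, LinearMap.smul_apply, Module.End.one_apply, map_add,
      map_smul, hDs v w]
  · have hIP : ∀ w ∈ C.W, C.P hq w = 0 → w ∈ C.I := fun w hw h0 => by
      have := C.sub_P_mem_I hq hw
      rwa [h0, Submodule.coe_zero, sub_zero] at this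
    have hSP : ∀ w ∈ C.W, C.P hq (Res 𝒟 t a w) = C.S1 hq a (C.P hq w) := fun w hw =>
      P_res hq C (fun i hi => C.map_I hSA hi) hw
    refine hIP _ (sub_mem (hW _ (C.map_W hw)) (C.map_W (hW w hw))) ?_
    rw [map_sub, hP _ (C.map_W hw), hSP w hw, hSP _ (hW w hw), hP w hw, sub_eq_zero]
    have e1 : (α • (1 : End L C.V1) + β • D) * C.S1 hq a =
        C.S1 hq a * (α • (1 : End L C.V1) + β • D) := by
      rw [add_mul, mul_add, smul_mul_assoc, smul_mul_assoc, mul_smul_comm, mul_smul_comm,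
        one_mul, mul_one, ← hD2, ← hD1]
    exact LinearMap.congr_fun e1 _
  · have hX : Tt L t ∈ Tt L '' (Ku 𝒟 u : Set (J → V)) := ⟨t, ht, rfl⟩
    have hX' : Tt L R ∈ Tt L '' (Ku 𝒟 u : Set (J → V)) := ⟨R, hR, rfl⟩
    rw [hK.swap hq hG.skew hX' hX, opr_congr hG (hone w hw) t a]
    rw [show Res 𝒟 t a ((α • (1 : End L V) + β • Dh) w) =
      opr 𝒟.q (Tt L t) (Gm 𝒟.arm 𝒟.Ω a) (Tt L t) ((α • (1 : End L V) + β • Dh) w) from rfl,
      sub_self]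
    exact Submodule.zero_mem _
  · refine LinearMap.ext fun v => ?_
    rw [C.res_apply, hP _ (C.V1_le v.2), C.P_coe]

/-- **(END), step (B)**, in the common context. -/
theorem der_HHI' (hC : Ctx 𝒟 u) {t' : J → V} (ht : t ∈ Ku 𝒟 u) (ht' : t' ∈ Ku 𝒟 u)
    (hspan : ∀ k ∈ Ku 𝒟 u, ∃ a b : L, k = a • t + b • t') {C : Core 𝒟.q (Res 𝒟 t)}
    (hC0 : RowC0 𝒟 u t C.W C.I) {κ : Type*} [Fintype κ]
    {D : End L C.V1} {P : κ → End L C.V1} {d : κ → L} (hDP : Diag D P d)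
    (hP : ∀ i, IsSA C.q1 (P i))
    (hPS : ∀ i a, P i * C.S1 hC.good.form a = C.S1 hC.good.form a * P i)
    (hD1 : ∀ s, C.res hC.good.form (opr 𝒟.q (Tt L t) (Gm 𝒟.arm 𝒟.Ω s) (Tt L t')) =
      C.S1 hC.good.form s * D)
    (hcen : ∀ M : End L C.V1, IsSA C.q1 M →
      (∀ a, M * C.S1 hC.good.form a = C.S1 hC.good.form a * M) → M * D = D * M) (s : Fin 3)
    (h2 : (2 : L) ≠ 0)
    (H2 : ∀ h : End L C.V1, (∀ i, P i * h * P i = 0) →
      (∀ c : ℕ, ∀ v ∈ LinearMap.range (C.S1 hC.good.form s ^ c),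
        h v ∈ LinearMap.range (C.S1 hC.good.form s ^ c)) → h ∈ HHI hC.good u C s)
    {Y : End L C.V1} (hY : IsSk C.q1 Y) (hYo : ∀ i, P i * Y * P i = 0)
    (hYS : Y * C.S1 hC.good.form s = C.S1 hC.good.form s * Y)
    {h : End L C.V1} (hho : ∀ i, P i * h * P i = 0)
    (hhr : ∀ c : ℕ, ∀ v ∈ LinearMap.range (C.S1 hC.good.form s ^ c),
      h v ∈ LinearMap.range (C.S1 hC.good.form s ^ c)) :
    h * Y - Y * h ∈ HHI hC.good u C s := by
  obtain ⟨σ, hR⟩ := hC.realL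
  have hDS : ∀ a, C.S1 hC.good.form a * D = D * C.S1 hC.good.form a := fun a =>
    hDP.comm_of_comm fun i => (hPS i a).symm
  exact der_HHI hC.good hC0 (rowFlow hC.good hC.krel hR ht C) hDP hP hPS
    (exists_KuE hC.good hC.krel ht ht' hspan C (hDP.SA hP) hD1
      (fun s => by rw [hD1, hDS])) hcen s h2 H2 hY hYo hYS hho hhr

end Vale.Agent.P182.H55
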