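import Vale.Agent.P182.H533.Compat

/-!
# Tensors with values in the radical: the equation `∑ [S_a, b_a] = E`
-/

namespace Vale.Agent.P182.H55

open Module Vale.Agent.P182.H533

section gen

variable {L V ι : Type*} [Field L] [AddCommGroup V] [Module L V]

/-- the tensor `a ⊗ b` as an endomorphism -/
def ten (q : V →ₗ[L] V →ₗ[L] L) (a b : V) : End L V := (q b).smulRight a

theorem ten_apply (q : V →ₗ[L] V →ₗ[L] L) (a b v : V) : ten q a b v = q b v • a := rfl

theorem mul_ten (q : V →ₗ[L] V →ₗ[L] L) (T : End L V) (a b : V) :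
    T * ten q a b = ten q (T a) b := by
  ext v
  rw [Module.End.mul_apply, ten_apply, ten_apply, map_smul]

theorem ten_mul {q : V →ₗ[L] V →ₗ[L] L} {T : End L V} (hT : IsSA q T) (a b : V) :
    ten q a b * T = ten q a (T b) := by
  ext v
  rw [Module.End.mul_apply, ten_apply, ten_apply, hT]

theorem ten_add_right (q : V →ₗ[L] V →ₗ[L] L) (a b c : V) :
    ten q a (b + c) = ten q a b + ten q a c := by
  ext v
  rw [LinearMap.add_apply, ten_apply, ten_apply, ten_apply, map_add, LinearMap.add_apply,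
    add_smul]

theorem ten_add_left (q : V →ₗ[L] V →ₗ[L] L) (a b c : V) :
    ten q (a + b) c = ten q a c + ten q b c := by
  ext v
  rw [LinearMap.add_apply, ten_apply, ten_apply, ten_apply, smul_add]

theorem ten_sum_right {κ : Type*} (s : Finset κ) (q : V →ₗ[L] V →ₗ[L] L) (a : V) (b : κ → V) :
    ten q a (∑ k ∈ s, b k) = ∑ k ∈ s, ten q a (b k) := by
  ext v
  rw [LinearMap.sum_apply, ten_apply, map_sum, LinearMap.sum_apply, Finset.sum_smul]
  rfl

theorem ten_sum_left {κ : Type*} (s : Finset κ) (q : V →ₗ[L] V →ₗ[L] L) (a : κ → V) (b : V) :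
    ten q (∑ k ∈ s, a k) b = ∑ k ∈ s, ten q (a k) b := by
  ext v
  rw [LinearMap.sum_apply, ten_apply, Finset.smul_sum]
  rfl

theorem ten_adj {q : V →ₗ[L] V →ₗ[L] L} (hq : IsForm q) (a b u v : V) :
    q (ten q a b u) v = q u (ten q b a v) := by
  rw [ten_apply, ten_apply, map_smul, map_smul, LinearMap.smul_apply, smul_eq_mul, smul_eq_mul,
    hq.symm u b]
  ring

variable [FiniteDimensional L V]

theorem perp_perp {q : V →ₗ[L] V →ₗ[L] L} (hq : IsForm q) {Y : Submodule L V} {y : V}
    (h : ∀ v ∈ perp q Y, q y v = 0) : y ∈ Y := by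
  by_contra hy
  obtain ⟨f, hf1, hf2⟩ := Submodule.exists_dual_map_eq_bot_of_notMem hy inferInstance
  have h1 : hq.eqv.symm f ∈ perp q Y := by
    intro w hw
    rw [hq.eqv_symm_apply]
    have h2 : f w ∈ Y.map f := Submodule.mem_map_of_mem hw
    rw [hf2] at h2
    exact (Submodule.mem_bot L).mp h2
  have h3 := h _ h1
  rw [hq.symm, hq.eqv_symm_apply] at h3
  exact hf1 h3

/-- an endomorphism with values in `X` which kills `perp Y` is a sum of tensors -/
theorem exists_ten {q : V →ₗ[L] V →ₗ[L] L} (hq : IsForm q) {X Y : Submodule L V} {T : End L V}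
    (h1 : ∀ v, T v ∈ X) (h2 : ∀ v ∈ perp q Y, T v = 0) :
    ∃ (n : ℕ) (x y : Fin n → V), (∀ k, x k ∈ X) ∧ (∀ k, y k ∈ Y) ∧
      T = ∑ k, ten q (x k) (y k) := by
  let b := finBasis L X
  let T' : V →ₗ[L] X := T.codRestrict X h1
  refine ⟨finrank L X, fun k => b k, fun k => hq.eqv.symm ((b.coord k) ∘ₗ T'), fun k => (b k).2,
    fun k => ?_, ?_⟩
  · refine perp_perp hq fun v hv => ?_
    rw [hq.eqv_symm_apply, LinearMap.comp_apply]
    have h3 : T' v = 0 := Subtype.ext (h2 v hv)
    rw [h3, map_zero]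
  · ext v
    rw [LinearMap.sum_apply]
    have h3 : ∀ k, ten q ((b k : X) : V) (hq.eqv.symm ((b.coord k) ∘ₗ T')) v =
        ((b.repr (T' v) k • b k : X) : V) := by
      intro k
      rw [ten_apply, hq.eqv_symm_apply]
      rfl
    rw [Finset.sum_congr rfl fun k _ => h3 k]
    have h4 := congrArg Subtype.val (b.sum_repr (T' v))
    rw [AddSubmonoidClass.coe_finsetSum] at h4
    exact h4.symm

/-- a section of `∑ S_a` on `W` -/
theorem exists_section [Fintype ι] {q : V →ₗ[L] V →ₗ[L] L} {S : ι → End L V} (C : Core q S) :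
    ∃ ξ : ι → End L V, (∀ a, ∀ w ∈ C.W, ξ a w ∈ C.W) ∧ ∀ w ∈ C.W, ∑ a, S a (ξ a w) = w := by
  classical
  have key : ∀ w ∈ C.W, ∃ f : ι → V, (∀ a, f a ∈ C.W) ∧ ∑ a, S a (f a) = w := by
    intro w hw
    rw [← C.hW] at hw
    refine Submodule.iSup_induction (fun s => C.W.map (S s))
      (motive := fun x => ∃ f : ι → V, (∀ a, f a ∈ C.W) ∧ ∑ a, S a (f a) = x) hw ?_ ?_ ?_
    · rintro s _ ⟨w, hw, rfl⟩
      refine ⟨Pi.single s w, fun a => ?_, ?_⟩
      · by_cases ha : a = s
        · subst ha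
          rw [Pi.single_eq_same]
          exact hw
        · rw [Pi.single_eq_of_ne ha]
          exact zero_mem _
      · rw [Finset.sum_eq_single s]
        · rw [Pi.single_eq_same]
        · intro a _ ha
          rw [Pi.single_eq_of_ne ha, map_zero]
        · intro h
          exact absurd (Finset.mem_univ s) h
    · exact ⟨fun _ => 0, fun _ => zero_mem _, by simp⟩
    · rintro x y ⟨f, hf1, hf2⟩ ⟨g, hg1, hg2⟩
      refine ⟨fun a => f a + g a, fun a => add_mem (hf1 a) (hg1 a), ?_⟩
      simp only [map_add, Finset.sum_add_distrib, hf2, hg2]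
  let b := finBasis L C.W
  choose f hf1 hf2 using fun k => key (b k) (b k).2
  obtain ⟨p, hp⟩ := LinearMap.exists_leftInverse_of_injective C.W.subtype
    (LinearMap.ker_eq_bot.mpr C.W.subtype_injective)
  have hpw : ∀ w (hw : w ∈ C.W), p w = ⟨w, hw⟩ := fun w hw =>
    LinearMap.congr_fun hp ⟨w, hw⟩
  refine ⟨fun a => (b.constr L (fun k => f k a) : C.W →ₗ[L] V) ∘ₗ p, fun a w hw => ?_,
    fun w hw => ?_⟩
  · rw [LinearMap.comp_apply, b.constr_apply_fintype L]
    exact Submodule.sum_mem _ fun k _ => Submodule.smul_mem _ _ (hf1 k a)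
  · have h1 : ∀ a, S a (((b.constr L (fun k => f k a) : C.W →ₗ[L] V) ∘ₗ p) w) =
        ∑ k, b.equivFun (p w) k • S a (f k a) := by
      intro a
      rw [LinearMap.comp_apply, b.constr_apply_fintype L, map_sum]
      exact Finset.sum_congr rfl fun k _ => map_smul _ _ _
    rw [Finset.sum_congr rfl fun a _ => h1 a, Finset.sum_comm]
    have h2 : ∀ k, ∑ a, b.equivFun (p w) k • S a (f k a) =
        ((b.equivFun (p w) k • b k : C.W) : V) := by
      intro k
      rw [← Finset.smul_sum, hf2]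
      rfl
    rw [Finset.sum_congr rfl fun k _ => h2 k, ← AddSubmonoidClass.coe_finsetSum]
    have h3 : ∑ k, b.equivFun (p w) k • b k = p w := b.sum_equivFun (p w)
    rw [h3, hpw w hw]

/-- the tensors in `I ⊗ W + W ⊗ I` of sign `ε` -/
structure TI {q : V →ₗ[L] V →ₗ[L] L} {S : ι → End L V} (C : Core q S) (ε : L) (b : End L V) :
    Prop where
  mem : ∀ v, b v ∈ C.W
  kill : ∀ v ∈ perp q C.W, b v = 0
  rad : ∀ w ∈ C.W, b w ∈ C.I
  adj : ∀ u v, q (b u) v = ε * q u (b v)

omit [FiniteDimensional L V] in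
theorem TI.zero {q : V →ₗ[L] V →ₗ[L] L} {S : ι → End L V} (C : Core q S) (ε : L) :
    TI C ε 0 := ⟨fun _ => zero_mem _, fun _ _ => rfl, fun _ _ => zero_mem _, fun u v => by simp⟩

omit [FiniteDimensional L V] in
theorem TI.add {q : V →ₗ[L] V →ₗ[L] L} {S : ι → End L V} {C : Core q S} {ε : L} {a b : End L V}
    (ha : TI C ε a) (hb : TI C ε b) : TI C ε (a + b) :=
  ⟨fun v => add_mem (ha.mem v) (hb.mem v), fun v hv => by
    rw [LinearMap.add_apply, ha.kill v hv, hb.kill v hv, add_zero],
    fun w hw => add_mem (ha.rad w hw) (hb.rad w hw), fun u v => by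
    rw [LinearMap.add_apply, LinearMap.add_apply, map_add, map_add, LinearMap.add_apply,
      ha.adj, hb.adj]
    ring⟩

omit [FiniteDimensional L V] in
theorem TI.smul {q : V →ₗ[L] V →ₗ[L] L} {S : ι → End L V} {C : Core q S} {ε : L} {a : End L V}
    (ha : TI C ε a) (c : L) : TI C ε (c • a) :=
  ⟨fun v => Submodule.smul_mem _ c (ha.mem v), fun v hv => by
    rw [LinearMap.smul_apply, ha.kill v hv, smul_zero],
    fun w hw => Submodule.smul_mem _ c (ha.rad w hw), fun u v => by
    rw [LinearMap.smul_apply, LinearMap.smul_apply, map_smul, map_smul, LinearMap.smul_apply,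
      ha.adj, smul_eq_mul, smul_eq_mul]
    ring⟩

/-- the solvable right hand sides -/
def Slv {q : V →ₗ[L] V →ₗ[L] L} {S : ι → End L V} [Fintype ι] (C : Core q S) (ε : L) :
    Submodule L (End L V) where
  carrier := {E | ∃ b : ι → End L V, (∀ a, TI C ε (b a)) ∧ ∑ a, (S a * b a - b a * S a) = E}
  zero_mem' := ⟨fun _ => 0, fun _ => TI.zero C ε, by simp⟩
  add_mem' := by
    rintro E E' ⟨b, h1, rfl⟩ ⟨b', h1', rfl⟩
    refine ⟨fun a => b a + b' a, fun a => (h1 a).add (h1' a), ?_⟩
    rw [← Finset.sum_add_distrib]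
    exact Finset.sum_congr rfl fun a _ => by noncomm_ring
  smul_mem' := by
    rintro c E ⟨b, h1, rfl⟩
    refine ⟨fun a => c • b a, fun a => (h1 a).smul c, ?_⟩
    rw [Finset.smul_sum]
    exact Finset.sum_congr rfl fun a _ => by
      rw [mul_smul_comm, smul_mul_assoc, smul_sub]

omit [FiniteDimensional L V] in
theorem TI_ten {q : V →ₗ[L] V →ₗ[L] L} (hq : IsForm q) {S : ι → End L V} {C : Core q S} {ε : L}
    (hε : ε * ε = 1) {i w : V} (hi : i ∈ C.I) (hw : w ∈ C.W) :
    TI C ε (ten q i w + ε • ten q w i) := by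
  refine ⟨fun v => ?_, fun v hv => ?_, fun v hv => ?_, fun u v => ?_⟩
  · rw [LinearMap.add_apply, LinearMap.smul_apply, ten_apply, ten_apply]
    exact add_mem (Submodule.smul_mem _ _ hi.1)
      (Submodule.smul_mem _ _ (Submodule.smul_mem _ _ hw))
  · rw [LinearMap.add_apply, LinearMap.smul_apply, ten_apply, ten_apply, hq.symm w, hv w hw,
      hq.symm i, hv i hi.1]
    simp
  · rw [LinearMap.add_apply, LinearMap.smul_apply, ten_apply, ten_apply, hi.2 v hv, zero_smul,
      smul_zero, add_zero]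
    exact Submodule.smul_mem _ _ hi
  · have e1 := ten_adj hq i w u v
    have e2 := ten_adj hq w i u v
    rw [LinearMap.add_apply, LinearMap.smul_apply, LinearMap.add_apply, LinearMap.smul_apply,
      map_add, map_add, map_smul, map_smul, LinearMap.add_apply, LinearMap.smul_apply, e1, e2,
      smul_eq_mul, smul_eq_mul]
    linear_combination (-(q u (ten q w i v))) * hε

/-- **Solvability**, the generators -/
theorem slv_ten [Fintype ι] {q : V →ₗ[L] V →ₗ[L] L} (hq : IsForm q) {S : ι → End L V}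
    (hS : ∀ s, IsSA q (S s)) (C : Core q S) {ε : L} (hε : ε * ε = 1) {i w : V} (hi : i ∈ C.I)
    (hw : w ∈ C.W) : ten q i w - ε • ten q w i ∈ Slv C ε := by
  obtain ⟨ξ, hξ1, hξ2⟩ := exists_section C
  have key : ∀ n, ∀ i ∈ C.I, i ∈ perp q (words S n) → ∀ w ∈ C.W,
      ten q i w - ε • ten q w i ∈ Slv C ε := by
    intro n
    induction n with
    | zero =>
      intro i _ hi w _
      have h0 : i = 0 := hq.nondeg i fun v => hi v trivial
      have e1 : ten q (0 : V) w = 0 := LinearMap.ext fun v => by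
        rw [ten_apply, smul_zero, LinearMap.zero_apply]
      have e2 : ten q w (0 : V) = 0 := LinearMap.ext fun v => by
        rw [ten_apply, map_zero, LinearMap.zero_apply, zero_smul, LinearMap.zero_apply]
      rw [h0, e1, e2, smul_zero, sub_zero]
      exact zero_mem _
    | succ n ih =>
      intro i hi hin w hw
      have hSi : ∀ a, S a i ∈ perp q (words S n) := fun a u hu => by
        rw [hS a]
        exact hin _ (Submodule.mem_iSup_of_mem a (Submodule.mem_map_of_mem hu))
      have h1 : ∑ a, (ten q (S a i) (ξ a w) - ε • ten q (ξ a w) (S a i)) ∈ Slv C ε :=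
        Submodule.sum_mem _ fun a _ => ih _ (C.map_I hS hi) (hSi a) _ (hξ1 a w hw)
      have h2 : ∑ a, (S a * (-(ten q i (ξ a w) + ε • ten q (ξ a w) i)) -
          (-(ten q i (ξ a w) + ε • ten q (ξ a w) i)) * S a) ∈ Slv C ε :=
        ⟨_, fun a => by
          have := (TI_ten hq hε hi (hξ1 a w hw)).smul (-1 : L)
          rwa [neg_one_smul] at this, rfl⟩
      have h3 := add_mem h1 h2
      convert h3 using 1
      rw [← Finset.sum_add_distrib]
      have h4 : ∀ a, (ten q (S a i) (ξ a w) - ε • ten q (ξ a w) (S a i)) +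
          (S a * (-(ten q i (ξ a w) + ε • ten q (ξ a w) i)) -
          (-(ten q i (ξ a w) + ε • ten q (ξ a w) i)) * S a) =
          ten q i (S a (ξ a w)) - ε • ten q (S a (ξ a w)) i := by
        intro a
        have e1 := mul_ten q (S a) i (ξ a w)
        have e2 := mul_ten q (S a) (ξ a w) i
        have e3 := ten_mul (hS a) i (ξ a w)
        have e4 := ten_mul (hS a) (ξ a w) i
        rw [mul_neg, mul_add, mul_smul_comm, e1, e2, neg_mul, add_mul, smul_mul_assoc, e3, e4]
        abel
      rw [Finset.sum_congr rfl fun a _ => h4 a, Finset.sum_sub_distrib, ← Finset.smul_sum,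
        ← ten_sum_right, ← ten_sum_left, hξ2 w hw]
  refine key C.N i hi ?_ w hw
  rw [← C.hN]
  exact hi.2

/-- **Solvability** of `∑ [S_a, b_a] = E` in `I ⊗ W + W ⊗ I`. -/
theorem solv [Fintype ι] {q : V →ₗ[L] V →ₗ[L] L} (hq : IsForm q) (h2 : (2 : L) ≠ 0)
    {S : ι → End L V} (hS : ∀ s, IsSA q (S s)) (C : Core q S) {ε : L} (hε : ε * ε = 1)
    {E : End L V} (hE : TI C (-ε) E) :
    ∃ b : ι → End L V, (∀ a, TI C ε (b a)) ∧ ∑ a, (S a * b a - b a * S a) = E := by
  -- `E = A + B`, `A` with values in `I`, `B` with values in `V₁`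
  set B : End L V := C.V1.subtype ∘ₗ C.P hq ∘ₗ E with hB
  set A : End L V := E - B with hA
  have hBv : ∀ v, B v = (C.P hq (E v) : V) := fun v => rfl
  have hA1 : ∀ v, A v ∈ C.I := fun v => C.sub_P_mem_I hq (hE.mem v)
  have hA2 : ∀ v ∈ perp q C.W, A v = 0 := fun v hv => by
    rw [hA, LinearMap.sub_apply, hBv, hE.kill v hv, map_zero, Submodule.coe_zero, sub_zero]
  have hB2 : ∀ v ∈ perp q C.I, B v = 0 := by
    intro v hv
    have h3 : v = (C.P hq v : V) + (v - C.P hq v) := by abel
    have h4 : C.P hq (E v) = 0 := by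
      rw [h3, map_add, hE.kill _ (C.sub_P_mem hq hv), add_zero]
      exact C.P_eq_zero hq (C.I_le_perp (hE.rad _ (C.V1_le (C.P hq v).2)))
    rw [hBv, h4, Submodule.coe_zero]
  obtain ⟨n, x, y, hx, hy, hAs⟩ := exists_ten hq hA1 hA2
  obtain ⟨m, z, j, hz, hj, hBs⟩ := exists_ten hq (X := C.V1) (fun v => (C.P hq (E v)).2) hB2
  -- `2 E`
  have key : (2 : L) • E = ∑ k, (ten q (x k) (y k) - ε • ten q (y k) (x k)) +
      ∑ k, (ten q (z k) (j k) - ε • ten q (j k) (z k)) := by
    have hEAB : E = A + B := by rw [hA]; abel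
    refine LinearMap.ext fun u => hq.ext fun v => ?_
    have e1 : q (E u) v = q (A u) v + q (B u) v := by
      rw [← LinearMap.add_apply, ← map_add, ← LinearMap.add_apply, ← hEAB]
    have e2 : q u (E v) = q u (A v) + q u (B v) := by
      rw [← map_add, ← LinearMap.add_apply, ← hEAB]
    have e3 := hE.adj u v
    have a1 : q (A u) v = ∑ k, q (ten q (x k) (y k) u) v := by
      rw [hAs, LinearMap.sum_apply, map_sum, LinearMap.sum_apply]
    have a2 : q u (A v) = ∑ k, q (ten q (y k) (x k) u) v := by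
      rw [hAs, LinearMap.sum_apply, map_sum]
      exact Finset.sum_congr rfl fun k _ => (ten_adj hq _ _ _ _).symm
    have b1 : q (B u) v = ∑ k, q (ten q (z k) (j k) u) v := by
      rw [hBs, LinearMap.sum_apply, map_sum, LinearMap.sum_apply]
    have b2 : q u (B v) = ∑ k, q (ten q (j k) (z k) u) v := by
      rw [hBs, LinearMap.sum_apply, map_sum]
      exact Finset.sum_congr rfl fun k _ => (ten_adj hq _ _ _ _).symm
    have c1 : q ((∑ k, (ten q (x k) (y k) - ε • ten q (y k) (x k)) +
        ∑ k, (ten q (z k) (j k) - ε • ten q (j k) (z k))) u) v =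
        (∑ k, q (ten q (x k) (y k) u) v - ε * ∑ k, q (ten q (y k) (x k) u) v) +
        (∑ k, q (ten q (z k) (j k) u) v - ε * ∑ k, q (ten q (j k) (z k) u) v) := by
      rw [LinearMap.add_apply, LinearMap.sum_apply, LinearMap.sum_apply, map_add,
        LinearMap.add_apply, map_sum, map_sum, LinearMap.sum_apply, LinearMap.sum_apply,
        Finset.mul_sum, Finset.mul_sum, ← Finset.sum_sub_distrib, ← Finset.sum_sub_distrib]
      congr 1
      · refine Finset.sum_congr rfl fun k _ => ?_
        rw [LinearMap.sub_apply, LinearMap.smul_apply, map_sub, LinearMap.sub_apply, map_smul,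
          LinearMap.smul_apply, smul_eq_mul]
      · refine Finset.sum_congr rfl fun k _ => ?_
        rw [LinearMap.sub_apply, LinearMap.smul_apply, map_sub, LinearMap.sub_apply, map_smul,
          LinearMap.smul_apply, smul_eq_mul]
    rw [c1, ← a1, ← a2, ← b1, ← b2, LinearMap.smul_apply, map_smul, LinearMap.smul_apply,
      smul_eq_mul]
    linear_combination e1 - ε * e2 + e3
  have h5 : (2 : L) • E ∈ Slv C ε := by
    rw [key]
    refine add_mem (Submodule.sum_mem _ fun k _ => slv_ten hq hS C hε (hx k) (hy k))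
      (Submodule.sum_mem _ fun k _ => ?_)
    have h6 := slv_ten hq hS C hε (hj k) (C.V1_le (hz k))
    have h7 : ten q (z k) (j k) - ε • ten q (j k) (z k) =
        (-ε) • (ten q (j k) (z k) - ε • ten q (z k) (j k)) := by
      rw [smul_sub, smul_smul, neg_mul, hε, neg_smul, neg_smul, one_smul]
      abel
    rw [h7]
    exact Submodule.smul_mem _ _ h6
  have h8 := Submodule.smul_mem _ (2 : L)⁻¹ h5
  rw [smul_smul, inv_mul_cancel₀ h2, one_smul] at h8
  exact h8

end gen

end Vale.Agent.P182.H55
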