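import Vale.Agent.P182.H55.Solv
import Vale.Agent.P182.H55.NullU

/-!
# The glued core: the operator `D̂` on `W`, and lifts of endomorphisms of `V₁`

`exists_Dhat`: `t'^* = t^* D̂` on `W`, with `D̂` preserving `W` and `I` and inducing `D` on `V₁`.

`exists_lift_skew`: a skew `Y` on `V₁` commuting with `S1 s` lifts to a family `Y_a` of skew
tensors in `W ⊗ W`, equal to `Ŷ` at `s` modulo `I ∧ W`, with `∑ [S_a, Y_a] = 0`.
-/

namespace Vale.Agent.P182.H55

open Module Matrix Vale.Agent.P182.H533 Vale.Agent.P182.B1 Vale.Agent.P182.H578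
  Vale.Agent.P182.H922 Vale.Agent.P182.H588

universe u v w

section dhat

variable {L : Type u} {V : Type v} {J : Type w} [Field L] [AddCommGroup V] [Module L V]
  [FiniteDimensional L V] [Fintype J] [DecidableEq J] {𝒟 : Cfg L V J} {u : J → L}

/-- **The operator `D̂`** on `W`. -/
theorem exists_Dhat (hG : 𝒟.Good)
    (hK : KRel 𝒟.arm 𝒟.q 𝒟.Ω (Tt L '' (Ku 𝒟 u : Set (J → V)))) {t t' : J → V}
    (ht : t ∈ Ku 𝒟 u) (ht' : t' ∈ Ku 𝒟 u) (C : Core 𝒟.q (Res 𝒟 t)) {D : End L C.V1}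
    (hD2 : ∀ s, C.res hG.form (opr 𝒟.q (Tt L t) (Gm 𝒟.arm 𝒟.Ω s) (Tt L t')) =
      D * C.S1 hG.form s) :
    ∃ Dh : End L V, (∀ w ∈ C.W, Dh w ∈ C.W) ∧ (∀ w ∈ C.I, Dh w ∈ C.I) ∧
      (∀ w ∈ C.W, ∀ l, 𝒟.q (t' l) w = 𝒟.q (t l) (Dh w)) ∧
      ∀ w ∈ C.W, C.P hG.form (Dh w) = D (C.P hG.form w) := by
  have hq := hG.form
  have hX : Tt L t ∈ Tt L '' (Ku 𝒟 u : Set (J → V)) := ⟨t, ht, rfl⟩
  have hX' : Tt L t' ∈ Tt L '' (Ku 𝒟 u : Set (J → V)) := ⟨t', ht', rfl⟩
  have hSA : ∀ s, IsSA 𝒟.q (Res 𝒟 t s) := fun s => Sop_SA 𝒟.arm hq (Tt L t) hG.skew s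
  obtain ⟨ξ, hξ1, hξ2⟩ := exists_section C
  have hc := hK.compat hq hG.skew hX hX'
  have h1 : ∀ w ∈ C.W, C.P hq ((∑ a, opr 𝒟.q (Tt L t) (Gm 𝒟.arm 𝒟.Ω a) (Tt L t') ∘ₗ ξ a) w) =
      D (C.P hq w) := by
    intro w hw
    rw [LinearMap.sum_apply, map_sum]
    have e1 : ∀ a, C.P hq ((opr 𝒟.q (Tt L t) (Gm 𝒟.arm 𝒟.Ω a) (Tt L t') ∘ₗ ξ a) w) =
        D (C.P hq (Res 𝒟 t a (ξ a w))) := by
      intro a
      rw [LinearMap.comp_apply]
      have e2 : ∀ f : End L V, (∀ i ∈ C.I, f i ∈ C.I) → ∀ w ∈ C.W,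
          C.P hq (f w) = C.res hq f (C.P hq w) := by
        intro f hf w hw
        have h3 : w = (w - (C.P hq w : V)) + (C.P hq w : V) := by abel
        conv_lhs => rw [h3]
        rw [map_add, map_add, C.P_eq_zero hq (C.I_le_perp (hf _ (C.sub_P_mem_I hq hw))), zero_add]
        rfl
      rw [e2 _ (fun i hi => hc.map_I C a hi) _ (hξ1 a w hw), hD2,
        e2 _ (fun i hi => C.map_I hSA hi) _ (hξ1 a w hw)]
      rfl
    rw [Finset.sum_congr rfl fun a _ => e1 a, ← map_sum, ← map_sum, hξ2 w hw]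
  have hW : ∀ w ∈ C.W, (∑ a, opr 𝒟.q (Tt L t) (Gm 𝒟.arm 𝒟.Ω a) (Tt L t') ∘ₗ ξ a) w ∈ C.W := by
    intro w hw
    rw [LinearMap.sum_apply]
    exact Submodule.sum_mem _ fun a _ => hc.map_W C a (hξ1 a w hw)
  refine ⟨_, hW, fun i hi => ?_, fun w hw l => ?_, h1⟩
  · have h3 := C.sub_P_mem_I hq (hW i hi.1)
    rwa [h1 i hi.1, C.P_eq_zero hq hi.2, map_zero, Submodule.coe_zero, sub_zero] at h3
  · rw [LinearMap.sum_apply, map_sum]
    conv_lhs => rw [← hξ2 w hw, map_sum]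
    refine Finset.sum_congr rfl fun a _ => ?_
    rw [LinearMap.comp_apply, hK.swap hq hG.skew hX hX']
    have h3 : ∀ x : J → L, 𝒟.q (t' l) (Tt L t x) = 𝒟.q (t l) (Tt L t' x) := by
      intro x
      have h4 := hK.F1 _ hX' _ hX (Pi.single l 1) x
      rwa [Tt_single, Tt_single] at h4
    exact h3 _

omit [Fintype J] in
/-- an operator inducing `M` on `V₁` is self-adjoint on `W` when `M` is -/
theorem sa_of_P {q : V →ₗ[L] V →ₗ[L] L} (hq : IsForm q) {S : Fin 3 → End L V} (C : Core q S)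
    {M : End L C.V1} (hM : IsSA C.q1 M) {Dh : End L V} (hW : ∀ w ∈ C.W, Dh w ∈ C.W)
    (hP : ∀ w ∈ C.W, C.P hq (Dh w) = M (C.P hq w)) :
    ∀ v ∈ C.W, ∀ w ∈ C.W, q (Dh v) w = q v (Dh w) := by
  have h1 : ∀ v ∈ C.W, ∀ w ∈ C.W, q v w = C.q1 (C.P hq v) (C.P hq w) := by
    intro v hv w hw
    rw [C.q_P hq]
    have h3 := (C.sub_P_mem_I hq hw)
    have h4 : q v (w - (C.P hq w : V)) = 0 := C.I_ortho_W hq h3 hv
    rwa [map_sub, sub_eq_zero] at h4
  intro v hv w hw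
  rw [h1 _ (hW v hv) _ hw, h1 _ hv _ (hW w hw), hP v hv, hP w hw, hM]

end dhat

section lift

variable {L V : Type*} [Field L] [AddCommGroup V] [Module L V] [FiniteDimensional L V]
  {q : V →ₗ[L] V →ₗ[L] L} {S : Fin 3 → End L V}

/-- the lift of an endomorphism of `V₁` to a tensor in `V₁ ⊗ V₁` -/
noncomputable def lf (hq : IsForm q) (C : Core q S) (Y : End L C.V1) : End L V :=
  C.V1.subtype ∘ₗ Y ∘ₗ C.P hq

theorem lf_apply (hq : IsForm q) (C : Core q S) (Y : End L C.V1) (v : V) :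
    lf hq C Y v = (Y (C.P hq v) : V) := rfl

theorem lf_mem (hq : IsForm q) (C : Core q S) (Y : End L C.V1) (v : V) : lf hq C Y v ∈ C.W :=
  C.V1_le (Y _).2

theorem lf_kill (hq : IsForm q) (C : Core q S) (Y : End L C.V1) {v : V} (hv : v ∈ perp q C.W) :
    lf hq C Y v = 0 := by
  rw [lf_apply, C.P_eq_zero hq hv, map_zero, Submodule.coe_zero]

theorem lf_q (hq : IsForm q) (C : Core q S) (Y : End L C.V1) (v w : V) :
    q (lf hq C Y v) w = C.q1 (Y (C.P hq v)) (C.P hq w) := by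
  rw [(C.isForm hq).symm, C.q_P, hq.symm, lf_apply]

theorem lf_skew (hq : IsForm q) (C : Core q S) {Y : End L C.V1} (hY : IsSk C.q1 Y) :
    IsSk q (lf hq C Y) := by
  intro v w
  rw [lf_q, hq.symm v, lf_q, hY, (C.isForm hq).symm]

theorem lf_sa (hq : IsForm q) (C : Core q S) {Y : End L C.V1} (hY : IsSA C.q1 Y) :
    IsSA q (lf hq C Y) := by
  intro v w
  rw [lf_q, hq.symm v, lf_q, hY, (C.isForm hq).symm]

theorem P_lf (hq : IsForm q) (C : Core q S) (Y : End L C.V1) (v : V) :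
    C.P hq (lf hq C Y v) = Y (C.P hq v) := by
  rw [lf_apply, C.P_coe]

/-- the compression of an operator preserving `I` -/
theorem P_res (hq : IsForm q) (C : Core q S) {f : End L V} (hf : ∀ i ∈ C.I, f i ∈ C.I) {w : V}
    (hw : w ∈ C.W) : C.P hq (f w) = C.res hq f (C.P hq w) := by
  have h3 : w = (w - (C.P hq w : V)) + (C.P hq w : V) := by abel
  conv_lhs => rw [h3]
  rw [map_add, map_add, C.P_eq_zero hq (C.I_le_perp (hf _ (C.sub_P_mem_I hq hw))), zero_add]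
  rfl

/-- the commutator of a lift and an operator commuting with it on `V₁` -/
theorem TI_comm (hq : IsForm q) (C : Core q S) {f : End L V} (hf : IsSA q f)
    (hfW : ∀ w ∈ C.W, f w ∈ C.W) {Y : End L C.V1} (hY : IsSk C.q1 Y)
    (hc : Y * C.res hq f = C.res hq f * Y) :
    TI C (-(-1 : L)) (f * lf hq C Y - lf hq C Y * f) := by
  have hfI : ∀ i ∈ C.I, f i ∈ C.I := fun i hi => ⟨hfW i hi.1, fun w hw => by
    rw [hf]; exact hi.2 _ (hfW w hw)⟩
  have hfp : ∀ v ∈ perp q C.W, f v ∈ perp q C.W := fun v hv w hw => by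
    rw [hf]; exact hv _ (hfW w hw)
  have hmem : ∀ v, (f * lf hq C Y - lf hq C Y * f) v ∈ C.W := fun v => by
    rw [LinearMap.sub_apply, Module.End.mul_apply, Module.End.mul_apply]
    exact sub_mem (hfW _ (lf_mem hq C Y v)) (lf_mem hq C Y _)
  refine ⟨hmem, fun v hv => ?_, fun w hw => ?_, fun v w => ?_⟩
  · rw [LinearMap.sub_apply, Module.End.mul_apply, Module.End.mul_apply, lf_kill hq C Y hv,
      lf_kill hq C Y (hfp v hv), map_zero, sub_zero]
  · have h1 : C.P hq ((f * lf hq C Y - lf hq C Y * f) w) = 0 := by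
      rw [LinearMap.sub_apply, Module.End.mul_apply, Module.End.mul_apply, map_sub, P_lf,
        P_res hq C hfI (lf_mem hq C Y w), P_lf, P_res hq C hfI hw]
      have h3 := LinearMap.congr_fun hc (C.P hq w)
      rw [Module.End.mul_apply, Module.End.mul_apply] at h3
      rw [h3, sub_self]
    have h4 := C.sub_P_mem_I hq (hmem w)
    rwa [h1, Submodule.coe_zero, sub_zero] at h4
  · rw [LinearMap.sub_apply, LinearMap.sub_apply, Module.End.mul_apply, Module.End.mul_apply,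
      Module.End.mul_apply, Module.End.mul_apply, map_sub, map_sub, LinearMap.sub_apply, hf,
      lf_skew hq C hY, lf_skew hq C hY, ← hf]
    ring

/-- **The lift of a skew endomorphism commuting with `S1 s`.** -/
theorem exists_lift_skew (hq : IsForm q) (h2 : (2 : L) ≠ 0) (hS : ∀ s, IsSA q (S s))
    (C : Core q S) (s : Fin 3) {Y : End L C.V1} (hY : IsSk C.q1 Y)
    (hc : Y * C.S1 hq s = C.S1 hq s * Y) :
    ∃ b : Fin 3 → End L V, (∀ a, TI C (-1 : L) (b a)) ∧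
      ∑ a, (S a * ((if a = s then lf hq C Y else 0) + b a) -
        ((if a = s then lf hq C Y else 0) + b a) * S a) = 0 := by
  obtain ⟨b, hb1, hb2⟩ := solv hq h2 hS C (ε := (-1 : L)) (by ring)
    (TI_comm hq C (hS s) (fun w hw => C.map_W hw) hY hc)
  refine ⟨fun a => - b a, fun a => ?_, ?_⟩
  · have := (hb1 a).smul (-1 : L)
    rwa [neg_one_smul] at this
  · have h1 : ∀ a, (S a * ((if a = s then lf hq C Y else 0) + - b a) -
        ((if a = s then lf hq C Y else 0) + - b a) * S a) =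
        (if a = s then S a * lf hq C Y - lf hq C Y * S a else 0) -
          (S a * b a - b a * S a) := by
      intro a
      split_ifs
      · noncomm_ring
      · noncomm_ring
    rw [Finset.sum_congr rfl fun a _ => h1 a, Finset.sum_sub_distrib, hb2,
      Finset.sum_ite_eq' Finset.univ s, if_pos (Finset.mem_univ _), sub_self]

end lift

end Vale.Agent.P182.H55
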