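import Vale.Agent.P182.H163.Factor2b

/-!
# Closure of the triples with invariants under addition
-/

namespace Vale.Agent.P182.H55

open scoped InnerProductSpace ComplexConjugate TensorProduct
open Vale.Agent.P182

section poly

variable {E F G : Type*} [AddCommGroup E] [Module ℂ E] [AddCommGroup F] [Module ℂ F]
  [AddCommGroup G] [Module ℂ G]

/-- polynomial maps `ℂ → E` -/
def PM (E : Type*) [AddCommGroup E] [Module ℂ E] : Submodule ℂ (ℂ → E) :=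
  Submodule.span ℂ {p | ∃ (k : ℕ) (v : E), p = fun t => t ^ k • v}

theorem pm_mono (k : ℕ) (v : E) : (fun t : ℂ => t ^ k • v) ∈ PM E :=
  Submodule.subset_span ⟨k, v, rfl⟩

theorem pm_const (v : E) : (fun _ : ℂ => v) ∈ PM E := by
  have := pm_mono 0 v
  simpa using this

theorem pm_map (A : E →ₗ[ℂ] F) {p : ℂ → E} (hp : p ∈ PM E) : (fun t => A (p t)) ∈ PM F := by
  induction hp using Submodule.span_induction with
  | mem p hp =>
    obtain ⟨k, v, rfl⟩ := hp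
    simpa using pm_mono k (A v)
  | zero =>
    have e : (fun t : ℂ => A ((0 : ℂ → E) t)) = 0 := by
      funext t
      simp
    rw [e]
    exact (PM F).zero_mem
  | add p q _ _ hp hq =>
    have e : (fun t : ℂ => A ((p + q) t)) = (fun t => A (p t)) + fun t => A (q t) := by
      funext t
      rw [Pi.add_apply, Pi.add_apply, map_add]
    rw [e]
    exact (PM F).add_mem hp hq
  | smul c p _ hp =>
    have e : (fun t : ℂ => A ((c • p) t)) = c • fun t => A (p t) := by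
      funext t
      rw [Pi.smul_apply, Pi.smul_apply, map_smul]
    rw [e]
    exact (PM F).smul_mem c hp

theorem pm_pow (k : ℕ) {p : ℂ → E} (hp : p ∈ PM E) : (fun t => t ^ k • p t) ∈ PM E := by
  induction hp using Submodule.span_induction with
  | mem p hp =>
    obtain ⟨j, v, rfl⟩ := hp
    have h := pm_mono (k + j) v
    have e : (fun t : ℂ => t ^ k • t ^ j • v) = fun t => t ^ (k + j) • v := by
      funext t
      rw [smul_smul, pow_add]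
    show (fun t : ℂ => t ^ k • t ^ j • v) ∈ PM E
    rw [e]
    exact h
  | zero =>
    have e : (fun t : ℂ => t ^ k • (0 : ℂ → E) t) = 0 := by
      funext t
      simp
    rw [e]
    exact (PM E).zero_mem
  | add p q _ _ hp hq =>
    have e : (fun t : ℂ => t ^ k • (p + q) t) = (fun t => t ^ k • p t) + fun t => t ^ k • q t := by
      funext t
      rw [Pi.add_apply, Pi.add_apply, smul_add]
    rw [e]
    exact (PM E).add_mem hp hq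
  | smul c p _ hp =>
    have e : (fun t : ℂ => t ^ k • (c • p) t) = c • fun t => t ^ k • p t := by
      funext t
      rw [Pi.smul_apply, Pi.smul_apply, smul_comm]
    rw [e]
    exact (PM E).smul_mem c hp

theorem pm_bil (B : E →ₗ[ℂ] F →ₗ[ℂ] G) {p : ℂ → E} {q : ℂ → F} (hp : p ∈ PM E)
    (hq : q ∈ PM F) : (fun t => B (p t) (q t)) ∈ PM G := by
  induction hp using Submodule.span_induction with
  | mem p hp =>
    obtain ⟨k, v, rfl⟩ := hp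
    have h := pm_pow k (pm_map (B v) hq)
    have e : (fun t : ℂ => B (t ^ k • v) (q t)) = fun t => t ^ k • B v (q t) := by
      funext t
      rw [map_smul, LinearMap.smul_apply]
    show (fun t : ℂ => B (t ^ k • v) (q t)) ∈ PM G
    rw [e]
    exact h
  | zero =>
    have e : (fun t : ℂ => B ((0 : ℂ → E) t) (q t)) = 0 := by
      funext t
      simp
    rw [e]
    exact (PM G).zero_mem
  | add p p' _ _ hp hp' =>
    have e : (fun t : ℂ => B ((p + p') t) (q t)) =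
        (fun t => B (p t) (q t)) + fun t => B (p' t) (q t) := by
      funext t
      rw [Pi.add_apply, Pi.add_apply, map_add, LinearMap.add_apply]
    rw [e]
    exact (PM G).add_mem hp hp'
  | smul c p _ hp =>
    have e : (fun t : ℂ => B ((c • p) t) (q t)) = c • fun t => B (p t) (q t) := by
      funext t
      rw [Pi.smul_apply, Pi.smul_apply, map_smul, LinearMap.smul_apply]
    rw [e]
    exact (PM G).smul_mem c hp

theorem pm_smul {r : ℂ → ℂ} {p : ℂ → E} (hr : r ∈ PM ℂ) (hp : p ∈ PM E) :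
    (fun t => r t • p t) ∈ PM E :=
  pm_bil (LinearMap.lsmul ℂ E) hr hp

theorem pm_powsmul {r : ℂ → ℂ} {p : ℂ → E} (hr : r ∈ PM ℂ) (hp : p ∈ PM E) (i : ℕ) :
    (fun t => r t ^ i • p t) ∈ PM E := by
  induction i with
  | zero => simpa using hp
  | succ i ih =>
    have h := pm_smul hr ih
    have e : (fun t => r t ^ (i + 1) • p t) = fun t => r t • r t ^ i • p t := by
      funext t
      rw [smul_smul, pow_succ']
    rw [e]
    exact h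

theorem pm_sum {ι : Type*} (s : Finset ι) {p : ι → ℂ → E} (hp : ∀ i ∈ s, p i ∈ PM E) :
    (fun t => ∑ i ∈ s, p i t) ∈ PM E := by
  have e : (fun t => ∑ i ∈ s, p i t) = ∑ i ∈ s, p i := by
    funext t
    rw [Finset.sum_apply]
  rw [e]
  exact Submodule.sum_mem _ hp

theorem pm_ex {X : Module.End ℂ E} (hX : IsNilpotent X) {r : ℂ → ℂ} {p : ℂ → E}
    (hr : r ∈ PM ℂ) (hp : p ∈ PM E) : (fun t => ex (r t • X) (p t)) ∈ PM E := by
  obtain ⟨k, hk⟩ := hX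
  have e : (fun t => ex (r t • X) (p t)) =
      fun t => ∑ i ∈ Finset.range k, r t ^ i • (((i.factorial : ℂ)⁻¹) • (X ^ i)) (p t) := by
    funext t
    rw [ex_eq_sum (k := k) (by rw [smul_pow, hk, smul_zero]), LinearMap.sum_apply]
    refine Finset.sum_congr rfl fun i _ => ?_
    rw [LinearMap.smul_apply, LinearMap.smul_apply, smul_pow, LinearMap.smul_apply, smul_comm]
  rw [e]
  exact pm_sum _ fun i _ => pm_powsmul hr (pm_map _ hp) i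

/-- polynomial maps to `ℂ` are polynomials -/
theorem pm_eval {p : ℂ → ℂ} (hp : p ∈ PM ℂ) : ∃ P : Polynomial ℂ, ∀ t, p t = P.eval t := by
  induction hp using Submodule.span_induction with
  | mem p hp =>
    obtain ⟨k, v, rfl⟩ := hp
    exact ⟨Polynomial.X ^ k * Polynomial.C v, fun t => by
      show t ^ k • v = _
      rw [Polynomial.eval_mul, Polynomial.eval_pow, Polynomial.eval_X, Polynomial.eval_C,
        smul_eq_mul]⟩
  | zero => exact ⟨0, fun t => by simp⟩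
  | add p q _ _ hp hq =>
    obtain ⟨P, hP⟩ := hp
    obtain ⟨Q, hQ⟩ := hq
    exact ⟨P + Q, fun t => by rw [Pi.add_apply, hP, hQ, Polynomial.eval_add]⟩
  | smul c p _ hp =>
    obtain ⟨P, hP⟩ := hp
    exact ⟨Polynomial.C c * P, fun t => by
      rw [Pi.smul_apply, hP, Polynomial.eval_mul, Polynomial.eval_C, smul_eq_mul]⟩

/-- two polynomial maps which do not vanish identically have a common point of non-vanishing -/
theorem pm_common {p q : ℂ → ℂ} (hp : p ∈ PM ℂ) (hq : q ∈ PM ℂ) {a b : ℂ} (ha : p a ≠ 0)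
    (hb : q b ≠ 0) : ∃ t, p t ≠ 0 ∧ q t ≠ 0 := by
  obtain ⟨P, hP⟩ := pm_eval hp
  obtain ⟨Q, hQ⟩ := pm_eval hq
  by_contra hcon
  push Not at hcon
  have h0 : P * Q = 0 := by
    apply Polynomial.funext
    intro t
    rw [Polynomial.eval_mul, Polynomial.eval_zero, ← hP, ← hQ]
    by_cases h : p t = 0
    · rw [h, zero_mul]
    · rw [hcon t h, mul_zero]
  rcases mul_eq_zero.mp h0 with h | h
  · apply ha
    rw [hP, h, Polynomial.eval_zero]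
  · apply hb
    rw [hQ, h, Polynomial.eval_zero]

end poly

section words

variable {L : Type*} [LieRing L] [LieAlgebra ℂ L]
variable (E F : Type*) [AddCommGroup E] [Module ℂ E] [LieRingModule L E] [LieModule ℂ L E]
  [AddCommGroup F] [Module ℂ F] [LieRingModule L F] [LieModule ℂ L F]

/-- the action of a word of exponentials -/
noncomputable def act : List (L × ℂ) → Module.End ℂ E
  | [] => 1
  | y :: l => ex (y.2 • LieModule.toEnd ℂ L E y.1) * act l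

theorem act_append (l l' : List (L × ℂ)) : act E (l ++ l') = act E l * act E l' := by
  induction l with
  | nil => rw [List.nil_append, act, one_mul]
  | cons y l ih => rw [List.cons_append, act, act, ih, mul_assoc]

variable {E F}

/-- scaling of the parameters of a word -/
def sc (t : ℂ) (l : List (L × ℂ)) : List (L × ℂ) := l.map fun y => (y.1, t * y.2)

omit [LieRing L] [LieAlgebra ℂ L] in
theorem sc_one (l : List (L × ℂ)) : sc 1 l = l := by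
  rw [sc]
  simp

omit [LieRing L] [LieAlgebra ℂ L] in
theorem sc_mem {R : Set L} {l : List (L × ℂ)} (hl : ∀ y ∈ l, y.1 ∈ R) (t : ℂ) :
    ∀ y ∈ sc t l, y.1 ∈ R := by
  intro y hy
  rw [sc, List.mem_map] at hy
  obtain ⟨z, hz, rfl⟩ := hy
  exact hl z hz

theorem act_sc_zero (l : List (L × ℂ)) : act E (sc 0 l) = 1 := by
  induction l with
  | nil => rfl
  | cons y l ih =>
    show ex ((0 * y.2) • LieModule.toEnd ℂ L E y.1) * act E (sc 0 l) = 1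
    rw [ih, zero_mul, zero_smul, ex_zero, one_mul]

theorem orb_act {R : Set L} {l : List (L × ℂ)} (hl : ∀ y ∈ l, y.1 ∈ R) (v : E) :
    Orb R v (act E l v) := by
  induction l with
  | nil => exact Orb.base
  | cons y l ih =>
    rw [act, Module.End.mul_apply]
    exact Orb.step y.1 (hl y List.mem_cons_self) y.2 _
      (ih fun z hz => hl z (List.mem_cons_of_mem _ hz))

theorem exists_word {R : Set L} {v w : E} (h : Orb R v w) :
    ∃ l : List (L × ℂ), (∀ y ∈ l, y.1 ∈ R) ∧ act E l v = w := by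
  induction h with
  | base => exact ⟨[], fun y hy => absurd hy List.not_mem_nil, rfl⟩
  | step x hx s w _ ih =>
    obtain ⟨l, hl, rfl⟩ := ih
    refine ⟨(x, s) :: l, fun y hy => ?_, rfl⟩
    rcases List.mem_cons.mp hy with rfl | hy
    · exact hx
    · exact hl y hy

theorem pm_act {R : Set L} (hR : ∀ x ∈ R, IsNilpotent (LieModule.toEnd ℂ L E x))
    {l : List (L × ℂ)} (hl : ∀ y ∈ l, y.1 ∈ R) {r : ℂ → ℂ} (hr : r ∈ PM ℂ) {p : ℂ → E}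
    (hp : p ∈ PM E) : (fun t => act E (sc (r t) l) (p t)) ∈ PM E := by
  induction l with
  | nil => exact hp
  | cons y l ih =>
    have h := ih fun z hz => hl z (List.mem_cons_of_mem _ hz)
    have hr' : (fun t => r t * y.2) ∈ PM ℂ := by
      have := (PM ℂ).smul_mem y.2 hr
      have e : (fun t => r t * y.2) = y.2 • r := by
        funext t
        rw [Pi.smul_apply, smul_eq_mul, mul_comm]
      rw [e]
      exact this
    exact pm_ex (hR _ (hl y List.mem_cons_self)) hr' h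

/-- the path between two words -/
theorem pm_path {R : Set L} (hE : ∀ x ∈ R, IsNilpotent (LieModule.toEnd ℂ L E x))
    {k m : List (L × ℂ)} (hk : ∀ y ∈ k, y.1 ∈ R) (hm : ∀ y ∈ m, y.1 ∈ R) (a : E) :
    (fun t => act E (sc t m ++ sc (1 - t) k) a) ∈ PM E := by
  have hid : (fun t : ℂ => t) ∈ PM ℂ := by
    have := pm_mono (E := ℂ) 1 1
    simpa using this
  have hco : (fun t : ℂ => 1 - t) ∈ PM ℂ := (PM ℂ).sub_mem (pm_const 1) hid
  have h1 := pm_act hE hm hid (pm_act hE hk hco (pm_const a))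
  have e : (fun t => act E (sc t m ++ sc (1 - t) k) a) =
      fun t => act E (sc t m) (act E (sc (1 - t) k) a) := by
    funext t
    rw [act_append, Module.End.mul_apply]
  rw [e]
  exact h1

theorem path_zero (k m : List (L × ℂ)) (a : E) :
    act E (sc 0 m ++ sc (1 - 0) k) a = act E k a := by
  rw [act_append, act_sc_zero, one_mul, sub_zero, sc_one]

theorem path_one (k m : List (L × ℂ)) (a : E) :
    act E (sc 1 m ++ sc (1 - 1) k) a = act E m a := by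
  rw [act_append, sub_self, act_sc_zero, mul_one, sc_one]

omit [LieRing L] [LieAlgebra ℂ L] in
theorem path_mem {R : Set L} {k m : List (L × ℂ)} (hk : ∀ y ∈ k, y.1 ∈ R)
    (hm : ∀ y ∈ m, y.1 ∈ R) (t : ℂ) : ∀ y ∈ sc t m ++ sc (1 - t) k, y.1 ∈ R := by
  intro y hy
  rcases List.mem_append.mp hy with h | h
  · exact sc_mem hm t y h
  · exact sc_mem hk (1 - t) y h

theorem act_tmul {R : Set L} (hE : ∀ x ∈ R, IsNilpotent (LieModule.toEnd ℂ L E x))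
    (hF : ∀ x ∈ R, IsNilpotent (LieModule.toEnd ℂ L F x)) {l : List (L × ℂ)}
    (hl : ∀ y ∈ l, y.1 ∈ R) (a : E) (b : F) :
    act (E ⊗[ℂ] F) l (a ⊗ₜ[ℂ] b) = act E l a ⊗ₜ[ℂ] act F l b := by
  induction l with
  | nil => rfl
  | cons y l ih =>
    have h := ih fun z hz => hl z (List.mem_cons_of_mem _ hz)
    have hy := hl y List.mem_cons_self
    rw [act, act, act, Module.End.mul_apply, Module.End.mul_apply, Module.End.mul_apply, h,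
      ex_tensor (hE _ hy) (hF _ hy)]

end words

section product

variable {L : Type*} [LieRing L] [LieAlgebra ℂ L]
variable {E₁ E₂ E₃ F₁ F₂ F₃ : Type*}
  [AddCommGroup E₁] [Module ℂ E₁] [LieRingModule L E₁] [LieModule ℂ L E₁]
  [AddCommGroup E₂] [Module ℂ E₂] [LieRingModule L E₂] [LieModule ℂ L E₂]
  [AddCommGroup E₃] [Module ℂ E₃] [LieRingModule L E₃] [LieModule ℂ L E₃]
  [AddCommGroup F₁] [Module ℂ F₁] [LieRingModule L F₁] [LieModule ℂ L F₁]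
  [AddCommGroup F₂] [Module ℂ F₂] [LieRingModule L F₂] [LieModule ℂ L F₂]
  [AddCommGroup F₃] [Module ℂ F₃] [LieRingModule L F₃] [LieModule ℂ L F₃]

/-- The product of two functionals. -/
noncomputable def prF (f : E₁ ⊗[ℂ] (E₂ ⊗[ℂ] E₃) →ₗ[ℂ] ℂ) (g : F₁ ⊗[ℂ] (F₂ ⊗[ℂ] F₃) →ₗ[ℂ] ℂ) :
    (E₁ ⊗[ℂ] F₁) ⊗[ℂ] ((E₂ ⊗[ℂ] F₂) ⊗[ℂ] (E₃ ⊗[ℂ] F₃)) →ₗ[ℂ] ℂ :=
  (LinearMap.mul' ℂ ℂ ∘ₗ TensorProduct.map f g) ∘ₗ
    ((TensorProduct.tensorTensorTensorComm ℂ E₁ F₁ (E₂ ⊗[ℂ] E₃) (F₂ ⊗[ℂ] F₃)).toLinearMap ∘ₗ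
      TensorProduct.map LinearMap.id
        (TensorProduct.tensorTensorTensorComm ℂ E₂ F₂ E₃ F₃).toLinearMap)

theorem prF_apply (f : E₁ ⊗[ℂ] (E₂ ⊗[ℂ] E₃) →ₗ[ℂ] ℂ) (g : F₁ ⊗[ℂ] (F₂ ⊗[ℂ] F₃) →ₗ[ℂ] ℂ)
    (a : E₁) (a' : F₁) (b : E₂) (b' : F₂) (c : E₃) (c' : F₃) :
    prF f g ((a ⊗ₜ[ℂ] a') ⊗ₜ[ℂ] ((b ⊗ₜ[ℂ] b') ⊗ₜ[ℂ] (c ⊗ₜ[ℂ] c'))) =
      f (a ⊗ₜ[ℂ] (b ⊗ₜ[ℂ] c)) * g (a' ⊗ₜ[ℂ] (b' ⊗ₜ[ℂ] c')) := by
  simp [prF]

theorem prF_inv (f : E₁ ⊗[ℂ] (E₂ ⊗[ℂ] E₃) →ₗ[ℂ] ℂ) (g : F₁ ⊗[ℂ] (F₂ ⊗[ℂ] F₃) →ₗ[ℂ] ℂ)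
    (hf : ∀ (x : L) u, f ⁅x, u⁆ = 0) (hg : ∀ (x : L) u, g ⁅x, u⁆ = 0) (x : L)
    (u : (E₁ ⊗[ℂ] F₁) ⊗[ℂ] ((E₂ ⊗[ℂ] F₂) ⊗[ℂ] (E₃ ⊗[ℂ] F₃))) : prF f g ⁅x, u⁆ = 0 := by
  induction u using TensorProduct.induction_on with
  | zero => simp
  | add u v hu hv => rw [lie_add, map_add, hu, hv, add_zero]
  | tmul p q =>
    induction p using TensorProduct.induction_on with
    | zero => simp
    | add p p' hp hp' => rw [TensorProduct.add_tmul, lie_add, map_add, hp, hp', add_zero]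
    | tmul a a' =>
      induction q using TensorProduct.induction_on with
      | zero => simp
      | add q q' hq hq' => rw [TensorProduct.tmul_add, lie_add, map_add, hq, hq', add_zero]
      | tmul r t =>
        induction r using TensorProduct.induction_on with
        | zero => simp
        | add r r' hr hr' =>
          rw [TensorProduct.add_tmul, TensorProduct.tmul_add, lie_add, map_add, hr, hr', add_zero]
        | tmul b b' =>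
          induction t using TensorProduct.induction_on with
          | zero => simp
          | add t t' ht ht' =>
            rw [TensorProduct.tmul_add, TensorProduct.tmul_add, lie_add, map_add, ht, ht',
              add_zero]
          | tmul c c' =>
            have h1 := hf x (a ⊗ₜ[ℂ] (b ⊗ₜ[ℂ] c))
            have h2 := hg x (a' ⊗ₜ[ℂ] (b' ⊗ₜ[ℂ] c'))
            simp only [TensorProduct.LieModule.lie_tmul_right, TensorProduct.tmul_add,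
              TensorProduct.add_tmul, map_add] at h1 h2 ⊢
            simp only [prF_apply]
            linear_combination (g (a' ⊗ₜ[ℂ] (b' ⊗ₜ[ℂ] c'))) * h1 + (f (a ⊗ₜ[ℂ] (b ⊗ₜ[ℂ] c))) * h2

/-- trilinear evaluation on polynomial maps -/
theorem pm_tri (f : E₁ ⊗[ℂ] (E₂ ⊗[ℂ] E₃) →ₗ[ℂ] ℂ) {p : ℂ → E₁} {q : ℂ → E₂} {r : ℂ → E₃}
    (hp : p ∈ PM E₁) (hq : q ∈ PM E₂) (hr : r ∈ PM E₃) :
    (fun t => f (p t ⊗ₜ[ℂ] (q t ⊗ₜ[ℂ] r t))) ∈ PM ℂ :=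
  pm_map f (pm_bil (TensorProduct.mk ℂ E₁ (E₂ ⊗[ℂ] E₃)) hp
    (pm_bil (TensorProduct.mk ℂ E₂ E₃) hq hr))

/-- two functionals which do not vanish on the orbits have a common triple of words -/
theorem exists_common {R : Set L} (hE₁ : ∀ x ∈ R, IsNilpotent (LieModule.toEnd ℂ L E₁ x))
    (hE₂ : ∀ x ∈ R, IsNilpotent (LieModule.toEnd ℂ L E₂ x))
    (hE₃ : ∀ x ∈ R, IsNilpotent (LieModule.toEnd ℂ L E₃ x))
    (hF₁ : ∀ x ∈ R, IsNilpotent (LieModule.toEnd ℂ L F₁ x))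
    (hF₂ : ∀ x ∈ R, IsNilpotent (LieModule.toEnd ℂ L F₂ x))
    (hF₃ : ∀ x ∈ R, IsNilpotent (LieModule.toEnd ℂ L F₃ x))
    (f : E₁ ⊗[ℂ] (E₂ ⊗[ℂ] E₃) →ₗ[ℂ] ℂ) (g : F₁ ⊗[ℂ] (F₂ ⊗[ℂ] F₃) →ₗ[ℂ] ℂ)
    {a₁ : E₁} {a₂ : E₂} {a₃ : E₃} {b₁ : F₁} {b₂ : F₂} {b₃ : F₃}
    (h : ∃ p, Orb R a₁ p ∧ ∃ q, Orb R a₂ q ∧ ∃ r, Orb R a₃ r ∧ f (p ⊗ₜ[ℂ] (q ⊗ₜ[ℂ] r)) ≠ 0)
    (h' : ∃ p, Orb R b₁ p ∧ ∃ q, Orb R b₂ q ∧ ∃ r, Orb R b₃ r ∧ g (p ⊗ₜ[ℂ] (q ⊗ₜ[ℂ] r)) ≠ 0) :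
    ∃ l₁ l₂ l₃ : List (L × ℂ), (∀ y ∈ l₁, y.1 ∈ R) ∧ (∀ y ∈ l₂, y.1 ∈ R) ∧
      (∀ y ∈ l₃, y.1 ∈ R) ∧
      f (act E₁ l₁ a₁ ⊗ₜ[ℂ] (act E₂ l₂ a₂ ⊗ₜ[ℂ] act E₃ l₃ a₃)) ≠ 0 ∧
      g (act F₁ l₁ b₁ ⊗ₜ[ℂ] (act F₂ l₂ b₂ ⊗ₜ[ℂ] act F₃ l₃ b₃)) ≠ 0 := by
  obtain ⟨_, hp, _, hq, _, hr, hne⟩ := h
  obtain ⟨_, hp', _, hq', _, hr', hne'⟩ := h'
  obtain ⟨k₁, hk₁, rfl⟩ := exists_word hp
  obtain ⟨k₂, hk₂, rfl⟩ := exists_word hq
  obtain ⟨k₃, hk₃, rfl⟩ := exists_word hr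
  obtain ⟨m₁, hm₁, rfl⟩ := exists_word hp'
  obtain ⟨m₂, hm₂, rfl⟩ := exists_word hq'
  obtain ⟨m₃, hm₃, rfl⟩ := exists_word hr'
  obtain ⟨t, h1, h2⟩ := pm_common
    (pm_tri f (pm_path hE₁ hk₁ hm₁ a₁) (pm_path hE₂ hk₂ hm₂ a₂) (pm_path hE₃ hk₃ hm₃ a₃))
    (pm_tri g (pm_path hF₁ hk₁ hm₁ b₁) (pm_path hF₂ hk₂ hm₂ b₂) (pm_path hF₃ hk₃ hm₃ b₃))
    (a := 0) (b := 1) (by
      show f (act E₁ (sc 0 m₁ ++ sc (1 - 0) k₁) a₁ ⊗ₜ[ℂ]
        (act E₂ (sc 0 m₂ ++ sc (1 - 0) k₂) a₂ ⊗ₜ[ℂ] act E₃ (sc 0 m₃ ++ sc (1 - 0) k₃) a₃)) ≠ 0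
      rw [path_zero, path_zero, path_zero]
      exact hne) (by
      show g (act F₁ (sc 1 m₁ ++ sc (1 - 1) k₁) b₁ ⊗ₜ[ℂ]
        (act F₂ (sc 1 m₂ ++ sc (1 - 1) k₂) b₂ ⊗ₜ[ℂ] act F₃ (sc 1 m₃ ++ sc (1 - 1) k₃) b₃)) ≠ 0
      rw [path_one, path_one, path_one]
      exact hne')
  exact ⟨_, _, _, path_mem hk₁ hm₁ t, path_mem hk₂ hm₂ t, path_mem hk₃ hm₃ t, h1, h2⟩

end product

section add

variable {n : ℕ}

/-- **Closure under addition**: invariants for `(λ_s)` and for `(μ_s)` give invariants for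
`(λ_s + μ_s)`. -/
theorem hasInvariants_add (hn : 2 ≤ n) {lam mu : Fin 3 → Fin n → ℚ}
    (hl : ∀ s, IsDominant (lam s)) (hm : ∀ s, IsDominant (mu s))
    {V₀ V₁ V₂ U₀ U₁ U₂ W₀ W₁ W₂ : Type*} [AddCommGroup V₀] [Module ℂ V₀]
    [LieRingModule (so n) V₀] [LieModule ℂ (so n) V₀] [AddCommGroup V₁] [Module ℂ V₁]
    [LieRingModule (so n) V₁] [LieModule ℂ (so n) V₁] [AddCommGroup V₂] [Module ℂ V₂]
    [LieRingModule (so n) V₂] [LieModule ℂ (so n) V₂] [AddCommGroup U₀] [Module ℂ U₀]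
    [LieRingModule (so n) U₀] [LieModule ℂ (so n) U₀] [AddCommGroup U₁] [Module ℂ U₁]
    [LieRingModule (so n) U₁] [LieModule ℂ (so n) U₁] [AddCommGroup U₂] [Module ℂ U₂]
    [LieRingModule (so n) U₂] [LieModule ℂ (so n) U₂] [AddCommGroup W₀] [Module ℂ W₀]
    [LieRingModule (so n) W₀] [LieModule ℂ (so n) W₀] [AddCommGroup W₁] [Module ℂ W₁]
    [LieRingModule (so n) W₁] [LieModule ℂ (so n) W₁] [AddCommGroup W₂] [Module ℂ W₂]
    [LieRingModule (so n) W₂] [LieModule ℂ (so n) W₂]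
    [LieModule.IsIrreducible ℂ (so n) V₀] [LieModule.IsIrreducible ℂ (so n) V₁]
    [LieModule.IsIrreducible ℂ (so n) V₂] [LieModule.IsIrreducible ℂ (so n) U₀]
    [LieModule.IsIrreducible ℂ (so n) U₁] [LieModule.IsIrreducible ℂ (so n) U₂]
    [LieModule.IsIrreducible ℂ (so n) W₀] [LieModule.IsIrreducible ℂ (so n) W₁]
    [LieModule.IsIrreducible ℂ (so n) W₂]
    (v₀ : HasHighestWeight (lam 0) V₀) (v₁ : HasHighestWeight (lam 1) V₁)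
    (v₂ : HasHighestWeight (lam 2) V₂)
    (u₀ : HasHighestWeight (mu 0) U₀) (u₁ : HasHighestWeight (mu 1) U₁)
    (u₂ : HasHighestWeight (mu 2) U₂)
    (w₀ : HasHighestWeight (lam 0 + mu 0) W₀) (w₁ : HasHighestWeight (lam 1 + mu 1) W₁)
    (w₂ : HasHighestWeight (lam 2 + mu 2) W₂)
    (h : HasInvariants (n := n) V₀ V₁ V₂) (h' : HasInvariants (n := n) U₀ U₁ U₂) :
    HasInvariants (n := n) W₀ W₁ W₂ := by
  obtain ⟨E₀, i₀, j₀, k₀, l₀, m₀, eu₀, en₀, a₀, z₀, H₀⟩ := exists_model (hl 0)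
  obtain ⟨E₁, i₁, j₁, k₁, l₁, m₁, eu₁, en₁, a₁, z₁, H₁⟩ := exists_model (hl 1)
  obtain ⟨E₂, i₂, j₂, k₂, l₂, m₂, eu₂, en₂, a₂, z₂, H₂⟩ := exists_model (hl 2)
  obtain ⟨F₀, p₀, q₀, r₀, s₀, t₀, fu₀, fn₀, b₀, y₀, G₀⟩ := exists_model (hm 0)
  obtain ⟨F₁, p₁, q₁, r₁, s₁, t₁, fu₁, fn₁, b₁, y₁, G₁⟩ := exists_model (hm 1)
  obtain ⟨F₂, p₂, q₂, r₂, s₂, t₂, fu₂, fn₂, b₂, y₂, G₂⟩ := exists_model (hm 2)
  obtain ⟨c₀, x₀, v₀⟩ := v₀
  obtain ⟨c₁, x₁, v₁⟩ := v₁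
  obtain ⟨c₂, x₂, v₂⟩ := v₂
  obtain ⟨d₀, g₀, u₀⟩ := u₀
  obtain ⟨d₁, g₁, u₁⟩ := u₁
  obtain ⟨d₂, g₂, u₂⟩ := u₂
  obtain ⟨e₀, f₀, w₀⟩ := w₀
  obtain ⟨e₁, f₁, w₁⟩ := w₁
  obtain ⟨e₂, f₂, w₂⟩ := w₂
  rw [← isHW_iff] at v₀ v₁ v₂ u₀ u₁ u₂ w₀ w₁ w₂
  rw [HasInvariants, maxTriv_ne_bot_iff (τ := tau) eu₀ eu₁ eu₂ tau_tau (triD n) H₀ H₁ H₂ z₀ z₁ z₂
    v₀ v₁ v₂ x₀ x₁ x₂] at h
  rw [HasInvariants, maxTriv_ne_bot_iff (τ := tau) fu₀ fu₁ fu₂ tau_tau (triD n) G₀ G₁ G₂ y₀ y₁ y₂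
    u₀ u₁ u₂ g₀ g₁ g₂] at h'
  obtain ⟨f, hf, hne⟩ := h
  obtain ⟨g, hg, hne'⟩ := h'
  obtain ⟨o₀, o₁, o₂, ho₀, ho₁, ho₂, hA, hB⟩ := exists_common en₀ en₁ en₂ fn₀ fn₁ fn₂ f g
    (exists_orb_ne (rootSet n) (lieSpan_rootSet hn) en₀ en₁ en₂ (triD n) H₀ H₁ H₂ f hne)
    (exists_orb_ne (rootSet n) (lieSpan_rootSet hn) fn₀ fn₁ fn₂ (triD n) G₀ G₁ G₂ g hne')
  have hchi : ∀ s, chi (lam s) + chi (mu s) = chi (lam s + mu s) := by
    intro s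
    funext x
    rw [Pi.add_apply, chi, chi, chi, ← Finset.sum_add_distrib]
    refine Finset.sum_congr rfl fun i _ => ?_
    rw [Pi.add_apply]
    push_cast
    ring
  have D₀ := isHW_tmul (triD n) H₀ G₀
  have D₁ := isHW_tmul (triD n) H₁ G₁
  have D₂ := isHW_tmul (triD n) H₂ G₂
  rw [hchi] at D₀ D₁ D₂
  have hne0 : ∀ {E F : Type} [NormedAddCommGroup E] [InnerProductSpace ℂ E]
      [NormedAddCommGroup F] [InnerProductSpace ℂ F] (v : E) (w : F), v ≠ 0 → w ≠ 0 →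
      v ⊗ₜ[ℂ] w ≠ 0 := by
    intro E F _ _ _ _ v w hv hw h0
    have h1 : ⟪v ⊗ₜ[ℂ] w, v ⊗ₜ[ℂ] w⟫_ℂ = 0 := by rw [h0, inner_zero_left]
    rw [TensorProduct.inner_tmul, mul_eq_zero] at h1
    rcases h1 with h1 | h1
    · exact hv (inner_self_eq_zero.mp h1)
    · exact hw (inner_self_eq_zero.mp h1)
  rw [HasInvariants, maxTriv_ne_bot_iff (τ := tau) (isUnitary_tensor eu₀ fu₀)
    (isUnitary_tensor eu₁ fu₁) (isUnitary_tensor eu₂ fu₂) tau_tau (triD n) D₀ D₁ D₂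
    (hne0 a₀ b₀ z₀ y₀) (hne0 a₁ b₁ z₁ y₁) (hne0 a₂ b₂ z₂ y₂) w₀ w₁ w₂ f₀ f₁ f₂]
  refine ⟨prF f g, prF_inv f g hf hg, act (E₀ ⊗[ℂ] F₀) o₀ (a₀ ⊗ₜ[ℂ] b₀), ?_,
    act (E₁ ⊗[ℂ] F₁) o₁ (a₁ ⊗ₜ[ℂ] b₁), ?_, act (E₂ ⊗[ℂ] F₂) o₂ (a₂ ⊗ₜ[ℂ] b₂), ?_, ?_⟩
  · exact Orb.mem (rootSet n) (fun x hx => nilp_tensor (en₀ x hx) (fn₀ x hx))
      (orb_act ho₀ _) _ (self_mem_cyc _ _)
  · exact Orb.mem (rootSet n) (fun x hx => nilp_tensor (en₁ x hx) (fn₁ x hx))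
      (orb_act ho₁ _) _ (self_mem_cyc _ _)
  · exact Orb.mem (rootSet n) (fun x hx => nilp_tensor (en₂ x hx) (fn₂ x hx))
      (orb_act ho₂ _) _ (self_mem_cyc _ _)
  · rw [act_tmul en₀ fn₀ ho₀, act_tmul en₁ fn₁ ho₁, act_tmul en₂ fn₂ ho₂, prF_apply]
    exact mul_ne_zero hA hB

/-- Existence of invariants depends only on the highest weights. -/
theorem hasInvariants_congr {lam : Fin 3 → Fin n → ℚ} (hl : ∀ s, IsDominant (lam s))
    {V₀ V₁ V₂ W₀ W₁ W₂ : Type*} [AddCommGroup V₀] [Module ℂ V₀]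
    [LieRingModule (so n) V₀] [LieModule ℂ (so n) V₀] [AddCommGroup V₁] [Module ℂ V₁]
    [LieRingModule (so n) V₁] [LieModule ℂ (so n) V₁] [AddCommGroup V₂] [Module ℂ V₂]
    [LieRingModule (so n) V₂] [LieModule ℂ (so n) V₂] [AddCommGroup W₀] [Module ℂ W₀]
    [LieRingModule (so n) W₀] [LieModule ℂ (so n) W₀] [AddCommGroup W₁] [Module ℂ W₁]
    [LieRingModule (so n) W₁] [LieModule ℂ (so n) W₁] [AddCommGroup W₂] [Module ℂ W₂]
    [LieRingModule (so n) W₂] [LieModule ℂ (so n) W₂]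
    [LieModule.IsIrreducible ℂ (so n) V₀] [LieModule.IsIrreducible ℂ (so n) V₁]
    [LieModule.IsIrreducible ℂ (so n) V₂] [LieModule.IsIrreducible ℂ (so n) W₀]
    [LieModule.IsIrreducible ℂ (so n) W₁] [LieModule.IsIrreducible ℂ (so n) W₂]
    (v₀ : HasHighestWeight (lam 0) V₀) (v₁ : HasHighestWeight (lam 1) V₁)
    (v₂ : HasHighestWeight (lam 2) V₂)
    (w₀ : HasHighestWeight (lam 0) W₀) (w₁ : HasHighestWeight (lam 1) W₁)
    (w₂ : HasHighestWeight (lam 2) W₂)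
    (h : HasInvariants (n := n) V₀ V₁ V₂) : HasInvariants (n := n) W₀ W₁ W₂ := by
  obtain ⟨E₀, i₀, j₀, k₀, l₀, m₀, eu₀, en₀, a₀, z₀, H₀⟩ := exists_model (hl 0)
  obtain ⟨E₁, i₁, j₁, k₁, l₁, m₁, eu₁, en₁, a₁, z₁, H₁⟩ := exists_model (hl 1)
  obtain ⟨E₂, i₂, j₂, k₂, l₂, m₂, eu₂, en₂, a₂, z₂, H₂⟩ := exists_model (hl 2)
  obtain ⟨c₀, x₀, v₀⟩ := v₀
  obtain ⟨c₁, x₁, v₁⟩ := v₁
  obtain ⟨c₂, x₂, v₂⟩ := v₂
  obtain ⟨e₀, f₀, w₀⟩ := w₀
  obtain ⟨e₁, f₁, w₁⟩ := w₁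
  obtain ⟨e₂, f₂, w₂⟩ := w₂
  rw [← isHW_iff] at v₀ v₁ v₂ w₀ w₁ w₂
  rw [HasInvariants, maxTriv_ne_bot_iff (τ := tau) eu₀ eu₁ eu₂ tau_tau (triD n) H₀ H₁ H₂ z₀ z₁ z₂
    v₀ v₁ v₂ x₀ x₁ x₂] at h
  rw [HasInvariants, maxTriv_ne_bot_iff (τ := tau) eu₀ eu₁ eu₂ tau_tau (triD n) H₀ H₁ H₂ z₀ z₁ z₂
    w₀ w₁ w₂ f₀ f₁ f₂]
  exact h

end add

end Vale.Agent.P182.H55
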