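import Vale.Agent.P182.H89.Level

/-!
# NULL-A, part 1: infinitesimal isometries of a bilinear form; three isotropic `k`-planes in
dimension `3 k`
-/

namespace Vale.Agent.P182.H55

open Module Vale.Agent.P182.H533

section bil

variable {L U : Type*} [Field L] [AddCommGroup U] [Module L U] [FiniteDimensional L U]

omit [FiniteDimensional L U] in
/-- a vector of `W` outside a line -/
theorem exists_notMem_span (W : Submodule L U) (hW : 2 ≤ finrank L W) (x : U) :
    ∃ y ∈ W, ∀ c : L, y ≠ c • x := by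
  by_contra h
  push Not at h
  have h1 : W ≤ Submodule.span L {x} := fun y hy => by
    obtain ⟨c, hc⟩ := h y hy
    rw [Submodule.mem_span_singleton]
    exact ⟨c, hc.symm⟩
  have h2 := Submodule.finrank_mono h1
  have h3 : finrank L (Submodule.span L {x}) ≤ 1 := by
    have := finrank_span_le_card (R := L) ({x} : Set U)
    simpa using this
  omega

/-- every bilinear form in dimension at least `2` has a nonzero infinitesimal isometry -/
theorem exists_skew_bil (C : U →ₗ[L] U →ₗ[L] L) (hU : 2 ≤ finrank L U) :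
    ∃ b : End L U, b ≠ 0 ∧ ∀ x y, C (b x) y + C x (b y) = 0 := by
  by_cases hns : ∀ u, (∀ y, C u y = 0) → u = 0
  · -- nondegenerate
    have hinj : Function.Injective C := by
      rw [← LinearMap.ker_eq_bot, LinearMap.ker_eq_bot']
      intro u hu
      exact hns u fun v => by rw [hu]; rfl
    let E : U ≃ₗ[L] Dual L U :=
      LinearMap.linearEquivOfInjective C hinj (Subspace.dual_finrank_eq).symm
    have hE : ∀ f y, C (E.symm f) y = f y := fun f y => by
      have h1 : E (E.symm f) = f := LinearEquiv.apply_symm_apply _ _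
      exact LinearMap.congr_fun h1 y
    have hns' : ∀ u, (∀ y, C y u = 0) → u = 0 := by
      intro u hu
      by_contra hne
      obtain ⟨f, hf⟩ := Module.Projective.exists_dual_ne_zero L hne
      exact hf (by rw [← hE f u, hu])
    have hinj' : Function.Injective C.flip := by
      rw [← LinearMap.ker_eq_bot, LinearMap.ker_eq_bot']
      intro u hu
      exact hns' u fun v => by
        have := LinearMap.congr_fun hu v
        rwa [LinearMap.flip_apply] at this
    let F : U ≃ₗ[L] Dual L U :=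
      LinearMap.linearEquivOfInjective C.flip hinj' (Subspace.dual_finrank_eq).symm
    have hF : ∀ f y, C y (F.symm f) = f y := fun f y => by
      have h1 : F (F.symm f) = f := LinearEquiv.apply_symm_apply _ _
      exact LinearMap.congr_fun h1 y
    let σ : End L U := F.symm.toLinearMap ∘ₗ C
    let τ : End L U := E.symm.toLinearMap ∘ₗ C.flip
    have hσ : ∀ x y, C y (σ x) = C x y := fun x y => hF (C x) y
    have hτ : ∀ x y, C (τ x) y = C y x := fun x y => hE (C.flip x) y
    by_cases hb : σ - τ = 0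
    · have hστ : ∀ x, σ x = τ x := fun x => by
        rw [← sub_eq_zero, ← LinearMap.sub_apply, hb, LinearMap.zero_apply]
      have hσ' : ∀ x y, C (σ x) y = C y x := fun x y => by rw [hστ, hτ]
      by_cases hm : ∃ x, x ≠ 0 ∧ σ x = -x
      · obtain ⟨x, hx0, hx⟩ := hm
        have hsk : ∀ z, C z x = - C x z := fun z => by
          have := hσ x z
          rw [hx, map_neg] at this
          rw [← this, neg_neg]
        refine ⟨(C x).smulRight x, ?_, fun z w => ?_⟩
        · intro h0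
          apply hx0
          apply hns
          intro y
          have h1 := LinearMap.congr_fun h0 y
          rw [LinearMap.smulRight_apply, LinearMap.zero_apply, smul_eq_zero] at h1
          exact h1.resolve_right hx0
        · rw [LinearMap.smulRight_apply, LinearMap.smulRight_apply, map_smul, map_smul,
            LinearMap.smul_apply, hsk z, smul_eq_mul, smul_eq_mul]
          ring
      · push Not at hm
        have hσσ : ∀ x, σ (σ x) = x := fun x => by
          rw [← sub_eq_zero]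
          apply hns'
          intro y
          rw [map_sub, hσ, hσ', sub_self]
        have hσ1 : ∀ x, σ x = x := fun x => by
          by_contra hne
          have h1 : σ x - x ≠ 0 := sub_ne_zero.2 hne
          apply hm _ h1
          rw [map_sub, hσσ]
          abel
        have hsy : ∀ x y, C y x = C x y := fun x y => by
          have := hσ x y
          rwa [hσ1] at this
        have hU' : 2 ≤ finrank L (⊤ : Submodule L U) := by rwa [finrank_top]
        obtain ⟨x, -, hx⟩ := exists_notMem_span (⊤ : Submodule L U) hU' 0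
        have hx0 : x ≠ 0 := fun h => hx 0 (by rw [h, smul_zero])
        obtain ⟨y, -, hy⟩ := exists_notMem_span (⊤ : Submodule L U) hU' x
        refine ⟨(C y).smulRight x - (C x).smulRight y, ?_, fun z w => ?_⟩
        · intro h0
          obtain ⟨z, hz⟩ : ∃ z, C x z ≠ 0 := by
            by_contra h
            push Not at h
            exact hx0 (hns x h)
          have h1 := LinearMap.congr_fun h0 z
          rw [LinearMap.sub_apply, LinearMap.smulRight_apply, LinearMap.smulRight_apply,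
            LinearMap.zero_apply, sub_eq_zero] at h1
          apply hy ((C x z)⁻¹ * C y z)
          rw [mul_smul, h1, smul_smul, inv_mul_cancel₀ hz, one_smul]
        · simp only [LinearMap.sub_apply, LinearMap.smulRight_apply, map_sub, map_smul,
            LinearMap.smul_apply, smul_eq_mul]
          rw [hsy x z, hsy y z]
          ring
    · refine ⟨σ - τ, hb, fun x y => ?_⟩
      rw [LinearMap.sub_apply, LinearMap.sub_apply, map_sub, map_sub, LinearMap.sub_apply, hτ, hσ]
      have h3 : C (σ x) y = C x (τ y) := by rw [← hτ y (σ x), hσ x (τ y)]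
      rw [h3]
      ring
  · -- degenerate
    push Not at hns
    obtain ⟨u', hu', hu'0⟩ := hns
    obtain ⟨u, hu0, hu⟩ : ∃ u, u ≠ 0 ∧ ∀ x, C x u = 0 := by
      by_contra h
      push Not at h
      have hinj : Function.Injective C.flip := by
        rw [← LinearMap.ker_eq_bot, LinearMap.ker_eq_bot']
        intro u hu
        by_contra h0
        obtain ⟨x, hx⟩ := h u h0
        apply hx
        have := LinearMap.congr_fun hu x
        rwa [LinearMap.flip_apply] at this
      let F : U ≃ₗ[L] Dual L U :=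
        LinearMap.linearEquivOfInjective C.flip hinj (Subspace.dual_finrank_eq).symm
      obtain ⟨f, hf⟩ := Module.Projective.exists_dual_ne_zero L hu'0
      have h1 : F (F.symm f) = f := LinearEquiv.apply_symm_apply _ _
      apply hf
      rw [← LinearMap.congr_fun h1 u']
      exact hu' _
    by_cases hl : ∀ y, C u y = 0
    · obtain ⟨f, hf⟩ := Module.Projective.exists_dual_ne_zero L hu0
      refine ⟨f.smulRight u, fun h0 => ?_, fun x y => ?_⟩
      · have h1 := LinearMap.congr_fun h0 u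
        rw [LinearMap.smulRight_apply, LinearMap.zero_apply, smul_eq_zero] at h1
        rcases h1 with h1 | h1
        · exact hf h1
        · exact hu0 h1
      · rw [LinearMap.smulRight_apply, LinearMap.smulRight_apply, map_smul, map_smul,
          LinearMap.smul_apply, hl, hu, smul_zero, smul_zero, add_zero]
    · push Not at hl
      obtain ⟨x0, hx0⟩ := hl
      refine ⟨(C.flip u').smulRight u - (C u).smulRight u', fun h0 => ?_, fun x y => ?_⟩
      · have h1 := LinearMap.congr_fun h0 x0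
        rw [LinearMap.sub_apply, LinearMap.smulRight_apply, LinearMap.smulRight_apply,
          LinearMap.zero_apply, sub_eq_zero, LinearMap.flip_apply] at h1
        have h3 : C (C x0 u' • u) x0 = 0 := by
          rw [h1, map_smul, LinearMap.smul_apply, hu', smul_zero]
        rw [map_smul, LinearMap.smul_apply, smul_eq_mul, mul_eq_zero] at h3
        have h4 := h3.resolve_right hx0
        rw [h4, zero_smul, eq_comm, smul_eq_zero] at h1
        rcases h1 with h1 | h1
        · exact hx0 h1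
        · exact hu'0 h1
      · simp only [LinearMap.sub_apply, LinearMap.smulRight_apply, map_sub, map_smul,
          LinearMap.smul_apply, smul_eq_mul, LinearMap.flip_apply, hu, hu']
        ring

end bil

section three

variable {L V : Type*} [Field L] [AddCommGroup V] [Module L V] [FiniteDimensional L V]

/-- three subspaces are preserved by a nonzero skew endomorphism -/
def Go (q : V →ₗ[L] V →ₗ[L] L) (W1 W2 W3 : Submodule L V) : Prop :=
  ∃ A : End L V, A ≠ 0 ∧ IsSk q A ∧ (∀ w ∈ W1, A w ∈ W1) ∧ (∀ w ∈ W2, A w ∈ W2) ∧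
    ∀ w ∈ W3, A w ∈ W3

variable {q : V →ₗ[L] V →ₗ[L] L} {W1 W2 W3 : Submodule L V}

omit [FiniteDimensional L V] in
theorem Go.swap12 (h : Go q W2 W1 W3) : Go q W1 W2 W3 := by
  obtain ⟨A, h0, h1, h2, h3, h4⟩ := h
  exact ⟨A, h0, h1, h3, h2, h4⟩

omit [FiniteDimensional L V] in
theorem Go.swap23 (h : Go q W1 W3 W2) : Go q W1 W2 W3 := by
  obtain ⟨A, h0, h1, h2, h3, h4⟩ := h
  exact ⟨A, h0, h1, h2, h4, h3⟩

/-- the rank two skew endomorphism `x ∧ y` -/
def wd (q : V →ₗ[L] V →ₗ[L] L) (x y : V) : End L V := (q y).smulRight x - (q x).smulRight y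

omit [FiniteDimensional L V] in
theorem wd_apply (x y z : V) : wd q x y z = q y z • x - q x z • y := rfl

omit [FiniteDimensional L V] in
theorem wd_sk (hq : IsForm q) (x y : V) : IsSk q (wd q x y) := by
  intro z w
  rw [wd_apply, wd_apply]
  simp only [map_sub, map_smul, LinearMap.sub_apply, LinearMap.smul_apply, smul_eq_mul]
  rw [hq.symm z x, hq.symm z y]
  ring

omit [FiniteDimensional L V] in
theorem wd_ne (hq : IsForm q) {x y : V} (hx : x ≠ 0) (hy : ∀ c : L, y ≠ c • x) :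
    wd q x y ≠ 0 := by
  intro h0
  obtain ⟨z, hz⟩ : ∃ z, q x z ≠ 0 := by
    by_contra h
    push Not at h
    exact hx (hq.nondeg x h)
  have h1 := LinearMap.congr_fun h0 z
  rw [wd_apply, LinearMap.zero_apply, sub_eq_zero] at h1
  apply hy ((q x z)⁻¹ * q y z)
  rw [mul_smul, h1, smul_smul, inv_mul_cancel₀ hz, one_smul]

omit [FiniteDimensional L V] in
/-- `x ∧ y` preserves an isotropic subspace containing `x` -/
theorem wd_left {W : Submodule L V} (hW : ∀ u ∈ W, ∀ v ∈ W, q u v = 0) {x : V} (hx : x ∈ W)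
    (y : V) : ∀ w ∈ W, wd q x y w ∈ W := by
  intro w hw
  rw [wd_apply, hW x hx w hw, zero_smul, sub_zero]
  exact W.smul_mem _ hx

omit [FiniteDimensional L V] in
theorem wd_right {W : Submodule L V} (hW : ∀ u ∈ W, ∀ v ∈ W, q u v = 0) {y : V} (hy : y ∈ W)
    (x : V) : ∀ w ∈ W, wd q x y w ∈ W := by
  intro w hw
  rw [wd_apply, hW y hy w hw, zero_smul, zero_sub]
  exact W.neg_mem (W.smul_mem _ hy)

omit [FiniteDimensional L V] in
theorem wd_perp {W : Submodule L V} {x y : V} (hx : ∀ w ∈ W, q x w = 0)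
    (hy : ∀ w ∈ W, q y w = 0) : ∀ w ∈ W, wd q x y w ∈ W := by
  intro w hw
  rw [wd_apply, hx w hw, hy w hw, zero_smul, zero_smul, sub_zero]
  exact W.zero_mem

/-- case (a) -/
theorem go_inter (hq : IsForm q) (i1 : ∀ u ∈ W1, ∀ v ∈ W1, q u v = 0)
    (i2 : ∀ u ∈ W2, ∀ v ∈ W2, q u v = 0) (i3 : ∀ u ∈ W3, ∀ v ∈ W3, q u v = 0)
    (h3 : 2 ≤ finrank L W3) {x : V} (hx : x ≠ 0) (hx1 : x ∈ W1) (hx2 : x ∈ W2) :
    Go q W1 W2 W3 := by
  obtain ⟨y, hy3, hy⟩ := exists_notMem_span W3 h3 x
  exact ⟨wd q x y, wd_ne hq hx hy, wd_sk hq x y, wd_left i1 hx1 y, wd_left i2 hx2 y,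
    wd_right i3 hy3 x⟩

/-- case (b) -/
theorem go_rel (hq : IsForm q) (i1 : ∀ u ∈ W1, ∀ v ∈ W1, q u v = 0)
    (i2 : ∀ u ∈ W2, ∀ v ∈ W2, q u v = 0) (i3 : ∀ u ∈ W3, ∀ v ∈ W3, q u v = 0)
    (d1 : 2 ≤ finrank L W1) (d2 : 2 ≤ finrank L W2) (d3 : 2 ≤ finrank L W3) {x y z : V}
    (hx : x ∈ W1) (hy : y ∈ W2) (hz : z ∈ W3) (h : x + y + z = 0)
    (hne : ¬ (x = 0 ∧ y = 0 ∧ z = 0)) : Go q W1 W2 W3 := by
  by_cases hx0 : x = 0
  · subst hx0
    have hy0 : y ≠ 0 := by
      rintro rfl
      apply hne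
      refine ⟨rfl, rfl, ?_⟩
      simpa using h
    have hyz : y = -z := by
      rw [zero_add] at h
      exact eq_neg_of_add_eq_zero_left h
    have h1 : Go q W2 W3 W1 := go_inter hq i2 i3 i1 d1 hy0 hy (by rw [hyz]; exact W3.neg_mem hz)
    exact h1.swap23.swap12
  by_cases hxy : ∃ c : L, y = c • x
  · obtain ⟨c, hc⟩ := hxy
    by_cases hc0 : c = 0
    · have hy0 : y = 0 := by rw [hc, hc0, zero_smul]
      have hxz : x = -z := by
        rw [hy0, add_zero] at h
        exact eq_neg_of_add_eq_zero_left h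
      have h1 : Go q W1 W3 W2 :=
        go_inter hq i1 i3 i2 d2 hx0 hx (by rw [hxz]; exact W3.neg_mem hz)
      exact h1.swap23
    · have hx2 : x ∈ W2 := by
        have : x = c⁻¹ • y := by rw [hc, smul_smul, inv_mul_cancel₀ hc0, one_smul]
        rw [this]
        exact W2.smul_mem _ hy
      exact go_inter hq i1 i2 i3 d3 hx0 hx hx2
  · push Not at hxy
    refine ⟨wd q x y, wd_ne hq hx0 hxy, wd_sk hq x y, wd_left i1 hx y, wd_right i2 hy x, ?_⟩
    intro w hw
    have hz' : z = -(x + y) := by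
      rw [add_comm] at h
      exact eq_neg_of_add_eq_zero_left h
    have h1 : q x w + q y w = 0 := by
      have := i3 z hz w hw
      rw [hz', map_neg, map_add, LinearMap.neg_apply, LinearMap.add_apply, neg_eq_zero] at this
      exact this
    have h2 : q y w = - q x w := eq_neg_of_add_eq_zero_right h1
    have h3 : wd q x y w = q x w • z := by
      rw [wd_apply, h2, hz', smul_neg, smul_add, neg_smul]
      abel
    rw [h3]
    exact W3.smul_mem _ hz

omit [FiniteDimensional L V] in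
/-- case (c1): `x ∈ W1` and `y ∈ W3` orthogonal to `W2` -/
theorem go_sing (hq : IsForm q) (i1 : ∀ u ∈ W1, ∀ v ∈ W1, q u v = 0)
    (i3 : ∀ u ∈ W3, ∀ v ∈ W3, q u v = 0) (h13 : ∀ u ∈ W1, u ∈ W3 → u = 0) {x y : V}
    (hx : x ∈ W1) (hx0 : x ≠ 0) (hx2 : ∀ w ∈ W2, q x w = 0) (hy : y ∈ W3) (hy0 : y ≠ 0)
    (hy2 : ∀ w ∈ W2, q y w = 0) : Go q W1 W2 W3 := by
  refine ⟨wd q x y, wd_ne hq hx0 fun c hc => ?_, wd_sk hq x y, wd_left i1 hx y,
    wd_perp hx2 hy2, wd_right i3 hy x⟩
  exact hy0 (h13 y (by rw [hc]; exact W1.smul_mem _ hx) hy)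

/-- case (c2): the pairings `W1 × W2` and `W3 × W2` are nondegenerate -/
theorem go_ns (hq : IsForm q) (i1 : ∀ u ∈ W1, ∀ v ∈ W1, q u v = 0)
    (i2 : ∀ u ∈ W2, ∀ v ∈ W2, q u v = 0) (i3 : ∀ u ∈ W3, ∀ v ∈ W3, q u v = 0) {k : ℕ}
    (hk : 2 ≤ k) (d1 : finrank L W1 = k) (d2 : finrank L W2 = k) (d3 : finrank L W3 = k)
    (dV : finrank L V = 3 * k)
    (hind : ∀ x ∈ W1, ∀ y ∈ W2, ∀ z ∈ W3, x + y + z = 0 → x = 0 ∧ y = 0 ∧ z = 0)
    (n12 : ∀ x ∈ W1, (∀ y ∈ W2, q x y = 0) → x = 0)
    (n32 : ∀ x ∈ W3, (∀ y ∈ W2, q x y = 0) → x = 0) : Go q W1 W2 W3 := by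
  -- the isomorphisms with the dual of `W2`
  let f1 : W1 →ₗ[L] Dual L W2 := W2.subtype.dualMap ∘ₗ q ∘ₗ W1.subtype
  let f3 : W3 →ₗ[L] Dual L W2 := W2.subtype.dualMap ∘ₗ q ∘ₗ W3.subtype
  have hf1 : ∀ (x : W1) (y : W2), f1 x y = q x y := fun x y => rfl
  have hf3 : ∀ (x : W3) (y : W2), f3 x y = q x y := fun x y => rfl
  have inj1 : Function.Injective f1 := by
    rw [← LinearMap.ker_eq_bot, LinearMap.ker_eq_bot']
    intro x hx
    apply Subtype.ext
    exact n12 x x.2 fun y hy => by rw [← hf1 x ⟨y, hy⟩, hx]; rfl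
  have inj3 : Function.Injective f3 := by
    rw [← LinearMap.ker_eq_bot, LinearMap.ker_eq_bot']
    intro x hx
    apply Subtype.ext
    exact n32 x x.2 fun y hy => by rw [← hf3 x ⟨y, hy⟩, hx]; rfl
  let e1 : W1 ≃ₗ[L] Dual L W2 := LinearMap.linearEquivOfInjective f1 inj1
    (by rw [Subspace.dual_finrank_eq, d1, d2])
  let e3 : W3 ≃ₗ[L] Dual L W2 := LinearMap.linearEquivOfInjective f3 inj3
    (by rw [Subspace.dual_finrank_eq, d3, d2])
  have he1 : ∀ (x : W1) (y : W2), e1 x y = q x y := fun x y => rfl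
  have he3 : ∀ (x : W3) (y : W2), e3 x y = q x y := fun x y => rfl
  let f2 : W2 →ₗ[L] Dual L W1 := W1.subtype.dualMap ∘ₗ q ∘ₗ W2.subtype
  have hf2 : ∀ (y : W2) (x : W1), f2 y x = q y x := fun x y => rfl
  have inj2 : Function.Injective f2 := by
    rw [← LinearMap.ker_eq_bot, LinearMap.ker_eq_bot']
    intro y hy
    by_contra hne
    obtain ⟨g, hg⟩ := Module.Projective.exists_dual_ne_zero L hne
    apply hg
    have h1 : e1 (e1.symm g) = g := LinearEquiv.apply_symm_apply _ _
    rw [← h1, he1, hq.symm, ← hf2, hy, LinearMap.zero_apply]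
  let e2 : W2 ≃ₗ[L] Dual L W1 := LinearMap.linearEquivOfInjective f2 inj2
    (by rw [Subspace.dual_finrank_eq, d1, d2])
  have he2 : ∀ (y : W2) (x : W1), e2 y x = q y x := fun x y => rfl
  -- the identification of `W1` and `W3`
  let θ : W1 ≃ₗ[L] W3 := e1.trans e3.symm
  have hθ : ∀ (x : W1) (y : W2), q (θ x) y = q x y := fun x y => by
    rw [← he3, ← he1]
    have h1 : e3 (θ x) = e1 x := LinearEquiv.apply_symm_apply _ _
    rw [h1]
  let C : W1 →ₗ[L] W1 →ₗ[L] L :=
    (((W3.subtype ∘ₗ θ.toLinearMap).dualMap) ∘ₗ q ∘ₗ W1.subtype)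
  have hC : ∀ x x' : W1, C x x' = q x (θ x') := fun x x' => rfl
  obtain ⟨b, hb0, hb⟩ := exists_skew_bil C (by rw [d1]; exact hk)
  let a3 : End L W3 := θ.toLinearMap ∘ₗ b ∘ₗ θ.symm.toLinearMap
  let a2 : End L W2 := -(e2.symm.toLinearMap ∘ₗ b.dualMap ∘ₗ e2.toLinearMap)
  have ha2 : ∀ (y : W2) (x : W1), q (a2 y) x = - q y (b x) := fun y x => by
    rw [← he2, ← he2]
    have h1 : e2 (a2 y) = -(b.dualMap (e2 y)) := by
      show e2 (-(e2.symm (b.dualMap (e2 y)))) = _
      rw [map_neg, LinearEquiv.apply_symm_apply]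
    rw [h1]
    rfl
  have ha3 : ∀ x : W1, a3 (θ x) = θ (b x) := fun x => by
    show θ (b (θ.symm (θ x))) = _
    rw [LinearEquiv.symm_apply_apply]
  have r12 : ∀ (x : W1) (y : W2), q (b x) y = - q x (a2 y) := fun x y => by
    rw [hq.symm x, ha2, neg_neg, hq.symm]
  have r32 : ∀ (z : W3) (y : W2), q (a3 z) y = - q z (a2 y) := fun z y => by
    obtain ⟨x, rfl⟩ := θ.surjective z
    rw [ha3, hθ, hθ, r12]
  have r13 : ∀ (x : W1) (z : W3), q (b x) z = - q x (a3 z) := fun x z => by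
    obtain ⟨x', rfl⟩ := θ.surjective z
    rw [ha3]
    have := hb x x'
    rw [hC, hC] at this
    exact eq_neg_of_add_eq_zero_left this
  -- the direct sum
  let g : (W1 × W2 × W3) →ₗ[L] V :=
    W1.subtype.coprod (W2.subtype.coprod W3.subtype)
  have hg : ∀ x : W1 × W2 × W3, g x = x.1 + (x.2.1 + x.2.2) := fun x => rfl
  have injg : Function.Injective g := by
    rw [← LinearMap.ker_eq_bot, LinearMap.ker_eq_bot']
    rintro ⟨x, y, z⟩ h
    rw [hg, ← add_assoc] at h
    obtain ⟨h1, h2, h3⟩ := hind x x.2 y y.2 z z.2 h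
    ext
    · exact h1
    · exact h2
    · exact h3
  let G : (W1 × W2 × W3) ≃ₗ[L] V := LinearMap.linearEquivOfInjective g injg
    (by rw [Module.finrank_prod, Module.finrank_prod, d1, d2, d3, dV]; ring)
  have hG : ∀ x : W1 × W2 × W3, G x = x.1 + (x.2.1 + x.2.2) := fun x => rfl
  let A : End L V := G.toLinearMap ∘ₗ (b.prodMap (a2.prodMap a3)) ∘ₗ G.symm.toLinearMap
  have hA : ∀ x : W1 × W2 × W3, A (G x) = (b x.1 : V) + ((a2 x.2.1 : V) + (a3 x.2.2 : V)) :=
    fun x => by
    show G ((b.prodMap (a2.prodMap a3)) (G.symm (G x))) = _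
    rw [LinearEquiv.symm_apply_apply, hG]
    rfl
  have hA1 : ∀ x : W1, A x = b x := fun x => by
    have h1 : (x : V) = G (x, 0, 0) := by rw [hG]; simp
    rw [h1, hA]
    simp
  have hA2 : ∀ x : W2, A x = a2 x := fun x => by
    have h1 : (x : V) = G (0, x, 0) := by rw [hG]; simp
    rw [h1, hA]
    simp
  have hA3 : ∀ x : W3, A x = a3 x := fun x => by
    have h1 : (x : V) = G (0, 0, x) := by rw [hG]; simp
    rw [h1, hA]
    simp
  refine ⟨A, fun h0 => ?_, fun u v => ?_, fun w hw => ?_, fun w hw => ?_, fun w hw => ?_⟩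
  · apply hb0
    ext x
    rw [← hA1, h0]
    rfl
  · obtain ⟨⟨x, y, z⟩, rfl⟩ := G.surjective u
    obtain ⟨⟨x', y', z'⟩, rfl⟩ := G.surjective v
    rw [hA, hA, hG, hG]
    simp only [map_add, LinearMap.add_apply]
    rw [i1 (b x) (b x).2 x' x'.2, i2 (a2 y) (a2 y).2 y' y'.2, i3 (a3 z) (a3 z).2 z' z'.2,
      i1 x x.2 (b x') (b x').2, i2 y y.2 (a2 y') (a2 y').2, i3 z z.2 (a3 z') (a3 z').2,
      r12 x y', r13 x z', ha2 y x', hq.symm (a2 y) z', hq.symm y (a3 z'), r32 z' y,
      hq.symm (a3 z) x', hq.symm z (b x'), r13 x' z, r32 z y']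
    ring
  · rw [hA1 ⟨w, hw⟩]
    exact (b _).2
  · rw [hA2 ⟨w, hw⟩]
    exact (a2 _).2
  · rw [hA3 ⟨w, hw⟩]
    exact (a3 _).2

/-- nondegeneracy of a pairing of two subspaces of the same dimension is symmetric -/
theorem ns_symm (hq : IsForm q) (h : finrank L W1 = finrank L W2)
    (n12 : ∀ x ∈ W1, (∀ y ∈ W2, q x y = 0) → x = 0) :
    ∀ x ∈ W2, (∀ y ∈ W1, q x y = 0) → x = 0 := by
  let f1 : W1 →ₗ[L] Dual L W2 := W2.subtype.dualMap ∘ₗ q ∘ₗ W1.subtype
  have hf1 : ∀ (x : W1) (y : W2), f1 x y = q x y := fun x y => rfl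
  have inj1 : Function.Injective f1 := by
    rw [← LinearMap.ker_eq_bot, LinearMap.ker_eq_bot']
    intro x hx
    apply Subtype.ext
    exact n12 x x.2 fun y hy => by rw [← hf1 x ⟨y, hy⟩, hx]; rfl
  let e1 : W1 ≃ₗ[L] Dual L W2 := LinearMap.linearEquivOfInjective f1 inj1
    (by rw [Subspace.dual_finrank_eq, h])
  have he1 : ∀ (x : W1) (y : W2), e1 x y = q x y := fun x y => rfl
  intro y hy hy1
  by_contra hne
  have hne' : (⟨y, hy⟩ : W2) ≠ 0 := fun h0 => hne (congrArg Subtype.val h0)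
  obtain ⟨g, hg⟩ := Module.Projective.exists_dual_ne_zero L hne'
  apply hg
  have h1 : e1 (e1.symm g) = g := LinearEquiv.apply_symm_apply _ _
  rw [← h1, he1, hq.symm]
  exact hy1 _ (e1.symm g).2

/-- **Three isotropic `k`-planes in dimension `3 k`, `k ≥ 2`, are preserved by a nonzero
skew endomorphism.** -/
theorem exists_three (hq : IsForm q) (i1 : ∀ u ∈ W1, ∀ v ∈ W1, q u v = 0)
    (i2 : ∀ u ∈ W2, ∀ v ∈ W2, q u v = 0) (i3 : ∀ u ∈ W3, ∀ v ∈ W3, q u v = 0) {k : ℕ}
    (hk : 2 ≤ k) (d1 : finrank L W1 = k) (d2 : finrank L W2 = k) (d3 : finrank L W3 = k)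
    (dV : finrank L V = 3 * k) : Go q W1 W2 W3 := by
  by_cases hind : ∀ x ∈ W1, ∀ y ∈ W2, ∀ z ∈ W3, x + y + z = 0 → x = 0 ∧ y = 0 ∧ z = 0
  swap
  · push Not at hind
    obtain ⟨x, hx, y, hy, z, hz, h0, hne⟩ := hind
    exact go_rel hq i1 i2 i3 (by omega) (by omega) (by omega) hx hy hz h0 fun h =>
      hne h.1 h.2.1 h.2.2
  have hind' : ∀ x ∈ W2, ∀ y ∈ W1, ∀ z ∈ W3, x + y + z = 0 → x = 0 ∧ y = 0 ∧ z = 0 := by
    intro x hx y hy z hz h
    obtain ⟨h1, h2, h3⟩ := hind y hy x hx z hz (by rw [add_comm y x]; exact h)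
    exact ⟨h2, h1, h3⟩
  have hind'' : ∀ x ∈ W1, ∀ y ∈ W3, ∀ z ∈ W2, x + y + z = 0 → x = 0 ∧ y = 0 ∧ z = 0 := by
    intro x hx y hy z hz h
    obtain ⟨h1, h2, h3⟩ := hind x hx z hz y hy (by rw [add_right_comm]; exact h)
    exact ⟨h1, h3, h2⟩
  have h12 : ∀ u ∈ W1, u ∈ W2 → u = 0 := fun u hu hu2 =>
    (hind u hu (-u) (W2.neg_mem hu2) 0 W3.zero_mem (by simp)).1
  have h13 : ∀ u ∈ W1, u ∈ W3 → u = 0 := fun u hu hu3 =>
    (hind u hu 0 W2.zero_mem (-u) (W3.neg_mem hu3) (by simp)).1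
  have h23 : ∀ u ∈ W2, u ∈ W3 → u = 0 := fun u hu hu3 =>
    (hind 0 W1.zero_mem u hu (-u) (W3.neg_mem hu3) (by simp)).2.1
  by_cases n12 : ∀ x ∈ W1, (∀ y ∈ W2, q x y = 0) → x = 0
  · by_cases n32 : ∀ x ∈ W3, (∀ y ∈ W2, q x y = 0) → x = 0
    · exact go_ns hq i1 i2 i3 hk d1 d2 d3 dV hind n12 n32
    · by_cases n13 : ∀ x ∈ W1, (∀ y ∈ W3, q x y = 0) → x = 0
      · -- common index 1
        have n21 := ns_symm hq (by omega) n12
        have n31 := ns_symm hq (by omega) n13
        exact (go_ns hq i2 i1 i3 hk d2 d1 d3 dV hind' n21 n31).swap12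
      · -- both singular at 3
        have n23 : ¬ ∀ x ∈ W2, (∀ y ∈ W3, q x y = 0) → x = 0 := fun h =>
          n32 (ns_symm hq (by omega) h)
        push Not at n13 n23
        obtain ⟨x, hx, hx2, hx0⟩ := n13
        obtain ⟨y, hy, hy2, hy0⟩ := n23
        exact (go_sing hq i1 i2 h12 hx hx0 hx2 hy hy0 hy2).swap23
  · by_cases n32 : ∀ x ∈ W3, (∀ y ∈ W2, q x y = 0) → x = 0
    · by_cases n13 : ∀ x ∈ W1, (∀ y ∈ W3, q x y = 0) → x = 0
      · -- common index 3
        have n23 := ns_symm hq (by omega) n32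
        exact (go_ns hq i1 i3 i2 hk d1 d3 d2 dV hind'' n13 n23).swap23
      · -- both singular at 1
        have n21 : ¬ ∀ x ∈ W2, (∀ y ∈ W1, q x y = 0) → x = 0 := fun h =>
          n12 (ns_symm hq (by omega) h)
        have n31 : ¬ ∀ x ∈ W3, (∀ y ∈ W1, q x y = 0) → x = 0 := fun h =>
          n13 (ns_symm hq (by omega) h)
        push Not at n21 n31
        obtain ⟨x, hx, hx2, hx0⟩ := n21
        obtain ⟨y, hy, hy2, hy0⟩ := n31
        exact (go_sing hq i2 i3 h23 hx hx0 hx2 hy hy0 hy2).swap12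
    · push Not at n12 n32
      obtain ⟨x, hx, hx2, hx0⟩ := n12
      obtain ⟨y, hy, hy2, hy0⟩ := n32
      exact go_sing hq i1 i3 h13 hx hx0 hx2 hy hy0 hy2

end three

end Vale.Agent.P182.H55
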