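import Vale.Agent.P182.H983.GDef
import Vale.Agent.P182.H55.DHat
import Vale.Agent.P182.H58.TC

/-!
# (END), step (B): the derivation step for `HH^I` (note 20078 of helper563)

`HHI s` is the space of the endomorphisms `h` of `V₁` whose lift at the single arm `s` belongs to
`WF`.  Everything at the base `t`.
-/

namespace Vale.Agent.P182.H55

open Module Matrix Vale.Agent.P182.H533 Vale.Agent.P182.B1 Vale.Agent.P182.H578
  Vale.Agent.P182.H922 Vale.Agent.P182.H588 Vale.Agent.P182.H983 Vale.Agent.P182.H181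

universe u v w

variable {L : Type u} {V : Type v} {J : Type w} [Field L] [AddCommGroup V] [Module L V]
  [FiniteDimensional L V] [Fintype J] [DecidableEq J] {𝒟 : Cfg L V J} {u : J → L}

section lin

omit [FiniteDimensional L V] [DecidableEq J] in
theorem fam_add (t : J → V) (T T' : Fin 3 → End L V) :
    fam 𝒟 t (T + T') = fam 𝒟 t T + fam 𝒟 t T' := rfl

omit [FiniteDimensional L V] [DecidableEq J] in
theorem fam_sum {ι : Type*} (t : J → V) (A : Finset ι) (T : ι → Fin 3 → End L V) :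
    fam 𝒟 t (∑ i ∈ A, T i) = ∑ i ∈ A, fam 𝒟 t (T i) := by
  classical
  induction A using Finset.induction_on with
  | empty => rfl
  | insert i A hi ih => rw [Finset.sum_insert hi, Finset.sum_insert hi, fam_add, ih]

omit [FiniteDimensional L V] [DecidableEq J] in
theorem fam_smul (t : J → V) (c : L) (T : Fin 3 → End L V) :
    fam 𝒟 t (c • T) = c • fam 𝒟 t T := rfl

theorem lf_add {q : V →ₗ[L] V →ₗ[L] L} (hq : IsForm q) {S : Fin 3 → End L V} (C : Core q S)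
    (h h' : End L C.V1) : lf hq C (h + h') = lf hq C h + lf hq C h' := rfl

theorem lf_smul {q : V →ₗ[L] V →ₗ[L] L} (hq : IsForm q) {S : Fin 3 → End L V} (C : Core q S)
    (c : L) (h : End L C.V1) : lf hq C (c • h) = c • lf hq C h := rfl

theorem lf_zero {q : V →ₗ[L] V →ₗ[L] L} (hq : IsForm q) {S : Fin 3 → End L V} (C : Core q S) :
    lf hq C (0 : End L C.V1) = 0 := rfl

theorem lf_Ten {q : V →ₗ[L] V →ₗ[L] L} (hq : IsForm q) {S : Fin 3 → End L V} (C : Core q S)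
    (h : End L C.V1) : lf hq C h ∈ Ten q C.W C.W :=
  ⟨fun v => lf_mem hq C h v, fun _ hv => lf_kill hq C h hv⟩

/-- tensors in `W ⊗ W` with values on `W` in `I` belong to `I ⊗ W + W ⊗ I` -/
theorem mem_IW {q : V →ₗ[L] V →ₗ[L] L} (hq : IsForm q) {S : Fin 3 → End L V} (C : Core q S)
    {T : End L V} (hT : T ∈ Ten q C.W C.W) (hI : ∀ w ∈ C.W, T w ∈ C.I) :
    T ∈ Ten q C.I C.W ⊔ Ten q C.W C.I := by
  have h1 : T = (T - C.V1.subtype ∘ₗ C.P hq ∘ₗ T) + C.V1.subtype ∘ₗ C.P hq ∘ₗ T := by abel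
  rw [h1]
  refine Submodule.add_mem_sup ⟨fun v => C.sub_P_mem_I hq (hT.1 v), fun v hv => ?_⟩
    ⟨fun v => C.V1_le (C.P hq (T v)).2, fun v hv => ?_⟩
  · rw [LinearMap.sub_apply, LinearMap.comp_apply, LinearMap.comp_apply, hT.2 v hv, map_zero,
      map_zero, sub_zero]
  · have h3 : v = (C.P hq v : V) + (v - C.P hq v) := by abel
    have h4 : C.P hq (T v) = 0 := by
      rw [h3, map_add, hT.2 _ (C.sub_P_mem hq hv), add_zero]
      exact C.P_eq_zero hq (C.I_le_perp (hI _ (C.V1_le (C.P hq v).2)))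
    rw [LinearMap.comp_apply, LinearMap.comp_apply, h4, map_zero]

omit [FiniteDimensional L V] in
/-- tensors in `I ⊗ W + W ⊗ I` are tensors in `W ⊗ W` -/
theorem IW_le {q : V →ₗ[L] V →ₗ[L] L} {S : Fin 3 → End L V} (C : Core q S) {T : End L V}
    (hT : T ∈ Ten q C.I C.W ⊔ Ten q C.W C.I) : T ∈ Ten q C.W C.W := by
  have h1 : Ten q C.I C.W ⊔ Ten q C.W C.I ≤ Ten q C.W C.W := by
    refine sup_le (fun T hT => ⟨fun v => (hT.1 v).1, hT.2⟩) fun T hT => ⟨hT.1, fun v hv => ?_⟩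
    exact hT.2 v fun w hw => hv w hw.1
  exact h1 hT

end lin

section hhi

variable {t : J → V}

/-- **`HH^I_s`**: the endomorphisms of `V₁` whose lift at the single arm `s` is in `WF` -/
def HHI (hG : 𝒟.Good) (u : J → L) (C : Core 𝒟.q (Res 𝒟 t)) (s : Fin 3) :
    Submodule L (End L C.V1) where
  carrier := {h | fam 𝒟 t (Pi.single s (lf hG.form C h)) ∈ WF 𝒟 t C.W C.I u}
  zero_mem' := by
    show fam 𝒟 t (Pi.single s (lf hG.form C 0)) ∈ WF 𝒟 t C.W C.I u
    rw [lf_zero, Pi.single_zero]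
    exact (WF 𝒟 t C.W C.I u).zero_mem
  add_mem' := by
    intro h h' h1 h2
    show fam 𝒟 t (Pi.single s (lf hG.form C (h + h'))) ∈ WF 𝒟 t C.W C.I u
    rw [lf_add, Pi.single_add, fam_add]
    exact (WF 𝒟 t C.W C.I u).add_mem h1 h2
  smul_mem' := by
    intro c h h1
    show fam 𝒟 t (Pi.single s (lf hG.form C (c • h))) ∈ WF 𝒟 t C.W C.I u
    rw [lf_smul, Pi.single_smul, fam_smul]
    exact (WF 𝒟 t C.W C.I u).smul_mem c h1

theorem mem_HHI {hG : 𝒟.Good} {C : Core 𝒟.q (Res 𝒟 t)} {s : Fin 3} {h : End L C.V1} :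
    h ∈ HHI hG u C s ↔ fam 𝒟 t (Pi.single s (lf hG.form C h)) ∈ WF 𝒟 t C.W C.I u := Iff.rfl

/-- with (C0), only the class of a triple modulo `I ⊗ W + W ⊗ I` matters -/
theorem fam_mem_iff (hG : 𝒟.Good) {C : Core 𝒟.q (Res 𝒟 t)} (hC0 : RowC0 𝒟 u t C.W C.I)
    {s : Fin 3} {T : Fin 3 → End L V} (hT : ∀ a, T a ∈ Ten 𝒟.q C.W C.W) {h : End L C.V1}
    (hs : ∀ w ∈ C.W, C.P hG.form (T s w) = h (C.P hG.form w))
    (ha : ∀ a, a ≠ s → ∀ w ∈ C.W, T a w ∈ C.I) :
    fam 𝒟 t T ∈ WF 𝒟 t C.W C.I u ↔ h ∈ HHI hG u C s := by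
  have hq := hG.form
  rw [mem_HHI]
  have h1 : ∀ a, fam 𝒟 t (Pi.single a (T a - if a = s then lf hq C h else 0)) ∈
      WF 𝒟 t C.W C.I u := by
    intro a
    refine hC0 a _ (mem_IW hq C ?_ ?_)
    · refine Submodule.sub_mem _ (hT a) ?_
      split_ifs
      · exact lf_Ten hq C h
      · exact Submodule.zero_mem _
    · intro w hw
      by_cases h2 : a = s
      · subst h2
        rw [if_pos rfl, LinearMap.sub_apply]
        have h3 := C.sub_P_mem_I hq ((hT a).1 w)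
        rw [hs w hw] at h3
        exact h3
      · rw [if_neg h2, sub_zero]
        exact ha a h2 w hw
  have h2 : T = Pi.single s (lf hq C h) +
      ∑ a, Pi.single a (T a - if a = s then lf hq C h else 0) := by
    rw [Finset.univ_sum_single]
    funext a
    rw [Pi.add_apply]
    by_cases h3 : a = s
    · subst h3
      rw [Pi.single_eq_same, if_pos rfl]
      abel
    · rw [Pi.single_eq_of_ne h3, if_neg h3]
      abel
  have h3 : fam 𝒟 t T = fam 𝒟 t (Pi.single s (lf hq C h)) +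
      ∑ a, fam 𝒟 t (Pi.single a (T a - if a = s then lf hq C h else 0)) := by
    conv_lhs => rw [h2]
    rw [fam_add, fam_sum]
  rw [h3]
  exact Submodule.add_mem_iff_left _ (Submodule.sum_mem _ fun a _ => h1 a)

/-- the output of FLOW for a triple `Y` of skew tensors -/
def FlowOut (𝒟 : Cfg L V J) (u : J → L) (t : J → V) (W I : Submodule L V)
    (Y : Fin 3 → End L V) : Prop :=
  ∃ (n : H533.Conn 𝒟.q) (R : J → V), R ∈ Ku 𝒟 u ∧
    (∀ a i, ∀ v ∈ 𝒟.F a i, n.δ v - Y a v ∈ 𝒟.F a i) ∧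
    (∀ w ∈ W, n.δ w ∈ W) ∧
    (∀ l, n.δ (t l) = Y (𝒟.arm l) (t l) + R l) ∧
    (∀ l, n.δ (𝒟.om t l) = Y (𝒟.arm l) (𝒟.om t l) + 𝒟.om R l) ∧
    ∀ (Γ : End L V) (r : J → V), r ∈ Uu V u → RelG 𝒟 W I t Γ r →
      ∃ r' ∈ Uu V u, ∃ B : Fin 3 → End L V, (∀ a, B a ∈ Ten 𝒟.q W W) ∧
        (∀ a x, ∀ w ∈ W, 𝒟.q (B a x) w = 𝒟.q x (Γ (Y a w) - Y a (Γ w))) ∧
        (∀ l, n.δ (r l) = Y (𝒟.arm l) (r l) + (r' l + B (𝒟.arm l) (t l))) ∧
        (∀ l, n.δ (𝒟.om r l) = Y (𝒟.arm l) (𝒟.om r l) + (𝒟.om r' l + B (𝒟.arm l) (𝒟.om t l)))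

/-- **FLOW**, for the triples in `W ⊗ W` -/
def RowFlow (𝒟 : Cfg L V J) (u : J → L) (t : J → V) (W I : Submodule L V) : Prop :=
  ∀ Y : Fin 3 → End L V, (∀ a, IsSk 𝒟.q (Y a)) → (∀ a, Y a ∈ Ten 𝒟.q W W) →
    ∑ a, (Res 𝒟 t a * Y a - Y a * Res 𝒟 t a) = 0 → FlowOut 𝒟 u t W I Y

omit [FiniteDimensional L V] in
/-- the adjoint preserves the orthogonal space -/
theorem mem_perp_adj {q : V →ₗ[L] V →ₗ[L] L} {W : Submodule L V} {E E' : End L V}
    (hE : ∀ w ∈ W, E w ∈ W) (hE' : ∀ u v, q (E' u) v = q u (E v)) :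
    ∀ v ∈ perp q W, E' v ∈ perp q W := fun v hv w hw => by
  rw [hE']; exact hv _ (hE w hw)

/-- **(END), step (B)**, at the base `t`. -/
theorem der_HHI (hG : 𝒟.Good) {C : Core 𝒟.q (Res 𝒟 t)} (hC0 : RowC0 𝒟 u t C.W C.I)
    (hF : RowFlow 𝒟 u t C.W C.I) {κ : Type*} [Fintype κ]
    {D : End L C.V1} {P : κ → End L C.V1} {d : κ → L} (hDP : Diag D P d)
    (hP : ∀ i, IsSA C.q1 (P i)) (hPS : ∀ i a, P i * C.S1 hG.form a = C.S1 hG.form a * P i)
    (hKu : ∀ R ∈ Ku 𝒟 u, ∃ E : End L V, RelG 𝒟 C.W C.I t E R ∧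
      ∃ α β : L, C.res hG.form E = α • 1 + β • D)
    (hcen : ∀ M : End L C.V1, IsSA C.q1 M →
      (∀ a, M * C.S1 hG.form a = C.S1 hG.form a * M) → M * D = D * M) (s : Fin 3)
    (h2 : (2 : L) ≠ 0)
    (H2 : ∀ h : End L C.V1, (∀ i, P i * h * P i = 0) →
      (∀ c : ℕ, ∀ v ∈ LinearMap.range (C.S1 hG.form s ^ c),
        h v ∈ LinearMap.range (C.S1 hG.form s ^ c)) → h ∈ HHI hG u C s)
    {Y : End L C.V1} (hY : IsSk C.q1 Y) (hYo : ∀ i, P i * Y * P i = 0)
    (hYS : Y * C.S1 hG.form s = C.S1 hG.form s * Y)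
    {h : End L C.V1} (hho : ∀ i, P i * h * P i = 0)
    (hhr : ∀ c : ℕ, ∀ v ∈ LinearMap.range (C.S1 hG.form s ^ c),
      h v ∈ LinearMap.range (C.S1 hG.form s ^ c)) :
    h * Y - Y * h ∈ HHI hG u C s := by
  classical
  have hq := hG.form
  have hq1 := C.isForm hq
  have hSA : ∀ a, IsSA 𝒟.q (Res 𝒟 t a) := fun a => Sop_SA 𝒟.arm hq (Tt L t) hG.skew a
  -- the triple `Y_a`
  obtain ⟨b, hb, hbs⟩ := exists_lift_skew hq h2 hSA C s hY hYS
  set Ya : Fin 3 → End L V := fun a => (if a = s then lf hq C Y else 0) + b a with hYa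
  have hYsk : ∀ a, IsSk 𝒟.q (Ya a) := by
    intro a v w
    have e1 := (hb a).adj v w
    have e2 : 𝒟.q ((if a = s then lf hq C Y else 0) v) w =
        - 𝒟.q v ((if a = s then lf hq C Y else 0) w) := by
      split_ifs
      · exact lf_skew hq C hY v w
      · simp
    show 𝒟.q ((if a = s then lf hq C Y else 0) v + b a v) w =
      - 𝒟.q v ((if a = s then lf hq C Y else 0) w + b a w)
    rw [map_add, LinearMap.add_apply, e1, e2, map_add]
    ring
  have hYT : ∀ a, Ya a ∈ Ten 𝒟.q C.W C.W := by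
    intro a
    refine Submodule.add_mem _ ?_ ⟨(hb a).mem, (hb a).kill⟩
    split_ifs
    · exact lf_Ten hq C Y
    · exact Submodule.zero_mem _
  have hYW : ∀ a, ∀ v, Ya a v ∈ C.W := fun a v => (hYT a).1 v
  have hYP : ∀ a, ∀ w ∈ C.W, C.P hq (Ya a w) = (if a = s then Y else 0) (C.P hq w) := by
    intro a w hw
    show C.P hq ((if a = s then lf hq C Y else 0) w + b a w) = _
    rw [map_add, C.P_eq_zero hq (C.I_le_perp ((hb a).rad w hw)), add_zero]
    split_ifs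
    · exact P_lf hq C Y w
    · rw [LinearMap.zero_apply, map_zero, LinearMap.zero_apply]
  have hIP : ∀ w ∈ C.W, C.P hq w = 0 → w ∈ C.I := fun w hw h0 => by
    have := C.sub_P_mem_I hq hw
    rwa [h0, Submodule.coe_zero, sub_zero] at this
  have hSP : ∀ a, ∀ w ∈ C.W, C.P hq (Res 𝒟 t a w) = C.S1 hq a (C.P hq w) := fun a w hw =>
    P_res hq C (fun i hi => C.map_I hSA hi) hw
  -- the flow
  obtain ⟨n, R, hR, hfl, hnW, ht1, ht2, hrr⟩ := hF Ya hYsk hYT (by rw [← hbs])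
  obtain ⟨E, hE, α, β, hEαβ⟩ := hKu R hR
  have hnI : ∀ w ∈ C.I, n.δ w ∈ C.I := by
    intro i hi
    refine ⟨hnW i hi.1, fun w hw => ?_⟩
    have h1 := n.metric i w
    rw [hi.2 w hw, map_zero, hi.2 _ (hnW w hw), add_zero] at h1
    exact h1.symm
  have hnp : ∀ v ∈ perp 𝒟.q C.W, n.δ v ∈ perp 𝒟.q C.W := by
    intro v hv w hw
    have h1 := n.metric v w
    rw [hv w hw, map_zero, hv _ (hnW w hw), add_zero] at h1
    exact h1.symm
  have hFl : FlowG 𝒟 C.W C.I t n Ya E R := by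
    refine ⟨C.I_le, fun x hx w hw => hx.2 w hw, fun a w hw => C.map_W hw,
      fun a w hw => C.map_I hSA hw, hnW, hnI, hYsk, fun a w _ => hYW a w, fun a w hw => ?_,
      fun a w hw => ?_, ht1, ht2, hE⟩
    · rw [(hYT a).2 w hw.2]
      exact Submodule.zero_mem _
    · refine hIP _ (sub_mem (hYW a _) (C.map_W (hYW a w))) ?_
      rw [map_sub, hYP a _ (C.map_W hw), hSP a w hw, hSP a _ (hYW a w), hYP a w hw]
      split_ifs with h1
      · subst h1
        rw [← Module.End.mul_apply, hYS, Module.End.mul_apply, sub_self]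
      · rw [LinearMap.zero_apply, LinearMap.zero_apply, map_zero, sub_self]
  -- the induced connection
  set n1 := connCore hG C n with hn1
  have hnP : ∀ w ∈ C.W, C.P hq (n.δ w) = n1.δ (C.P hq w) := by
    intro w hw
    have h1 := C.P_eq_zero hq (C.I_le_perp (hnI _ (C.sub_P_mem_I hq hw)))
    rw [map_sub, map_sub, sub_eq_zero] at h1
    exact h1
  set E1 : End L C.V1 := C.res hq E with hE1
  have hEP : ∀ w ∈ C.W, C.P hq (E w) = E1 (C.P hq w) := fun w hw =>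
    P_res hq C hE.mapI hw
  have hE1c : ∀ M : End L C.V1, M * D = D * M → M * E1 = E1 * M := fun M hM => by
    rw [hEαβ, mul_add, add_mul, mul_smul_comm, mul_smul_comm, smul_mul_assoc, smul_mul_assoc,
      mul_one, one_mul, hM]
  have hDSA : IsSA C.q1 D := hDP.SA hP
  have hDS : ∀ a, C.S1 hq a * D = D * C.S1 hq a := fun a =>
    hDP.comm_of_comm fun i => (hPS i a).symm
  have hbS : ∀ a, brk n1 (C.S1 hq a) = (2 : L) • (C.S1 hq a * E1) := by
    intro a
    refine LinearMap.ext fun v => ?_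
    have h1 := hFl.nS hG a (C.V1_le v.2)
    have h3 := C.P_eq_zero hq (C.I_le_perp h1)
    rw [map_sub, map_add, map_smul, hnP _ (C.map_W (C.V1_le v.2)), hSP a _ (C.V1_le v.2),
      hSP a _ (hnW _ (C.V1_le v.2)), hSP a _ (hE.mapW _ (C.V1_le v.2)), hEP _ (C.V1_le v.2),
      C.P_coe] at h3
    rw [brk_apply, LinearMap.smul_apply, Module.End.mul_apply]
    have h4 : n1.δ v = C.P hq (n.δ (v : V)) := rfl
    rw [h4]
    rw [sub_eq_zero] at h3
    rw [h3]
    abel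
  have hbD : brk n1 D * D = D * brk n1 D := by
    apply hcen _ (brk_SA n1 hDSA)
    intro a
    have e2 := congrArg (brk n1) (hDS a)
    rw [brk_mul, brk_mul, hbS] at e2
    have e3 : (2 : L) • (C.S1 hq a * E1) * D = D * (2 : L) • (C.S1 hq a * E1) := by
      have e4 := hE1c D rfl
      rw [smul_mul_assoc, mul_smul_comm, mul_assoc, ← e4, ← mul_assoc, ← mul_assoc, hDS]
    rw [e3, add_comm] at e2
    exact (add_right_cancel e2).symm
  have hbP : ∀ i, brk n1 (P i) = 0 := hDP.brk_P n1 hbD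
  -- the three elements given by `H2`
  have hPE : ∀ i, P i * E1 = E1 * P i := fun i => hE1c _ (by rw [hDP.mul_D, hDP.D_mul])
  have hSc : ∀ (M : End L C.V1), M * C.S1 hq s = C.S1 hq s * M → ∀ c : ℕ,
      ∀ v ∈ LinearMap.range (C.S1 hq s ^ c), M v ∈ LinearMap.range (C.S1 hq s ^ c) := by
    rintro M hM c _ ⟨w, rfl⟩
    refine ⟨M w, ?_⟩
    have h1 : M * C.S1 hq s ^ c = C.S1 hq s ^ c * M := (Commute.pow_right hM c)
    exact (LinearMap.congr_fun h1 w).symm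
  have m1 : brk n1 h ∈ HHI hG u C s := by
    refine H2 _ (fun i => ?_) fun c v hv => ?_
    · have e1 := congrArg (brk n1) (hho i)
      rw [brk_mul, brk_mul, hbP, brk_zero, zero_mul, mul_zero, add_zero, zero_add] at e1
      exact e1
    · have hnr : ∀ c : ℕ, ∀ v ∈ LinearMap.range (C.S1 hq s ^ c),
          n1.δ v ∈ LinearMap.range (C.S1 hq s ^ c) := by
        intro c
        induction c with
        | zero => intro v _; rw [pow_zero]; exact ⟨n1.δ v, rfl⟩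
        | succ c ih =>
          rintro _ ⟨w, rfl⟩
          have e1 : (C.S1 hq s ^ (c + 1)) w = C.S1 hq s ((C.S1 hq s ^ c) w) := by
            rw [pow_succ', Module.End.mul_apply]
          have e2 : n1.δ (C.S1 hq s ((C.S1 hq s ^ c) w)) =
              C.S1 hq s ((2 : L) • E1 ((C.S1 hq s ^ c) w) + n1.δ ((C.S1 hq s ^ c) w)) := by
            rw [brk_eq, hbS, map_add, map_smul]
            rfl
          obtain ⟨x, hx⟩ := ih _ ⟨w, rfl⟩
          obtain ⟨y, hy⟩ := hSc E1 (hE1c _ (hDS s)).symm c _ ⟨w, rfl⟩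
          refine ⟨(2 : L) • y + x, ?_⟩
          rw [e1, e2, pow_succ', Module.End.mul_apply, map_add, map_smul, hy, hx]
      rw [brk_apply]
      exact sub_mem (hnr c _ (hhr c v hv)) (hhr c _ (hnr c v hv))
  have m2 : h * E1 ∈ HHI hG u C s := by
    refine H2 _ (fun i => ?_) fun c v hv => ?_
    · rw [mul_assoc, mul_assoc, ← hPE, ← mul_assoc, ← mul_assoc, hho, zero_mul]
    · exact hhr c _ (hSc E1 (hE1c _ (hDS s)).symm c v hv)
  -- the family `r`
  have hh := H2 h hho hhr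
  rw [mem_HHI, mem_WF] at hh
  obtain ⟨r, hru, ⟨Γ, hΓ⟩, hN⟩ := hh
  obtain ⟨r', hru', B, hBT, hB1, hr1, hr2⟩ := hrr Γ r hru hΓ
  set Γ1 : End L C.V1 := C.res hq Γ with hΓ1
  have hΓP : ∀ w ∈ C.W, C.P hq (Γ w) = Γ1 (C.P hq w) := fun w hw => P_res hq C hΓ.mapI hw
  have hΓSA : IsSA C.q1 Γ1 := by
    intro v w
    have e1 := hΓ.sa _ (C.V1_le v.2) _ (C.V1_le w.2)
    rw [hΓ1, C.res_apply, C.res_apply, C.q_P, e1, hq1.symm, C.q_P, hq.symm]
  have hΓS : ∀ a, Γ1 * C.S1 hq a = C.S1 hq a * Γ1 := by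
    intro a
    refine LinearMap.ext fun v => ?_
    have e1 := C.P_eq_zero hq (C.I_le_perp (hΓ.comm a _ (C.V1_le v.2)))
    rw [map_sub, hΓP _ (C.map_W (C.V1_le v.2)), hSP a _ (C.V1_le v.2),
      hSP a _ (hΓ.mapW _ (C.V1_le v.2)), hΓP _ (C.V1_le v.2), C.P_coe, sub_eq_zero] at e1
    exact e1
  have hΓD := hcen Γ1 hΓSA hΓS
  have hΓE : Γ1 * E1 = E1 * Γ1 := hE1c _ hΓD
  have hB2 := hB2_of hFl (fun x hx h0 => ⟨hx, fun w hw => h0 w hw⟩) hΓ hB1
    (fun a w _ => (hBT a).1 w)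
  have hrel := RelG.flow hG hFl hΓ (fun w hw => by
    refine hIP _ (sub_mem (hΓ.mapW _ (hE.mapW w hw)) (hE.mapW _ (hΓ.mapW w hw))) ?_
    rw [map_sub, hΓP _ (hE.mapW w hw), hEP w hw, hEP _ (hΓ.mapW w hw), hΓP w hw, sub_eq_zero]
    exact LinearMap.congr_fun hΓE _) hB1 hB2 hr1 hr2
  have m3 : Γ1 * Y - Y * Γ1 ∈ HHI hG u C s := by
    refine H2 _ (fun i => ?_) ?_
    · have e1 : Γ1 * P i = P i * Γ1 := hDP.comm_P hΓD i
      have e3 : P i * (Γ1 * Y) * P i = Γ1 * (P i * Y * P i) := by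
        rw [← mul_assoc, ← e1, mul_assoc, mul_assoc, mul_assoc]
      have e4 : P i * (Y * Γ1) * P i = (P i * Y * P i) * Γ1 := by
        rw [mul_assoc, mul_assoc, e1, mul_assoc, mul_assoc]
      rw [mul_sub, sub_mul, e3, e4, hYo, mul_zero, zero_mul, sub_zero]
    · refine hSc _ ?_
      have e3 : Γ1 * Y * C.S1 hq s = C.S1 hq s * (Γ1 * Y) := by
        rw [mul_assoc, hYS, ← mul_assoc, hΓS, mul_assoc]
      have e4 : Y * Γ1 * C.S1 hq s = C.S1 hq s * (Y * Γ1) := by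
        rw [mul_assoc, hΓS, ← mul_assoc, hYS, mul_assoc]
      rw [sub_mul, mul_sub, e3, e4]
  -- the new triple
  obtain ⟨E', hE', -⟩ := H58.exists_adj hq E
  set T : Fin 3 → End L V := Pi.single s (lf hq C h) with hT
  have hTT : ∀ a, T a ∈ Ten 𝒟.q C.W C.W := by
    intro a
    by_cases h1 : a = s
    · subst h1
      rw [hT, Pi.single_eq_same]
      exact lf_Ten hq C h
    · rw [hT, Pi.single_eq_of_ne h1]
      exact Submodule.zero_mem _
  set T' : Fin 3 → End L V := fun a => brk n (T a) + T a * Ya a - Ya a * T a + T a * E' - B a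
    with hT'
  have hapT' : ∀ a v, T' a v = n.δ (T a v) - T a (n.δ v) + T a (Ya a v) - Ya a (T a v) +
      T a (E' v) - B a v := fun a v => rfl
  have hTT' : ∀ a, T' a ∈ Ten 𝒟.q C.W C.W := by
    intro a
    refine ⟨fun v => ?_, fun v hv => ?_⟩
    · rw [hapT']
      exact sub_mem (add_mem (sub_mem (add_mem (sub_mem (hnW _ ((hTT a).1 v)) ((hTT a).1 _))
        ((hTT a).1 _)) (hYW a _)) ((hTT a).1 _)) ((hBT a).1 v)
    · rw [hapT', (hTT a).2 v hv, (hTT a).2 _ (hnp v hv), (hYT a).2 v hv,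
        (hTT a).2 _ (mem_perp_adj hE.mapW hE' v hv), (hBT a).2 v hv]
      simp
  have hBP : ∀ a, ∀ w ∈ C.W, C.P hq (B a w) =
      Γ1 ((if a = s then Y else 0) (C.P hq w)) - (if a = s then Y else 0) (Γ1 (C.P hq w)) := by
    intro a w hw
    have e1 := C.P_eq_zero hq (C.I_le_perp (hB2 a w hw))
    rw [map_sub, sub_eq_zero] at e1
    rw [e1, map_sub, hΓP _ (hYW a w), hYP a w hw, hYP a _ (hΓ.mapW w hw), hΓP w hw]
  have hE'P : ∀ w ∈ C.W, C.P hq (E' w) = E1 (C.P hq w) := by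
    intro w hw
    rw [← hEP w hw, ← sub_eq_zero, ← map_sub]
    refine C.P_eq_zero hq fun w' hw' => ?_
    rw [map_sub, LinearMap.sub_apply, hE', hE.sa w hw w' hw', sub_self]
  -- membership
  have key : fam 𝒟 t T' ∈ WF 𝒟 t C.W C.I u := by
    refine ⟨r', hru', ⟨_, hrel⟩, fun l => ?_⟩
    have hTR : ∀ (x y : V), (∀ w, 𝒟.q w x = 𝒟.q w x) → (∀ w ∈ C.W, 𝒟.q w x = 𝒟.q (E w) y) →
        T (𝒟.arm l) x = T (𝒟.arm l) (E' y) := by
      intro x y _ hxy
      rw [← sub_eq_zero, ← map_sub]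
      refine (hTT _).2 _ fun w hw => ?_
      rw [map_sub, LinearMap.sub_apply, hE', hq.symm x, hxy w hw, hq.symm y, sub_self]
    have hR1 : T (𝒟.arm l) (R l) = T (𝒟.arm l) (E' (t l)) :=
      hTR _ _ (fun _ => rfl) fun w hw => hE.one w hw l
    have hR2 : T (𝒟.arm l) (𝒟.om R l) = T (𝒟.arm l) (E' (𝒟.om t l)) :=
      hTR _ _ (fun _ => rfl) fun w hw => q_om (fun k => hE.one w hw k) l
    constructor
    · have f1 := hfl (𝒟.arm l) (𝒟.c l) _ (hN l).1
      have f2 : T' (𝒟.arm l) (t l) - r' l = n.δ (T (𝒟.arm l) (t l) - r l) -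
          Ya (𝒟.arm l) (T (𝒟.arm l) (t l) - r l) := by
        rw [hapT', map_sub, map_sub, hr1, ← hR1, ht1]
        simp only [map_add]
        abel
      show T' (𝒟.arm l) (t l) - r' l ∈ 𝒟.C l
      rw [f2]
      exact f1
    · have f1 := conn_perp n (hYsk (𝒟.arm l)) (fun v hv => hfl (𝒟.arm l) (𝒟.c l) v hv) _
        (hN l).2
      have f2 : T' (𝒟.arm l) (𝒟.om t l) - 𝒟.om r' l =
          n.δ (T (𝒟.arm l) (𝒟.om t l) - 𝒟.om r l) -
          Ya (𝒟.arm l) (T (𝒟.arm l) (𝒟.om t l) - 𝒟.om r l) := by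
        rw [hapT', map_sub, map_sub, hr2, ← hR2, ht2]
        simp only [map_add]
        abel
      show T' (𝒟.arm l) (𝒟.om t l) - 𝒟.om r' l ∈ perp 𝒟.q (𝒟.C l)
      rw [f2]
      exact f1
  have m4 : brk n1 h + h * Y - Y * h + h * E1 - (Γ1 * Y - Y * Γ1) ∈ HHI hG u C s := by
    refine (fam_mem_iff hG hC0 hTT' (fun w hw => ?_) fun a ha w hw => ?_).mp key
    · have hTs : T s = lf hq C h := by rw [hT, Pi.single_eq_same]
      rw [hapT', hTs, map_sub, map_add, map_sub, map_add, map_sub, hnP _ (lf_mem hq C h w),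
        P_lf, P_lf, P_lf, P_lf, hnP w hw, hYP s w hw, hYP s _ (lf_mem hq C h w), P_lf, hE'P w hw,
        hBP s w hw]
      simp only [if_true]
      simp only [LinearMap.sub_apply, LinearMap.add_apply, Module.End.mul_apply, brk_apply]
    · have hTa : T a = 0 := by rw [hT, Pi.single_eq_of_ne ha]
      have hmem := (hTT' a).1 w
      refine hIP _ hmem ?_
      rw [hapT', hTa]
      simp only [LinearMap.zero_apply, map_zero, sub_zero, add_zero, zero_sub, map_neg]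
      rw [hBP a w hw, if_neg ha]
      simp
  have e : h * Y - Y * h = (brk n1 h + h * Y - Y * h + h * E1 - (Γ1 * Y - Y * Γ1)) -
      brk n1 h - h * E1 + (Γ1 * Y - Y * Γ1) := by abel
  rw [e]
  exact add_mem (sub_mem (sub_mem m4 m1) m2) m3

end hhi

end Vale.Agent.P182.H55
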