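import Vale.Agent.P182.H55.SemiZ

/-!
# [S-Y]: modules over `L[τ, n] / (τ^p, n^(m+1))`
-/

namespace Vale.Agent.P182.H55

open Module Vale.Agent.P182.H533 Vale.Agent.P182.H89

section free

variable {L V : Type*} [Field L] [AddCommGroup V] [Module L V]

/-- `u ↦ ∑ A^i u_i` -/
def Fm (A : End L V) (r : ℕ) (U : Submodule L V) : (Fin r → U) →ₗ[L] V :=
  ∑ i : Fin r, (A ^ (i : ℕ)) ∘ₗ U.subtype ∘ₗ LinearMap.proj i

theorem Fm_apply (A : End L V) (r : ℕ) (U : Submodule L V) (u : Fin r → U) :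
    Fm A r U u = ∑ i : Fin r, (A ^ (i : ℕ)) (u i) := by
  rw [Fm, LinearMap.sum_apply]
  rfl

/-- the shift -/
def shf {U : Submodule L V} {r : ℕ} (u : Fin (r + 1) → U) : Fin (r + 1) → U :=
  Fin.cons 0 (fun i : Fin r => u i.castSucc)

theorem Fm_shf {A : End L V} {r : ℕ} (h : A ^ (r + 1) = 0) (U : Submodule L V)
    (u : Fin (r + 1) → U) : A (Fm A (r + 1) U u) = Fm A (r + 1) U (shf u) := by
  rw [Fm_apply, Fm_apply, map_sum, Fin.sum_univ_succ (fun i => (A ^ (i : ℕ)) (shf u i)),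
    Fin.sum_univ_castSucc]
  have h1 : A ((A ^ ((Fin.last r : Fin (r + 1)) : ℕ)) (u (Fin.last r) : V)) = 0 := by
    rw [← Module.End.mul_apply, ← pow_succ', Fin.val_last, h, LinearMap.zero_apply]
  have h2 : (A ^ ((0 : Fin (r + 1)) : ℕ)) ((shf u 0 : U) : V) = 0 := by
    show (A ^ 0) ((0 : U) : V) = 0
    simp
  rw [h1, h2, add_zero, zero_add]
  refine Finset.sum_congr rfl fun i _ => ?_
  rw [← Module.End.mul_apply, ← pow_succ']
  rfl

theorem Fm_shf_iter {A : End L V} {r : ℕ} (h : A ^ (r + 1) = 0) (U : Submodule L V) (k : ℕ)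
    (u : Fin (r + 1) → U) : (A ^ k) (Fm A (r + 1) U u) = Fm A (r + 1) U (shf^[k] u) := by
  induction k with
  | zero => rfl
  | succ k ih => rw [pow_succ', Module.End.mul_apply, ih, Fm_shf h, Function.iterate_succ_apply']

theorem shf_iter {U : Submodule L V} {r : ℕ} (u : Fin (r + 1) → U) (k : ℕ) :
    ∀ i (hk : k ≤ i) (hi : i < r + 1), (shf^[k] u) ⟨i, hi⟩ = u ⟨i - k, by omega⟩ := by
  induction k with
  | zero => intro i _ hi; rfl
  | succ k ih =>
    intro i hk hi
    obtain ⟨i, rfl⟩ : ∃ j, i = j + 1 := ⟨i - 1, by omega⟩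
    rw [Function.iterate_succ_apply']
    have h1 : shf (shf^[k] u) ⟨i + 1, hi⟩ = (shf^[k] u) ⟨i, by omega⟩ := rfl
    rw [h1, ih i (by omega) (by omega)]
    congr 2
    omega

theorem le_range_Fm (A : End L V) (r : ℕ) (U : Submodule L V) :
    U ≤ LinearMap.range (Fm A (r + 1) U) := by
  intro u hu
  refine ⟨Fin.cons ⟨u, hu⟩ 0, ?_⟩
  rw [Fm_apply, Fin.sum_univ_succ]
  simp

/-- Nakayama -/
theorem nak {A : End L V} {r : ℕ} (h : A ^ r = 0) {W : Submodule L V} (hW : ∀ w ∈ W, A w ∈ W)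
    (hWA : W ⊔ LinearMap.range A = ⊤) : W = ⊤ := by
  have hp : ∀ k : ℕ, ∀ w ∈ W, (A ^ k) w ∈ W := by
    intro k
    induction k with
    | zero => exact fun w hw => hw
    | succ k ih =>
      intro w hw
      rw [pow_succ', Module.End.mul_apply]
      exact hW _ (ih w hw)
  have key : ∀ k : ℕ, ∀ v, ∃ w ∈ W, ∃ y, v = w + (A ^ k) y := by
    intro k
    induction k with
    | zero => exact fun v => ⟨0, W.zero_mem, v, by simp⟩
    | succ k ih =>
      intro v
      obtain ⟨w, hw, y, rfl⟩ := ih v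
      have hy : y ∈ W ⊔ LinearMap.range A := by
        rw [hWA]
        trivial
      obtain ⟨w', hw', _, ⟨y', rfl⟩, rfl⟩ := Submodule.mem_sup.1 hy
      refine ⟨w + (A ^ k) w', W.add_mem hw (hp k w' hw'), y', ?_⟩
      rw [map_add, pow_succ, Module.End.mul_apply, add_assoc]
  rw [eq_top_iff]
  intro v _
  obtain ⟨w, hw, y, rfl⟩ := key r v
  rw [h, LinearMap.zero_apply, add_zero]
  exact hw

/-- the operator `Y` -/
theorem exists_Y [FiniteDimensional L V] {τ n : End L V} {p m k : ℕ} (hp : 1 ≤ p)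
    (hc : τ * n = n * τ) (hτ : τ ^ p = 0) (hn : n ^ (m + 1) = 0)
    (hG : finrank L V ≤ finrank L ↥(LinearMap.range n ⊔ LinearMap.range τ) + k)
    (hk : (m + 1) * (p * k) ≤ finrank L V) :
    ∃ Y : End L V, Y * τ = τ * Y ∧ Dp n (m + 1) Y = 1 := by
  obtain ⟨p, rfl⟩ : ∃ j, p = j + 1 := ⟨p - 1, by omega⟩
  obtain ⟨G, hGc⟩ := Submodule.exists_isCompl (LinearMap.range n ⊔ LinearMap.range τ)
  have hGk : finrank L G ≤ k := by
    have := Submodule.finrank_add_eq_of_isCompl hGc
    omega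
  set U := LinearMap.range (Fm τ (p + 1) G) with hU
  have hGU : G ≤ U := le_range_Fm τ p G
  have hUk : finrank L U ≤ (p + 1) * k := by
    have h1 : finrank L U ≤ finrank L (Fin (p + 1) → G) :=
      LinearMap.finrank_range_le (Fm τ (p + 1) G)
    have h2 : finrank L (Fin (p + 1) → G) = (p + 1) * finrank L G := by
      rw [Module.finrank_pi_fintype, Finset.sum_const, Finset.card_univ, Fintype.card_fin,
        smul_eq_mul]
    have h3 : (p + 1) * finrank L G ≤ (p + 1) * k := Nat.mul_le_mul_left _ hGk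
    omega
  have hUτ : ∀ u ∈ U, τ u ∈ U := by
    rintro _ ⟨g, rfl⟩
    exact ⟨shf g, (Fm_shf hτ G g).symm⟩
  have hcx : ∀ x, τ (n x) = n (τ x) := fun x => LinearMap.congr_fun hc x
  have hUn : U ⊔ LinearMap.range n = ⊤ := by
    apply nak hτ
    · intro w hw
      obtain ⟨u, hu, _, ⟨y, rfl⟩, rfl⟩ := Submodule.mem_sup.1 hw
      rw [map_add, hcx]
      exact Submodule.add_mem _ (Submodule.mem_sup_left (hUτ u hu))
        (Submodule.mem_sup_right ⟨_, rfl⟩)
    · rw [eq_top_iff, ← hGc.sup_eq_top]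
      refine sup_le (sup_le ?_ ?_) ?_
      · exact le_sup_right.trans le_sup_left
      · exact le_sup_right
      · exact (hGU.trans le_sup_left).trans le_sup_left
  set F := Fm n (m + 1) U with hF
  have hsurj : LinearMap.range F = ⊤ := by
    apply nak hn
    · rintro _ ⟨u, rfl⟩
      exact ⟨shf u, (Fm_shf hn U u).symm⟩
    · rw [eq_top_iff, ← hUn]
      exact sup_le_sup_right (le_range_Fm n m U) _
  have hsurj' : Function.Surjective F := LinearMap.range_eq_top.1 hsurj
  have hdim : finrank L (Fin (m + 1) → U) = finrank L V := by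
    have h2 : finrank L (Fin (m + 1) → U) = (m + 1) * finrank L U := by
      rw [Module.finrank_pi_fintype, Finset.sum_const, Finset.card_univ, Fintype.card_fin,
        smul_eq_mul]
    have h3 : (m + 1) * finrank L U ≤ (m + 1) * ((p + 1) * k) := Nat.mul_le_mul_left _ hUk
    have h4 := LinearMap.finrank_le_finrank_of_surjective hsurj'
    omega
  have hinj : Function.Injective F :=
    (LinearMap.injective_iff_surjective_of_finrank_eq_finrank hdim).2 hsurj'
  let e := LinearEquiv.ofBijective F ⟨hinj, hsurj'⟩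
  have he : ∀ u, e.symm (F u) = u := fun u => e.symm_apply_apply u
  let Y : End L V := U.subtype ∘ₗ LinearMap.proj (Fin.last m) ∘ₗ e.symm.toLinearMap
  have hY : ∀ u, Y (F u) = u (Fin.last m) := fun u => by
    show ((e.symm (F u)) (Fin.last m) : V) = _
    rw [he]
  have hcp : ∀ i x, τ ((n ^ i) x) = (n ^ i) (τ x) := fun i x =>
    LinearMap.congr_fun (Commute.pow_right (show Commute τ n from hc) i).eq x
  refine ⟨Y, ?_, ?_⟩
  · refine LinearMap.ext fun x => ?_
    obtain ⟨u, rfl⟩ := hsurj' x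
    have h1 : τ (F u) = F (fun i => ⟨τ (u i), hUτ _ (u i).2⟩) := by
      rw [hF, Fm_apply, Fm_apply, map_sum]
      exact Finset.sum_congr rfl fun i _ => hcp i _
    rw [Module.End.mul_apply, Module.End.mul_apply, h1, hY, hY]
  · refine LinearMap.ext fun x => ?_
    obtain ⟨u, rfl⟩ := hsurj' x
    unfold Dp
    rw [LinearMap.sum_apply, Finset.sum_range, Module.End.one_apply]
    conv_rhs => rw [hF, Fm_apply]
    refine Finset.sum_congr rfl fun i _ => ?_
    rw [Module.End.mul_apply, Module.End.mul_apply, hF, Fm_shf_iter hn, ← hF, hY]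
    congr 2
    have h1 := shf_iter u (m + 1 - 1 - i) m (by omega) (by omega)
    have h2 : (⟨m, by omega⟩ : Fin (m + 1)) = Fin.last m := rfl
    rw [h2] at h1
    rw [h1]
    congr 1
    have := i.2
    exact Fin.ext (by show m - (m + 1 - 1 - (i : ℕ)) = i; omega)

end free

end Vale.Agent.P182.H55
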