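import Vale.Agent.P182.H55.Add

/-!
# Multiples of triples with invariants
-/

namespace Vale.Agent.P182.H55

open scoped TensorProduct
open Vale.Agent.P182

variable {n : ℕ}

theorem mul_aux (hn : 2 ≤ n) {lam : Fin 3 → Fin n → ℚ} (hl : ∀ s, IsDominant (lam s))
    {V₀ V₁ V₂ : Type*} [AddCommGroup V₀] [Module ℂ V₀]
    [LieRingModule (so n) V₀] [LieModule ℂ (so n) V₀] [AddCommGroup V₁] [Module ℂ V₁]
    [LieRingModule (so n) V₁] [LieModule ℂ (so n) V₁] [AddCommGroup V₂] [Module ℂ V₂]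
    [LieRingModule (so n) V₂] [LieModule ℂ (so n) V₂]
    [LieModule.IsIrreducible ℂ (so n) V₀] [LieModule.IsIrreducible ℂ (so n) V₁]
    [LieModule.IsIrreducible ℂ (so n) V₂]
    (v₀ : HasHighestWeight (lam 0) V₀) (v₁ : HasHighestWeight (lam 1) V₁)
    (v₂ : HasHighestWeight (lam 2) V₂) (h : HasInvariants (n := n) V₀ V₁ V₂) (M : ℕ) :
    ∀ (W₀ W₁ W₂ : Type) [AddCommGroup W₀] [Module ℂ W₀]
    [LieRingModule (so n) W₀] [LieModule ℂ (so n) W₀] [AddCommGroup W₁] [Module ℂ W₁]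
    [LieRingModule (so n) W₁] [LieModule ℂ (so n) W₁] [AddCommGroup W₂] [Module ℂ W₂]
    [LieRingModule (so n) W₂] [LieModule ℂ (so n) W₂]
    [LieModule.IsIrreducible ℂ (so n) W₀] [LieModule.IsIrreducible ℂ (so n) W₁]
    [LieModule.IsIrreducible ℂ (so n) W₂],
    HasHighestWeight (fun i => ((M + 1 : ℕ) : ℚ) * lam 0 i) W₀ →
    HasHighestWeight (fun i => ((M + 1 : ℕ) : ℚ) * lam 1 i) W₁ →
    HasHighestWeight (fun i => ((M + 1 : ℕ) : ℚ) * lam 2 i) W₂ →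
    HasInvariants (n := n) W₀ W₁ W₂ := by
  induction M with
  | zero =>
    intro W₀ W₁ W₂ _ _ _ _ _ _ _ _ _ _ _ _ _ _ _ w₀ w₁ w₂
    have e : ∀ s, (fun i => ((0 + 1 : ℕ) : ℚ) * lam s i) = lam s := fun s => by
      funext i
      push_cast
      ring
    rw [e] at w₀ w₁ w₂
    exact hasInvariants_congr hl v₀ v₁ v₂ w₀ w₁ w₂ h
  | succ M ih =>
    intro W₀ W₁ W₂ _ _ _ _ _ _ _ _ _ _ _ _ _ _ _ w₀ w₁ w₂
    obtain ⟨U₀, _, _, _, _, _, u₀⟩ := exists_irred ((hl 0).smul (M + 1))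
    obtain ⟨U₁, _, _, _, _, _, u₁⟩ := exists_irred ((hl 1).smul (M + 1))
    obtain ⟨U₂, _, _, _, _, _, u₂⟩ := exists_irred ((hl 2).smul (M + 1))
    have hU := ih U₀ U₁ U₂ u₀ u₁ u₂
    have e : ∀ s, (fun i => ((M + 1 + 1 : ℕ) : ℚ) * lam s i) =
        (fun i => ((M + 1 : ℕ) : ℚ) * lam s i) + lam s := fun s => by
      funext i
      rw [Pi.add_apply]
      push_cast
      ring
    rw [e] at w₀ w₁ w₂
    exact hasInvariants_add hn (lam := fun s i => ((M + 1 : ℕ) : ℚ) * lam s i) (mu := lam)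
      (fun s => (hl s).smul (M + 1)) hl u₀ u₁ u₂ v₀ v₁ v₂ w₀ w₁ w₂ hU h

/-- Invariants for `(λ_s)` give invariants for `(M λ_s)`, `M ≥ 1`. -/
theorem hasInvariants_mul (hn : 2 ≤ n) {lam : Fin 3 → Fin n → ℚ} (hl : ∀ s, IsDominant (lam s))
    {M : ℕ} (hM : 1 ≤ M)
    {V₀ V₁ V₂ W₀ W₁ W₂ : Type*} [AddCommGroup V₀] [Module ℂ V₀]
    [LieRingModule (so n) V₀] [LieModule ℂ (so n) V₀] [AddCommGroup V₁] [Module ℂ V₁]
    [LieRingModule (so n) V₁] [LieModule ℂ (so n) V₁] [AddCommGroup V₂] [Module ℂ V₂]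
    [LieRingModule (so n) V₂] [LieModule ℂ (so n) V₂] [AddCommGroup W₀] [Module ℂ W₀]
    [LieRingModule (so n) W₀] [LieModule ℂ (so n) W₀] [AddCommGroup W₁] [Module ℂ W₁]
    [LieRingModule (so n) W₁] [LieModule ℂ (so n) W₁] [AddCommGroup W₂] [Module ℂ W₂]
    [LieRingModule (so n) W₂] [LieModule ℂ (so n) W₂]
    [LieModule.IsIrreducible ℂ (so n) V₀] [LieModule.IsIrreducible ℂ (so n) V₁]
    [LieModule.IsIrreducible ℂ (so n) V₂] [LieModule.IsIrreducible ℂ (so n) W₀]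
    [LieModule.IsIrreducible ℂ (so n) W₁] [LieModule.IsIrreducible ℂ (so n) W₂]
    (v₀ : HasHighestWeight (lam 0) V₀) (v₁ : HasHighestWeight (lam 1) V₁)
    (v₂ : HasHighestWeight (lam 2) V₂)
    (w₀ : HasHighestWeight (fun i => M * lam 0 i) W₀)
    (w₁ : HasHighestWeight (fun i => M * lam 1 i) W₁)
    (w₂ : HasHighestWeight (fun i => M * lam 2 i) W₂)
    (h : HasInvariants (n := n) V₀ V₁ V₂) : HasInvariants (n := n) W₀ W₁ W₂ := by
  obtain ⟨k, rfl⟩ : ∃ k, M = k + 1 := ⟨M - 1, by omega⟩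
  obtain ⟨U₀, _, _, _, _, _, u₀⟩ := exists_irred ((hl 0).smul (k + 1))
  obtain ⟨U₁, _, _, _, _, _, u₁⟩ := exists_irred ((hl 1).smul (k + 1))
  obtain ⟨U₂, _, _, _, _, _, u₂⟩ := exists_irred ((hl 2).smul (k + 1))
  exact hasInvariants_congr (lam := fun s i => ((k + 1 : ℕ) : ℚ) * lam s i)
    (fun s => (hl s).smul (k + 1)) u₀ u₁ u₂ w₀ w₁ w₂
    (mul_aux hn hl v₀ v₁ v₂ h k U₀ U₁ U₂ u₀ u₁ u₂)

end Vale.Agent.P182.H55
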