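import Vale.Agent.P182.H55.NullEnd
import Vale.Agent.P182.H388.Abs
import Vale.Agent.P182.H89.Struct

/-!
# The null case, honest case: assembly
-/

namespace Vale.Agent.P182.H55

open Module Vale.Agent.P182.H533 Vale.Agent.P182.B1 Vale.Agent.P182.H578 Vale.Agent.P182.H922

section gen

variable {L V : Type*} [Field L] [AddCommGroup V] [Module L V]

/-- grouping orthogonal idempotents according to the coefficients -/
theorem group_idem {q : V →ₗ[L] V →ₗ[L] L} {S : Fin 3 → End L V} {m : ℕ}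
    {e : Fin m → End L V} (hes : ∀ i, IsSA q (e i)) (hec : ∀ i s, e i * S s = S s * e i)
    (hem : ∀ i j, e i * e j = if i = j then e i else 0) (he1 : ∑ i, e i = 1) {D : End L V}
    {κ : Fin m → L} (hD : D = ∑ i, κ i • e i) :
    ∃ (n : ℕ) (P : Fin n → End L V) (d : Fin n → L), (∀ i, IsSA q (P i)) ∧
      (∀ i s, P i * S s = S s * P i) ∧ (∀ i j, P i * P j = if i = j then P i else 0) ∧
      ∑ i, P i = 1 ∧ (∀ i, P i ≠ 0) ∧ Function.Injective d ∧ D = ∑ i, d i • P i := by
  classical
  set F : Finset (Fin m) := Finset.univ.filter fun i => e i ≠ 0 with hF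
  set T : Finset L := F.image κ with hT
  -- sums over the blocks
  let P : T → End L V := fun x => ∑ i ∈ F.filter (fun i => κ i = x), e i
  have hPe : ∀ (x : T) (j : Fin m), P x * e j = if e j ≠ 0 ∧ κ j = x then e j else 0 := by
    intro x j
    show (∑ i ∈ F.filter (fun i => κ i = x), e i) * e j = _
    rw [Finset.sum_mul]
    simp_rw [hem]
    rw [Finset.sum_ite_eq']
    by_cases hj : j ∈ F.filter (fun i => κ i = (x : L))
    · rw [if_pos hj, if_pos]
      rw [hF, Finset.mem_filter, Finset.mem_filter] at hj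
      exact ⟨hj.1.2, hj.2⟩
    · rw [if_neg hj, if_neg]
      intro h
      apply hj
      rw [hF, Finset.mem_filter, Finset.mem_filter]
      exact ⟨⟨Finset.mem_univ _, h.1⟩, h.2⟩
  have hPP : ∀ x y : T, P x * P y = if x = y then P x else 0 := by
    intro x y
    have h1 : P x * P y = ∑ j ∈ F.filter (fun i => κ i = y), P x * e j := by
      show P x * ∑ j ∈ F.filter (fun i => κ i = y), e j = _
      rw [Finset.mul_sum]
    rw [h1]
    by_cases hxy : x = y
    · subst hxy
      rw [if_pos rfl]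
      refine Finset.sum_congr rfl fun j hj => ?_
      rw [hPe, if_pos]
      rw [hF, Finset.mem_filter, Finset.mem_filter] at hj
      exact ⟨hj.1.2, hj.2⟩
    · rw [if_neg hxy]
      refine Finset.sum_eq_zero fun j hj => ?_
      rw [hPe, if_neg]
      intro h
      rw [hF, Finset.mem_filter, Finset.mem_filter] at hj
      exact hxy (Subtype.ext (h.2.symm.trans hj.2))
  have hsumF : ∀ g : Fin m → End L V, (∀ i, e i = 0 → g i = 0) → ∑ i, g i = ∑ i ∈ F, g i := by
    intro g hg
    rw [hF, Finset.sum_filter]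
    refine Finset.sum_congr rfl fun i _ => ?_
    by_cases h : e i = 0
    · rw [if_neg (by simpa using h), hg i h]
    · rw [if_pos h]
  have hfib : ∀ g : Fin m → End L V, (∀ i, e i = 0 → g i = 0) →
      ∑ x : T, ∑ i ∈ F.filter (fun i => κ i = x), g i = ∑ i, g i := by
    intro g hg
    rw [hsumF g hg]
    rw [Finset.sum_coe_sort T (fun x => ∑ i ∈ F.filter (fun i => κ i = x), g i)]
    exact Finset.sum_fiberwise_of_maps_to (fun i hi => Finset.mem_image_of_mem κ hi) g
  have hP1 : ∑ x : T, P x = 1 := by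
    rw [← he1]
    exact hfib e fun i h => h
  have hDP : D = ∑ x : T, (x : L) • P x := by
    rw [hD, ← hfib (fun i => κ i • e i) fun i h => by rw [h, smul_zero]]
    refine Finset.sum_congr rfl fun x _ => ?_
    show _ = (x : L) • ∑ i ∈ F.filter (fun i => κ i = x), e i
    rw [Finset.smul_sum]
    refine Finset.sum_congr rfl fun i hi => ?_
    rw [(Finset.mem_filter.mp hi).2]
  have hP0 : ∀ x : T, P x ≠ 0 := by
    intro x hx
    obtain ⟨i, hi, hix⟩ := Finset.mem_image.mp x.2
    have hi0 : e i ≠ 0 := by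
      rw [hF, Finset.mem_filter] at hi
      exact hi.2
    have h1 := hPe x i
    rw [hx, zero_mul, if_pos ⟨hi0, hix⟩] at h1
    exact hi0 h1.symm
  have hPs : ∀ x : T, IsSA q (P x) := by
    intro x u v
    show q ((∑ i ∈ F.filter (fun i => κ i = x), e i) u) v =
      q u ((∑ i ∈ F.filter (fun i => κ i = x), e i) v)
    rw [LinearMap.sum_apply, LinearMap.sum_apply, map_sum, map_sum, LinearMap.sum_apply]
    exact Finset.sum_congr rfl fun i _ => hes i u v
  have hPc : ∀ (x : T) s, P x * S s = S s * P x := by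
    intro x s
    show (∑ i ∈ F.filter (fun i => κ i = x), e i) * S s =
      S s * ∑ i ∈ F.filter (fun i => κ i = x), e i
    rw [Finset.sum_mul, Finset.mul_sum]
    exact Finset.sum_congr rfl fun i _ => hec i s
  -- reindexing
  let φ := (Fintype.equivFin T).symm
  refine ⟨Fintype.card T, fun i => P (φ i), fun i => (φ i : L), fun i => hPs _,
    fun i s => hPc _ s, fun i j => ?_, ?_, fun i => hP0 _, ?_, ?_⟩
  · rw [hPP]
    by_cases hij : i = j
    · rw [if_pos hij, if_pos (by rw [hij])]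
    · rw [if_neg hij, if_neg (fun h => hij (φ.injective h))]
  · rw [← hP1]
    exact Equiv.sum_comp φ P
  · exact Subtype.val_injective.comp φ.injective
  · rw [hDP]
    exact (Equiv.sum_comp φ (fun x => (x : L) • P x)).symm

/-- two eigenvalues give two blocks -/
theorem nontrivial_of_two_eig {n : ℕ} {P : Fin n → End L V} {d : Fin n → L} {D : End L V}
    (hP1 : ∑ i, P i = 1) (hD : D = ∑ i, d i • P i) {a b : L} (hab : a ≠ b)
    (ha : D.HasEigenvalue a) (hb : D.HasEigenvalue b) : Nontrivial (Fin n) := by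
  rw [Fin.nontrivial_iff_two_le]
  by_contra hn
  have h1 : n = 0 ∨ n = 1 := by omega
  rcases h1 with rfl | rfl
  · obtain ⟨v, hv⟩ := ha.exists_hasEigenvector
    apply hv.2
    have : (1 : End L V) v = 0 := by rw [← hP1]; simp
    simpa using this
  · have h2 : P 0 = 1 := by simpa using hP1
    have h3 : D = d 0 • (1 : End L V) := by rw [hD, Fin.sum_univ_one, h2]
    have h4 : ∀ c : L, D.HasEigenvalue c → c = d 0 := by
      intro c hc
      obtain ⟨v, hv⟩ := hc.exists_hasEigenvector
      have h5 := hv.apply_eq_smul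
      rw [h3, LinearMap.smul_apply, Module.End.one_apply] at h5
      have h6 : (c - d 0) • v = 0 := by rw [sub_smul, ← h5, sub_self]
      exact sub_eq_zero.mp ((smul_eq_zero.mp h6).resolve_right hv.2)
    exact hab ((h4 a ha).trans (h4 b hb).symm)

end gen

section cfg

variable {L V J : Type*} [Field L] [AddCommGroup V] [Module L V] [FiniteDimensional L V]
  [Fintype J] [DecidableEq J] {𝒟 : Cfg L V J}

/-- **(B)** in the form of the architecture note: the derivation step -/
def StB (hG : 𝒟.Good) {t : J → V} (t' : J → V) (C : Core 𝒟.q (Res 𝒟 t)) (D : End L C.V1) :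
    Prop :=
  ∀ (n : ℕ) (P : Fin n → End L C.V1) (d : Fin n → L), (∀ i, IsSA C.q1 (P i)) →
    (∀ i s, P i * C.S1 hG.form s = C.S1 hG.form s * P i) →
    (∀ i j, P i * P j = if i = j then P i else 0) → ∑ i, P i = 1 →
    Function.Injective d → D = ∑ i, d i • P i →
    ∀ x, GoodL hG (t' := t') C D x → t + x • t' ∈ 𝒟.K → ∀ s,
    (∀ h : End L C.V1, (∀ i, P i * h * P i = 0) →
      (∀ c, ∀ v ∈ LinearMap.range (C.S1 hG.form s ^ c),
        h v ∈ LinearMap.range (C.S1 hG.form s ^ c)) → h ∈ HH hG C s) →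
    ∀ Y Y' : End L C.V1, IsSk C.q1 Y → (∀ i, P i * Y * P i = 0) →
    Y * ((1 + x • D) ^ 2 * C.S1 hG.form s) = (1 + x • D) ^ 2 * C.S1 hG.form s * Y →
    (1 + x • D) * Y' = Y * (1 + x • D) →
    ∀ h : End L C.V1, (∀ i, P i * h * P i = 0) →
      (∀ c, ∀ v ∈ LinearMap.range (C.S1 hG.form s ^ c),
        h v ∈ LinearMap.range (C.S1 hG.form s ^ c)) → h * Y' - Y * h ∈ HH hG C s

/-- **The honest null case is impossible**, given the derivation step and infinitely many good
parameters. -/
theorem null_honest (hG : 𝒟.Good) (hV : 𝒟.Versal) (h2 : (2 : L) ≠ 0) {t t' : J → V}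
    (C : Core 𝒟.q (Res 𝒟 t)) (hI : C.I = ⊥) (ht : Rel 𝒟 t t') {D : End L C.V1}
    (hDs : IsSA C.q1 D) (hDc : ∀ s, D * C.S1 hG.form s = C.S1 hG.form s * D)
    (hD : ∀ l, C.P hG.form (t' l) = D (C.P hG.form (t l)))
    (he : ∃ a b : L, a ≠ b ∧ D.HasEigenvalue a ∧ D.HasEigenvalue b)
    (hN : NullCore C hG.form) (hK : ∀ k ∈ 𝒟.K, ∃ a b : L, k = a • t + b • t')
    (hS : H89.StructS C.q1 (C.S1 hG.form))
    {X : Set L} (hX : X.Infinite) (hXg : ∀ x ∈ X, GoodL hG (t' := t') C D x)
    (hXK : ∀ x ∈ X, t + x • t' ∈ 𝒟.K) (hB : StB hG t' C D) : False := by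
  obtain ⟨⟨m, e, hes, hec, hem, he1, hspan⟩, -⟩ := hS
  obtain ⟨κ, hκ⟩ := hspan D hDs hDc
  obtain ⟨n, P, d, hPS, hPc, hPP, hP1, hP0, hd, hDP⟩ := group_idem hes hec hem he1 hκ
  obtain ⟨a, b, hab, ha, hb⟩ := he
  have hnt := nontrivial_of_two_eig hP1 hDP hab ha hb
  have hXd : ∀ x ∈ X, ∀ i, 1 + x * d i ≠ 0 := by
    intro x hx i h0
    have hu := (hXg x hx).unit
    have h1 : (1 + x • D) * P i = 0 := by
      have h3 : D * P i = d i • P i := by
        rw [hDP, Finset.sum_mul, Finset.sum_eq_single i]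
        · rw [smul_mul_assoc, hPP, if_pos rfl]
        · intro j _ hj
          rw [smul_mul_assoc, hPP, if_neg hj, smul_zero]
        · intro h
          exact absurd (Finset.mem_univ i) h
      rw [add_mul, one_mul, smul_mul_assoc, h3, smul_smul]
      have h4 : P i + (x * d i) • P i = (1 + x * d i) • P i := by rw [add_smul, one_smul]
      rw [h4, h0, zero_smul]
    exact hP0 i ((hu.mul_right_eq_zero).mp h1)
  refine null_end_cfg hG h2 C hI ht hDs hDc hD ⟨a, b, hab, ha, hb⟩ hN hK fun s h hh => ?_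
  obtain ⟨p, hp, hfree, -⟩ := hN
  refine H388.abs h2 (C.isForm hG.form)
    (C.S1_SA hG.form (Sop_SA 𝒟.arm hG.form (Tt L t) hG.skew) s) (hp s) (hfree s) P hPS
    (fun i => by rw [hPP, if_pos rfl]) (fun i j hij => by rw [hPP, if_neg hij]) hP1
    (fun i => hPc i s) hP0 d hd hDP (HH hG C s) X hX hXd
    (fun x hx β hβ hc => mem_HH hG C hI ht hDs hDc hD h2 hV (hXg x hx) (hXK x hx) s hβ hc)
    (fun hH x hx Y Y' hY hYo hYc hYY h hho hhf =>
      hB n P d hPS hPc hPP hP1 hd hDP x (hXg x hx) (hXK x hx) s hH Y Y' hY hYo hYc hYY h hho hhf)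
    h hh

end cfg

end Vale.Agent.P182.H55
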