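import Vale.Agent.P182.H55.NullCrit
import Vale.Agent.P182.H578.Der

/-!
# The honest null case for critical configurations, with the derivation step
-/

namespace Vale.Agent.P182.H55

open Module Vale.Agent.P182.H533 Vale.Agent.P182.B1 Vale.Agent.P182.H578 Vale.Agent.P182.H922

universe u v w

variable {L : Type u} {V : Type v} {J : Type w} [Field L] [AddCommGroup V] [Module L V]
  [FiniteDimensional L V] [Fintype J] [DecidableEq J] {𝒟 : Cfg L V J}

/-- the symmetric commutant is commutative -/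
theorem comm_of_struct {E : Type*} [AddCommGroup E] [Module L E] {q : E →ₗ[L] E →ₗ[L] L}
    {S : Fin 3 → End L E} (h : H89.StructS q S) {M D : End L E} (hM : IsSA q M)
    (hMS : ∀ s, M * S s = S s * M) (hD : IsSA q D) (hDS : ∀ s, D * S s = S s * D) :
    M * D = D * M := by
  obtain ⟨⟨m, e, -, -, hem, -, hspan⟩, -⟩ := h
  obtain ⟨κ, rfl⟩ := hspan M hM hMS
  obtain ⟨μ, rfl⟩ := hspan D hD hDS
  have key : ∀ a b : Fin m → L,
      (∑ i, a i • e i) * (∑ j, b j • e j) = ∑ i, (a i * b i) • e i := by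
    intro a b
    rw [Finset.sum_mul]
    refine Finset.sum_congr rfl fun i _ => ?_
    rw [Finset.mul_sum, Finset.sum_eq_single i]
    · rw [smul_mul_smul_comm, hem, if_pos rfl]
    · intro j _ hj
      rw [smul_mul_smul_comm, hem, if_neg hj.symm, smul_zero]
    · intro h
      exact absurd (Finset.mem_univ i) h
  rw [key, key]
  exact Finset.sum_congr rfl fun i _ => by rw [mul_comm]

variable [CharZero L]

omit [CharZero L] in
/-- **(B)** from `der_HH` -/
theorem stB_of (hG : 𝒟.Good) (hV : 𝒟.Versal) {t t' : J → V} (ht : t ∈ 𝒟.K) (ht' : t' ∈ 𝒟.K)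
    (C : Core 𝒟.q (Res 𝒟 t)) (hI : C.I = ⊥) {D : End L C.V1} (hDs : IsSA C.q1 D)
    (hDc : ∀ s, D * C.S1 hG.form s = C.S1 hG.form s * D)
    (hD : ∀ l, C.P hG.form (t' l) = D (C.P hG.form (t l)))
    (hK : ∀ k ∈ 𝒟.K, ∃ a b : L, k = a • t + b • t')
    (hS : H89.StructS C.q1 (C.S1 hG.form)) : StB hG t' C D := by
  intro n P d hPS hPc hPP hP1 hd hDP x hx hxK s H2 Y Y' hY hYo hYS hYY h hho hhf
  exact der_HH hG hV hI ht ht' hK ⟨fun i => by rw [hPP, if_pos rfl],
    fun i j hij => by rw [hPP, if_neg hij], hP1, hd, hDP⟩ hPS hPc hD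
    (fun M hM hMS => comm_of_struct hS hM hMS hDs hDc) hx s H2 hY hYo hYS hYY hho hhf

variable [IsAlgClosed L]

/-- **The honest null case** for critical configurations, given infinitely many good
parameters. -/
theorem null_honest_crit' (h : CritN 𝒟) {t : J → V} (ht : MaxCoreC 𝒟 t) (hm : Moves 𝒟 t)
    (C : Core 𝒟.q (Res 𝒟 t)) (hI : C.I = ⊥) {t' : J → V} (ht' : t' ∈ 𝒟.K) {D : End L C.V1}
    (hDs : IsSA C.q1 D)
    (hD1 : ∀ s, C.res h.good.form (opr 𝒟.q (Tt L t) (Gm 𝒟.arm 𝒟.Ω s) (Tt L t')) =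
      C.S1 h.good.form s * D)
    (hD2 : ∀ s, C.res h.good.form (opr 𝒟.q (Tt L t) (Gm 𝒟.arm 𝒟.Ω s) (Tt L t')) =
      D * C.S1 h.good.form s)
    (he : ∃ a b : L, a ≠ b ∧ D.HasEigenvalue a ∧ D.HasEigenvalue b)
    {X : Set L} (hX : X.Infinite) (hXg : ∀ x ∈ X, GoodL h.good (t' := t') C D x) :
    ¬ NullCore C h.good.form := by
  intro hN
  have hrel := Rel_K h.good h.versal ht.1 ht'
  obtain ⟨p, hp⟩ := H258.nul_core h.good t C hN
  exact null_honest_crit h ht hm C hI ht' hDs hD1 hD2 he hX hXg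
    (stB_of h.good h.versal ht.1 ht' C hI hDs (fun s => by rw [← hD2, ← hD1])
      (P_of_D h.good hrel C hI hD1) (span_of_D h.good h.dim ht.1 ht' C hD1 he)
      (H58.structThm _ _ _ p hp (H258.realS_core h.good h.versal ht.1 hm C))) hN

end Vale.Agent.P182.H55
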