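import Vale.Agent.P182.H55.SemiC

/-!
# [S]: the centre is semisimple
-/

namespace Vale.Agent.P182.H55

open Module Vale.Agent.P182.H533 Vale.Agent.P182.H89

universe u v

section final

variable {L : Type u} {V : Type v} [Field L] [CharZero L] [AddCommGroup V] [Module L V]
  [FiniteDimensional L V]

/-- the situation: `z = ζ + n`, `n ^ (m + 1) = 0`, `n ^ m ≠ 0` -/
structure Dat (q : V →ₗ[L] V →ₗ[L] L) (S : Fin 3 → End L V) (p : Fin 3 → ℕ) (N : ℕ)
    (P : (Fin 3 → L) → L) (z n : End L V) (ζ : L) (m : ℕ) : Prop where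
  hN : Nul q S p
  hR : RealS q S
  hT2 : StmtT2 q S
  hC : Cen S N P z
  hζ : ζ ≠ 0
  hz : z = ζ • (1 : End L V) + n
  hn : n ^ (m + 1) = 0
  hne : n ^ m ≠ 0

variable {q : V →ₗ[L] V →ₗ[L] L} {S : Fin 3 → End L V} {p : Fin 3 → ℕ} {N : ℕ}
  {P : (Fin 3 → L) → L} {z n : End L V} {ζ : L} {m : ℕ}

omit [CharZero L] [FiniteDimensional L V] in
theorem Dat.nz (D : Dat q S p N P z n ζ m) : z - ζ • (1 : End L V) = n := by
  rw [D.hz]
  abel

omit [CharZero L] [FiniteDimensional L V] in
theorem Dat.nil (D : Dat q S p N P z n ζ m) : IsNilpotent (z - ζ • (1 : End L V)) :=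
  ⟨m + 1, by rw [D.nz, D.hn]⟩

omit [CharZero L] [FiniteDimensional L V] in
theorem Dat.nS (D : Dat q S p N P z n ζ m) (s : Fin 3) : n * S s = S s * n := by
  rw [← D.nz, sub_mul, mul_sub, D.hC.comm, smul_mul_assoc, mul_smul_comm, one_mul, mul_one]

omit [CharZero L] [FiniteDimensional L V] in
theorem Dat.nT (D : Dat q S p N P z n ζ m) : n * T0 S = T0 S * n := by
  unfold T0 Ta
  rw [Finset.mul_sum, Finset.sum_mul]
  refine Finset.sum_congr rfl fun s _ => ?_
  rw [mul_smul_comm, smul_mul_assoc, D.nS]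

omit [FiniteDimensional L V] in
theorem Dat.hP (D : Dat q S p N P z n ζ m) : P (fun s => (a0 s : L)) ≠ 0 :=
  D.hC.ne _ fun s t h => a0_inj (by exact_mod_cast h)

omit [CharZero L] [FiniteDimensional L V] in
theorem Dat.TN (D : Dat q S p N P z n ζ m) :
    T0 S ^ N = P (fun s => (a0 s : L)) • (ζ • (1 : End L V) + n) := by
  rw [← D.hz]
  exact D.hC.pow _

omit [CharZero L] [FiniteDimensional L V] in
theorem Dat.TSA (D : Dat q S p N P z n ζ m) : IsSA q (T0 S) := SA_Ta D.hN.sa _

omit [FiniteDimensional L V] in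
theorem Dat.nSA (D : Dat q S p N P z n ζ m) : IsSA q n := by
  have h1 : n = (P (fun s => (a0 s : L)))⁻¹ • T0 S ^ N - ζ • (1 : End L V) := by
    rw [D.TN, smul_smul, inv_mul_cancel₀ D.hP, one_smul]
    abel
  rw [h1]
  exact SA_sub (SA_smul (SA_pow D.TSA N) _) (SA_smul SA_one _)

omit [FiniteDimensional L V] in
theorem Dat.isUnit (D : Dat q S p N P z n ζ m) : IsUnit (T0 S) := by
  have h1 : IsUnit (ζ • (1 : End L V)) := by
    rw [← Algebra.algebraMap_eq_smul_one]
    exact (isUnit_iff_ne_zero.2 D.hζ).map _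
  have h2 : IsUnit (ζ • (1 : End L V) + n) := by
    apply IsNilpotent.isUnit_add_left_of_commute ⟨m + 1, D.hn⟩ h1
    show n * (ζ • (1 : End L V)) = ζ • (1 : End L V) * n
    rw [mul_smul_comm, smul_mul_assoc, mul_one, one_mul]
  have h3 : IsUnit (T0 S ^ N) := by
    rw [D.TN, Algebra.smul_def]
    exact (IsUnit.map _ (isUnit_iff_ne_zero.2 D.hP)).mul h2
  exact (isUnit_pow_iff (by have := D.hC.three_le; omega)).1 h3

omit [CharZero L] [FiniteDimensional L V] in
theorem Dat.z_comm_iff (D : Dat q S p N P z n ζ m) {β : End L V} (h : β * z = z * β) :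
    β * n = n * β := by
  rw [← D.nz, mul_sub, sub_mul, h, smul_mul_assoc, mul_smul_comm, one_mul, mul_one]

/-- self-adjoint operators commuting with `T` and killed by `n ^ m` -/
theorem Dat.kap (D : Dat q S p N P z n ζ m) {c : End L V} (hc : IsSA q c)
    (hcT : c * T0 S = T0 S * c) (hcn : c * n ^ m = 0) : LinearMap.trace L V c = 0 := by
  obtain ⟨Ti, hTi1, hTi2⟩ := isUnit_iff_exists.1 D.isUnit
  have hV : finrank L V ≠ 0 := by
    intro h0
    have := finrank_zero_iff.1 h0
    exact D.hne (LinearMap.ext fun x => Subsingleton.elim _ _)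
  have hV' : (finrank L V : L) ≠ 0 := by exact_mod_cast hV
  set τ := LinearMap.trace L V c / (finrank L V : L) with hτ
  obtain ⟨Ψ, h1, h2, h3⟩ := exists_trOn (LinearMap.range (n ^ m))
  -- the inverse
  have hTiSA : IsSA q Ti := by
    intro u v
    have e1 : v = T0 S (Ti v) := by
      rw [← Module.End.mul_apply, hTi1, Module.End.one_apply]
    have e2 : T0 S (Ti u) = u := by
      rw [← Module.End.mul_apply, hTi1, Module.End.one_apply]
    conv_lhs => rw [e1, ← D.TSA, e2]
  have hcTi : c * Ti = Ti * c := by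
    calc c * Ti = Ti * T0 S * (c * Ti) := by rw [hTi2, one_mul]
      _ = Ti * (c * T0 S) * Ti := by rw [hcT]; noncomm_ring
      _ = Ti * c * (T0 S * Ti) := by noncomm_ring
      _ = Ti * c := by rw [hTi1, mul_one]
  have hsub : (c - τ • (1 : End L V)) * Ti = Ti * (c - τ • (1 : End L V)) := by
    rw [sub_mul, mul_sub, hcTi, smul_mul_assoc, mul_smul_comm, one_mul, mul_one]
  have key := ident D.hN D.hR D.hT2 D.hC D.nil Ψ (c := (c - τ • (1 : End L V)) * Ti)
    (fun s β hβ hβz => by
      apply h3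
      · rintro _ ⟨x, rfl⟩
        have hβn : Commute (β * S s) n := by
          show β * S s * n = n * (β * S s)
          rw [mul_assoc, ← D.nS, ← mul_assoc, D.z_comm_iff hβz, mul_assoc]
        refine ⟨(β * S s) x, ?_⟩
        exact (LinearMap.congr_fun (hβn.pow_right m).eq x).symm
      · exact nil_mul (D.hN.pow s) hβ)
    (SA_mul (SA_sub hc (SA_smul SA_one _)) hTiSA hsub)
    (by
      rw [mul_assoc, hTi2, mul_one, ← mul_assoc, mul_sub, ← hcT, mul_smul_comm, mul_one,
        sub_mul, mul_assoc, hTi1, mul_one, smul_mul_assoc, hTi1])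
    (by
      rw [mul_assoc, hTi2, mul_one, map_sub, map_smul, LinearMap.trace_one, smul_eq_mul, hτ,
        div_mul_cancel₀ _ hV', sub_self])
  rw [mul_assoc, hTi2, mul_one, map_sub, map_smul, h1, h2 c (by
    rintro _ ⟨x, rfl⟩
    rw [← Module.End.mul_apply, hcn, LinearMap.zero_apply]), zero_sub, neg_eq_zero, smul_eq_mul,
    mul_eq_zero] at key
  have h4 : (finrank L (LinearMap.range (n ^ m)) : L) ≠ 0 := by
    have : finrank L (LinearMap.range (n ^ m)) ≠ 0 := by
      intro h0
      rw [Submodule.finrank_eq_zero, LinearMap.range_eq_bot] at h0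
      exact D.hne h0
    exact_mod_cast this
  have h5 := key.resolve_right h4
  rw [hτ, div_eq_zero_iff] at h5
  exact h5.resolve_right hV'

omit [CharZero L] [FiniteDimensional L V] in
theorem Dp_mul_left {A B : End L V} (h : A * B = B * A) (r : ℕ) (X : End L V) :
    B * Dp A r X = Dp A r (B * X) := by
  have hB : ∀ i, A ^ i * B = B * A ^ i := fun i => (Commute.pow_left h i).eq
  unfold Dp
  rw [Finset.mul_sum]
  refine Finset.sum_congr rfl fun i _ => ?_
  rw [← mul_assoc, ← mul_assoc, ← hB, mul_assoc (A ^ i) B X]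

omit [CharZero L] [FiniteDimensional L V] in
theorem Dp_smul (A : End L V) (r : ℕ) (a : L) (X : End L V) : Dp A r (a • X) = a • Dp A r X := by
  unfold Dp
  rw [Finset.smul_sum]
  refine Finset.sum_congr rfl fun i _ => ?_
  rw [mul_smul_comm, smul_mul_assoc]

/-- the levels are orthogonal -/
theorem Dat.orth (D : Dat q S p N P z n ζ m) {r : ℕ} (hr1 : 1 ≤ r) (hr : r ≤ m) {x y : V}
    (hx : (n ^ r) x = 0) (hy : (n ^ r) y = 0) : q y ((n ^ (r - 1)) x) = 0 := by
  have hTn : T0 S * n = n * T0 S := D.nT.symm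
  have hnSA := D.nSA
  have hN3 := D.hC.three_le
  have hP := D.hP
  set π : L := P (fun s => (a0 s : L)) with hπ
  have key : ∀ x y : V, (n ^ r) x = 0 → (n ^ r) y = 0 →
      q y ((T0 S ^ (N - 1)) ((n ^ (r - 1)) x)) = 0 := by
    intro x y hx hy
    let X : End L V := (q y).smulRight x + (q x).smulRight y
    have hX : ∀ v, X v = q y v • x + q x v • y := fun v => rfl
    have hXSA : IsSA q X := by
      intro u v
      rw [hX, hX, map_add, map_smul, map_smul, LinearMap.add_apply, LinearMap.smul_apply,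
        LinearMap.smul_apply, map_add, map_smul, map_smul, smul_eq_mul, smul_eq_mul, smul_eq_mul,
        smul_eq_mul, D.hN.form.symm u x, D.hN.form.symm u y]
      ring
    have hXr : X * n ^ r = 0 := by
      refine LinearMap.ext fun v => ?_
      rw [Module.End.mul_apply, hX, ← SA_pow hnSA r y v, ← SA_pow hnSA r x v, hx, hy, map_zero,
        LinearMap.zero_apply, zero_smul, zero_smul, add_zero, LinearMap.zero_apply]
    have hrX : n ^ r * X = 0 := by
      refine LinearMap.ext fun v => ?_
      rw [Module.End.mul_apply, hX, map_add, map_smul, map_smul, hx, hy, smul_zero, smul_zero,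
        add_zero, LinearMap.zero_apply]
    have hXm : X * n ^ m = 0 := by
      rw [show m = r + (m - r) by omega, pow_add, ← mul_assoc, hXr, zero_mul]
    have hTnm : T0 S * n ^ m = n ^ m * T0 S := (Commute.pow_right hTn m).eq
    have hk := D.kap (c := Dp n r (Dp (T0 S) N X)) (Dp_SA hnSA (Dp_SA D.TSA hXSA N) r)
      (by
        rw [← sub_eq_zero, ← neg_sub, neg_eq_zero, Dp_mul_comm D.nT, Dp_comm, D.TN]
        have e1 : ∀ X : End L V, π • (ζ • (1 : End L V) + n) * X -
            X * π • (ζ • (1 : End L V) + n) = π • (n * X - X * n) := fun X => by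
          rw [smul_mul_assoc, mul_smul_comm, add_mul, mul_add, smul_mul_assoc, mul_smul_comm,
            one_mul, mul_one, ← smul_sub]
          congr 1
          abel
        rw [e1 X, Dp_smul, ← Dp_mul_comm rfl, Dp_comm, hXr, hrX, sub_zero, smul_zero])
      (Dp_mul_right_zero (Commute.pow_right (Commute.refl n) m).eq r
        (Dp_mul_right_zero hTnm N hXm))
    rw [Dp_trace, Dp_mul_left (Commute.pow_right hTn (r - 1)).eq, Dp_trace] at hk
    have e2 : LinearMap.trace L V (T0 S ^ (N - 1) * (n ^ (r - 1) * X)) =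
        2 * q y ((T0 S ^ (N - 1)) ((n ^ (r - 1)) x)) := by
      have e3 : T0 S ^ (N - 1) * (n ^ (r - 1) * X) =
          (q y).smulRight ((T0 S ^ (N - 1)) ((n ^ (r - 1)) x)) +
          (q x).smulRight ((T0 S ^ (N - 1)) ((n ^ (r - 1)) y)) := by
        refine LinearMap.ext fun v => ?_
        rw [Module.End.mul_apply, Module.End.mul_apply, hX, map_add, map_add, map_smul, map_smul,
          map_smul, map_smul]
        rfl
      have e4 : q x ((T0 S ^ (N - 1)) ((n ^ (r - 1)) y)) =
          q y ((T0 S ^ (N - 1)) ((n ^ (r - 1)) x)) := by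
        rw [← SA_pow D.TSA, ← SA_pow hnSA, D.hN.form.symm]
        congr 1
        exact LinearMap.congr_fun
          ((Commute.pow_left (Commute.pow_right (show Commute n (T0 S) from D.nT) (N - 1))
            (r - 1)).eq) x
      rw [e3, map_add, LinearMap.trace_smulRight, LinearMap.trace_smulRight, e4]
      ring
    rw [e2] at hk
    have hr0 : (r : L) ≠ 0 := by exact_mod_cast (by omega : r ≠ 0)
    have hN0 : (N : L) ≠ 0 := by exact_mod_cast (by omega : N ≠ 0)
    have h20 : (2 : L) ≠ 0 := two_ne_zero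
    exact (mul_eq_zero.1 ((mul_eq_zero.1 ((mul_eq_zero.1 hk).resolve_left hr0)).resolve_left
      hN0)).resolve_left h20
  have h1 := key (T0 S x) y (by
    have e := LinearMap.congr_fun (Commute.pow_left (show Commute n (T0 S) from D.nT) r).eq x
    rw [Module.End.mul_apply, Module.End.mul_apply] at e
    rw [e, hx, map_zero]) hy
  have h2 : (T0 S ^ (N - 1)) ((n ^ (r - 1)) (T0 S x)) = (π * ζ) • (n ^ (r - 1)) x := by
    have e := LinearMap.congr_fun
      (Commute.pow_left (show Commute n (T0 S) from D.nT) (r - 1)).eq x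
    rw [Module.End.mul_apply, Module.End.mul_apply] at e
    rw [e, ← Module.End.mul_apply, ← pow_succ, show N - 1 + 1 = N by omega, D.TN,
      LinearMap.smul_apply, LinearMap.add_apply, LinearMap.smul_apply, Module.End.one_apply,
      ← Module.End.mul_apply, ← pow_succ', show r - 1 + 1 = r by omega, hx, add_zero, smul_smul]
  rw [h2, map_smul, smul_eq_mul, mul_eq_zero] at h1
  exact h1.resolve_left (mul_ne_zero hP D.hζ)

/-- the kernel of `n` is the last level -/
theorem Dat.ker_le (D : Dat q S p N P z n ζ m) :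
    LinearMap.ker n ≤ LinearMap.range (n ^ m) := by
  have key : ∀ r ≤ m, LinearMap.ker n ≤ LinearMap.range (n ^ r) := by
    intro r
    induction r with
    | zero =>
      intro _ x _
      exact ⟨x, rfl⟩
    | succ r ih =>
      intro hr w hw
      obtain ⟨x, rfl⟩ := ih (by omega) hw
      have hx : (n ^ (r + 1)) x = 0 := by
        rw [pow_succ', Module.End.mul_apply]
        exact hw
      rw [← perp_ker D.hN.form (SA_pow D.nSA (r + 1)), mem_perp]
      intro y hy
      rw [D.hN.form.symm]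
      exact D.orth (by omega) hr hx hy
  exact key m le_rfl

theorem Dat.false (D : Dat q S p N P z n ζ m) (hm : 1 ≤ m) : False := by
  have hV : 0 < finrank L V := by
    rw [Nat.pos_iff_ne_zero]
    intro h0
    have := finrank_zero_iff.1 h0
    exact D.hne (LinearMap.ext fun x => Subsingleton.elim _ _)
  have hle : LinearMap.range (n ^ m) ≤ LinearMap.ker n := by
    rintro _ ⟨x, rfl⟩
    rw [LinearMap.mem_ker, ← Module.End.mul_apply, ← pow_succ', D.hn, LinearMap.zero_apply]
  have hker : LinearMap.ker n = LinearMap.range (n ^ m) := le_antisymm D.ker_le hle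
  have hdim := finrank_of_ker D.hn D.ker_le
  have hp : ∀ s, 1 ≤ p s := fun s => by
    rw [Nat.one_le_iff_ne_zero]
    intro h0
    have := D.hN.rk s
    rw [h0, zero_mul] at this
    omega
  have hY : ∀ s, ∃ Y : End L V, Y * S s = S s * Y ∧ Dp n (m + 1) Y = 1 := by
    intro s
    refine exists_Y (hp s) (D.nS s).symm (D.hN.pow s) D.hn
      (k := finrank L ↥(LinearMap.ker (S s) ⊓ LinearMap.range (n ^ m))) ?_ ?_
    · have h1 := finrank_perp D.hN.form (LinearMap.range n ⊔ LinearMap.range (S s))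
      have h2 : perp q (LinearMap.range n ⊔ LinearMap.range (S s)) ≤
          LinearMap.ker (S s) ⊓ LinearMap.range (n ^ m) := by
        rw [← hker, ← perp_range D.hN.form (D.hN.sa s), ← perp_range D.hN.form D.nSA]
        intro x hx
        exact ⟨fun w hw => hx w (Submodule.mem_sup_right hw),
          fun w hw => hx w (Submodule.mem_sup_left hw)⟩
      have h3 := Submodule.finrank_mono h2
      omega
    · rw [count D.hN hV D.nS m s, hdim, hker]
  choose Y hY1 hY2 using hY
  have hYY : ∀ s, ∀ X : End L V, X * n = n * X →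
      LinearMap.trace L V (X * Y 0) = LinearMap.trace L V (X * Y s) := by
    intro s X hX
    have e1 : LinearMap.trace L V (X * Y 0) =
        LinearMap.trace L V (X * Y 0 * Dp n (m + 1) (Y s)) := by rw [hY2, mul_one]
    have e2 : LinearMap.trace L V (X * Y s) =
        LinearMap.trace L V (X * (Dp n (m + 1) (Y 0) * Y s)) := by rw [hY2, one_mul]
    rw [e1, e2]
    unfold Dp
    rw [Finset.mul_sum, Finset.sum_mul, Finset.mul_sum, map_sum, map_sum,
      ← Finset.sum_range_reflect]
    refine Finset.sum_congr rfl fun i hi => ?_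
    have hi' := Finset.mem_range.1 hi
    have e3 : m + 1 - 1 - (m + 1 - 1 - i) = i := by omega
    have e4 : n ^ i * X = X * n ^ i :=
      (Commute.pow_left (show Commute n X from hX.symm) i).eq
    rw [e3, ← mul_assoc, LinearMap.trace_mul_comm]
    congr 1
    calc n ^ i * (X * Y 0 * (n ^ (m + 1 - 1 - i) * Y s))
        = n ^ i * X * Y 0 * n ^ (m + 1 - 1 - i) * Y s := by noncomm_ring
      _ = X * n ^ i * Y 0 * n ^ (m + 1 - 1 - i) * Y s := by rw [e4]
      _ = _ := by noncomm_ring
  -- the functional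
  let Ψ : End L V →ₗ[L] L := LinearMap.trace L V ∘ₗ LinearMap.mulRight L (Y 0)
  have hΨ : ∀ X, Ψ X = LinearMap.trace L V (X * Y 0) := fun X => rfl
  have hN3 := D.hC.three_le
  have hnT : Commute n (T0 S) := D.nT
  have hcT : n ^ m * T0 S ^ (N - 1) * T0 S = (P (fun s => (a0 s : L)) * ζ) • n ^ m := by
    rw [mul_assoc, ← pow_succ, show N - 1 + 1 = N by omega, D.TN, mul_smul_comm, mul_add,
      mul_smul_comm, mul_one, ← pow_succ, D.hn, add_zero, smul_smul]
  have htn : LinearMap.trace L V (n ^ m) = 0 :=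
    trace_nil ⟨m + 1, by rw [← pow_mul, mul_comm, pow_mul, D.hn, zero_pow (by omega)]⟩
  have key := ident D.hN D.hR D.hT2 D.hC D.nil Ψ (c := n ^ m * T0 S ^ (N - 1))
    (fun s β hβ hβz => by
      have hβn := D.z_comm_iff hβz
      rw [hΨ, hYY s _ (by rw [mul_assoc, ← D.nS, ← mul_assoc, hβn, mul_assoc])]
      rw [mul_assoc, ← hY1, ← mul_assoc]
      exact trace_nil (nil_mul (D.hN.pow s) (by rw [mul_assoc, hY1, ← mul_assoc, hβ, mul_assoc])))
    (SA_mul (SA_pow D.nSA m) (SA_pow D.TSA (N - 1)) (hnT.pow_pow m (N - 1)).eq)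
    (by
      have e1 : Commute (n ^ m * T0 S ^ (N - 1)) (T0 S) :=
        Commute.mul_left (hnT.pow_left m) ((Commute.refl _).pow_left _)
      exact e1.eq)
    (by rw [hcT, map_smul, htn, smul_zero])
  rw [hcT, map_smul, smul_eq_mul, mul_eq_zero] at key
  have h1 := key.resolve_left (mul_ne_zero D.hP D.hζ)
  have h2 := Dp_trace n (m + 1) (Y 0)
  rw [hY2, LinearMap.trace_one, Nat.add_sub_cancel, ← hΨ, h1, mul_zero] at h2
  have h3 : finrank L V = 0 := by exact_mod_cast h2
  omega

end final

/-- **[S]** -/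
theorem stmtS {L : Type u} {V : Type v} [Field L] [CharZero L] [AddCommGroup V] [Module L V]
    [FiniteDimensional L V] {q : V →ₗ[L] V →ₗ[L] L} {S : Fin 3 → End L V} (hT2 : StmtT2 q S) :
    StmtS q S := by
  classical
  intro p hN hR N P z hC ζ hζ hz
  by_contra hne
  have hn0 : z - ζ • (1 : End L V) ≠ 0 := fun h => hne (sub_eq_zero.1 h)
  have hz' : ∃ r, (z - ζ • (1 : End L V)) ^ r = 0 := hz
  obtain ⟨r, hr⟩ : ∃ r, r = Nat.find hz' := ⟨_, rfl⟩
  have h1 : (z - ζ • (1 : End L V)) ^ r = 0 := by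
    rw [hr]
    exact Nat.find_spec hz'
  have h2 : ∀ k < r, (z - ζ • (1 : End L V)) ^ k ≠ 0 := fun k hk => by
    rw [hr] at hk
    exact Nat.find_min hz' hk
  have h3 : 2 ≤ r := by
    by_contra hlt
    have h4 : r = 0 ∨ r = 1 := by omega
    rcases h4 with rfl | rfl
    · rw [pow_zero] at h1
      apply hn0
      rw [← mul_one (z - ζ • (1 : End L V)), h1, mul_zero]
    · rw [pow_one] at h1
      exact hn0 h1
  exact Dat.false (q := q) (S := S) (p := p) (N := N) (P := P) (z := z)
    (n := z - ζ • (1 : End L V)) (ζ := ζ) (m := r - 1)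
    { hN := hN
      hR := hR
      hT2 := hT2
      hC := hC
      hζ := hζ
      hz := by abel
      hn := by rw [show r - 1 + 1 = r by omega, h1]
      hne := h2 _ (by omega) } (by omega)

end Vale.Agent.P182.H55
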