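import Vale.Agent.P182.H55.NullAsm
import Vale.Agent.P182.H258.RealR
import Vale.Agent.P182.H58.StructThm

/-!
# The honest null case for critical configurations
-/

namespace Vale.Agent.P182.H55

open Module Vale.Agent.P182.H533 Vale.Agent.P182.B1 Vale.Agent.P182.H578 Vale.Agent.P182.H922

universe u v w

variable {L : Type u} {V : Type v} {J : Type w} [Field L] [AddCommGroup V] [Module L V]
  [FiniteDimensional L V] [Fintype J] [DecidableEq J] {𝒟 : Cfg L V J}

/-- `D` is determined by the products `S_s D` -/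
theorem eq_of_S1_mul (hG : 𝒟.Good) {t : J → V} (C : Core 𝒟.q (Res 𝒟 t)) {D M : End L C.V1}
    (h : ∀ s, C.S1 hG.form s * D = C.S1 hG.form s * M) : D = M := by
  have hSA := Sop_SA 𝒟.arm hG.form (Tt L t) hG.skew
  ext v
  rw [← sub_eq_zero]
  have h1 : D v - M v ∈ ⨅ s, LinearMap.ker (C.S1 hG.form s) := by
    rw [Submodule.mem_iInf]
    intro s
    rw [LinearMap.mem_ker, map_sub, ← Module.End.mul_apply, ← Module.End.mul_apply, h, sub_self]
  rw [C.iInf_ker hG.form hSA, Submodule.mem_bot] at h1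
  rw [← Submodule.coe_sub, h1]
  rfl

/-- the core part of a second element of `K` (honest case) -/
theorem P_of_D (hG : 𝒟.Good) {t t' : J → V} (ht : Rel 𝒟 t t') (C : Core 𝒟.q (Res 𝒟 t))
    (hI : C.I = ⊥) {D : End L C.V1}
    (hD1 : ∀ s, C.res hG.form (opr 𝒟.q (Tt L t) (Gm 𝒟.arm 𝒟.Ω s) (Tt L t')) =
      C.S1 hG.form s * D) :
    ∀ l, C.P hG.form (t' l) = D (C.P hG.form (t l)) := by
  obtain ⟨M, -, -, h1, h2, -⟩ := core_eq hG ht C hI
  have h3 : D = M := eq_of_S1_mul hG C fun s => by rw [← hD1, h1]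
  rw [h3]
  exact h2

/-- `K` is spanned by `t` and `t'` -/
theorem span_of_D (hG : 𝒟.Good) (hd : finrank L 𝒟.K = 2) {t t' : J → V} (ht : t ∈ 𝒟.K)
    (ht' : t' ∈ 𝒟.K) (C : Core 𝒟.q (Res 𝒟 t)) {D : End L C.V1}
    (hD1 : ∀ s, C.res hG.form (opr 𝒟.q (Tt L t) (Gm 𝒟.arm 𝒟.Ω s) (Tt L t')) =
      C.S1 hG.form s * D)
    (he : ∃ a b : L, a ≠ b ∧ D.HasEigenvalue a ∧ D.HasEigenvalue b) :
    ∀ k ∈ 𝒟.K, ∃ a b : L, k = a • t + b • t' := by
  obtain ⟨a, b, hab, ha, hb⟩ := he
  -- `t'` is not a multiple of `t`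
  have key : ∀ c : L, t' ≠ c • t := by
    intro c hc
    have hDc : D = c • (1 : End L C.V1) := by
      refine eq_of_S1_mul hG C fun s => ?_
      rw [← hD1, hc, Tt_smul, opr_smul_right, C.res_smul, mul_smul_comm, mul_one]
      exact congrArg (c • ·) (C.res_S hG.form s)
    have h4 : ∀ e : L, D.HasEigenvalue e → e = c := by
      intro e he
      obtain ⟨v, hv⟩ := he.exists_hasEigenvector
      have h5 := hv.apply_eq_smul
      rw [hDc, LinearMap.smul_apply, Module.End.one_apply] at h5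
      have h6 : (e - c) • v = 0 := by rw [sub_smul, ← h5, sub_self]
      exact sub_eq_zero.mp ((smul_eq_zero.mp h6).resolve_right hv.2)
    exact hab ((h4 a ha).trans (h4 b hb).symm)
  have ht0 : t ≠ 0 := by
    rintro rfl
    -- then the core is trivial, but `D` has an eigenvector
    obtain ⟨v, hv⟩ := ha.exists_hasEigenvector
    apply hv.2
    have h1 : ∀ s, C.S1 hG.form s = 0 := by
      intro s
      refine LinearMap.ext fun w => ?_
      rw [C.S1_apply]
      have h2 : Res 𝒟 (0 : J → V) s (w : V) = 0 := by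
        have h3 : Tt L (0 : J → V) = 0 := LinearMap.ext fun x => by simp [Tt_apply]
        show opr 𝒟.q (Tt L (0 : J → V)) (Gm 𝒟.arm 𝒟.Ω s) (Tt L (0 : J → V)) (w : V) = 0
        rw [h3]
        have h4 := opr_smul_right 𝒟.q (0 : (J → L) →ₗ[L] V) (Gm 𝒟.arm 𝒟.Ω s) (0 : L)
          (0 : (J → L) →ₗ[L] V)
        rw [zero_smul, zero_smul] at h4
        rw [h4, LinearMap.zero_apply]
      rw [h2, map_zero, LinearMap.zero_apply]
    have h5 : D = 0 := eq_of_S1_mul hG C fun s => by rw [h1, zero_mul, zero_mul]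
    have h6 : (1 : End L C.V1) = 0 := eq_of_S1_mul hG C fun s => by rw [h1, zero_mul, zero_mul]
    have h7 : (1 : End L C.V1) v = 0 := by rw [h6]; rfl
    simpa using h7
  -- the two elements are a basis
  have hli : LinearIndependent L ![(⟨t, ht⟩ : 𝒟.K), ⟨t', ht'⟩] := by
    rw [LinearIndependent.pair_iff]
    intro x y hxy
    have h1 : x • t + y • t' = 0 := congrArg Subtype.val hxy
    have hy : y = 0 := by
      by_contra hy
      apply key (-(y⁻¹ * x))
      have h2 : y⁻¹ • (x • t + y • t') = 0 := by rw [h1, smul_zero]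
      rw [smul_add, smul_smul, smul_smul, inv_mul_cancel₀ hy, one_smul] at h2
      rw [neg_smul]
      exact (neg_eq_of_add_eq_zero_right h2).symm
    rw [hy, zero_smul, add_zero] at h1
    exact ⟨(smul_eq_zero.mp h1).resolve_right ht0, hy⟩
  intro k hk
  have hspan := hli.span_eq_top_of_card_eq_finrank' (by rw [hd]; simp)
  have h1 : (⟨k, hk⟩ : 𝒟.K) ∈ Submodule.span L (Set.range ![(⟨t, ht⟩ : 𝒟.K), ⟨t', ht'⟩]) := by
    rw [hspan]; trivial
  rw [Matrix.range_cons_cons_empty, Submodule.mem_span_pair] at h1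
  obtain ⟨x, y, hxy⟩ := h1
  exact ⟨x, y, (congrArg Subtype.val hxy).symm⟩

variable [IsAlgClosed L] [CharZero L]

/-- **The honest null case** for critical configurations: no mathematics is left besides (B) and
(G). -/
theorem null_honest_crit (h : CritN 𝒟) {t : J → V} (ht : MaxCoreC 𝒟 t) (hm : Moves 𝒟 t)
    (C : Core 𝒟.q (Res 𝒟 t)) (hI : C.I = ⊥) {t' : J → V} (ht' : t' ∈ 𝒟.K) {D : End L C.V1}
    (hDs : IsSA C.q1 D)
    (hD1 : ∀ s, C.res h.good.form (opr 𝒟.q (Tt L t) (Gm 𝒟.arm 𝒟.Ω s) (Tt L t')) =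
      C.S1 h.good.form s * D)
    (hD2 : ∀ s, C.res h.good.form (opr 𝒟.q (Tt L t) (Gm 𝒟.arm 𝒟.Ω s) (Tt L t')) =
      D * C.S1 h.good.form s)
    (he : ∃ a b : L, a ≠ b ∧ D.HasEigenvalue a ∧ D.HasEigenvalue b)
    {X : Set L} (hX : X.Infinite) (hXg : ∀ x ∈ X, GoodL h.good (t' := t') C D x)
    (hB : StB h.good t' C D) : ¬ NullCore C h.good.form := by
  intro hN
  have hrel := Rel_K h.good h.versal ht.1 ht'
  obtain ⟨p, hp⟩ := H258.nul_core h.good t C hN
  exact null_honest h.good h.versal two_ne_zero C hI hrel hDs (fun s => by rw [← hD2, ← hD1])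
    (P_of_D h.good hrel C hI hD1) he hN (span_of_D h.good h.dim ht.1 ht' C hD1 he)
    (H58.structThm _ _ _ p hp (H258.realS_core h.good h.versal ht.1 hm C)) hX hXg
    (fun x _ => Submodule.add_mem _ ht.1 (Submodule.smul_mem _ _ ht')) hB

end Vale.Agent.P182.H55
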