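import Vale.Agent.P182.H55.NullA
import Vale.Agent.P182.H922.NullL

/-!
# The end of the null case
-/

namespace Vale.Agent.P182.H55

open Module Vale.Agent.P182.H533 Vale.Agent.P182.B1 Vale.Agent.P182.H578 Vale.Agent.P182.H922

section gen

variable {L V : Type*} [Field L] [AddCommGroup V] [Module L V] [FiniteDimensional L V]

omit [FiniteDimensional L V] in
/-- a nonzero vector in a subspace stable under a nilpotent operator gives a kernel vector -/
theorem exists_ker_of_nil {S : End L V} (hS : IsNilpotent S) {U : Submodule L V}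
    (hU : ∀ v ∈ U, S v ∈ U) {v : V} (hv : v ∈ U) (hv0 : v ≠ 0) :
    ∃ w ∈ U, w ≠ 0 ∧ S w = 0 := by
  classical
  obtain ⟨m, hm⟩ := hS
  have hex : ∃ n, (S ^ n) v = 0 := ⟨m, by rw [hm]; rfl⟩
  obtain ⟨n, hn, hmin⟩ : ∃ n, (S ^ n) v = 0 ∧ ∀ k < n, (S ^ k) v ≠ 0 :=
    ⟨Nat.find hex, Nat.find_spec hex, fun k hk => Nat.find_min hex hk⟩
  cases n with
  | zero => exact absurd (by simpa using hn) hv0
  | succ n =>
    have hpow : ∀ k, (S ^ k) v ∈ U := by
      intro k
      induction k with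
      | zero => simpa using hv
      | succ k ih => rw [pow_succ', Module.End.mul_apply]; exact hU _ ih
    refine ⟨(S ^ n) v, hpow n, hmin n (Nat.lt_succ_self n), ?_⟩
    rw [← Module.End.mul_apply, ← pow_succ', hn]

/-- an operator commuting with a regular nilpotent one has at most one eigenvalue -/
theorem eig_eq_of_ker_one {S : End L V} (hS : IsNilpotent S)
    (hk : finrank L (LinearMap.ker S) = 1) {D : End L V} (hc : D * S = S * D) {a b : L}
    (ha : D.HasEigenvalue a) (hb : D.HasEigenvalue b) : a = b := by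
  have key : ∀ c : L, D.HasEigenvalue c → ∃ w, w ≠ 0 ∧ S w = 0 ∧ D w = c • w := by
    intro c hc'
    obtain ⟨v, hv⟩ := hc'.exists_hasEigenvector
    obtain ⟨w, h1, h2, h3⟩ := exists_ker_of_nil hS (U := D.eigenspace c) (fun u hu => by
      rw [Module.End.mem_eigenspace_iff] at hu ⊢
      rw [← Module.End.mul_apply, hc, Module.End.mul_apply, hu, map_smul]) hv.1 hv.2
    exact ⟨w, h2, h3, Module.End.mem_eigenspace_iff.mp h1⟩
  obtain ⟨w, hw0, hwS, hwD⟩ := key a ha
  obtain ⟨w', hw0', hwS', hwD'⟩ := key b hb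
  obtain ⟨c, hc1⟩ := exists_smul_eq_of_finrank_eq_one hk
    (x := (⟨w, LinearMap.mem_ker.mpr hwS⟩ : LinearMap.ker S))
    (fun h => hw0 (congrArg Subtype.val h)) ⟨w', LinearMap.mem_ker.mpr hwS'⟩
  have hc2 : c • w = w' := congrArg Subtype.val hc1
  rw [← hc2, map_smul, hwD, smul_comm] at hwD'
  have h1 : (a - b) • (c • w) = 0 := by rw [sub_smul, hwD', sub_self]
  rcases smul_eq_zero.mp h1 with h | h
  · exact sub_eq_zero.mp h
  · exact absurd (hc2 ▸ h) hw0'

/-- in small dimension the null type forces one eigenvalue -/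
theorem three_lt_of_two_eig {S : Fin 3 → End L V} {p : Fin 3 → ℕ} (hp : ∀ s, S s ^ p s = 0)
    (hfree : ∀ s, finrank L V = p s * finrank L (LinearMap.ker (S s)))
    (hsum : ∑ s, finrank L (LinearMap.ker (S s)) = finrank L V) {D : End L V}
    (hc : ∀ s, D * S s = S s * D) {a b : L} (hab : a ≠ b) (ha : D.HasEigenvalue a)
    (hb : D.HasEigenvalue b) : 3 < finrank L V := by
  by_contra hcon
  have hpos : 0 < finrank L V := by
    obtain ⟨v, hv⟩ := ha.exists_hasEigenvector
    have : Nontrivial V := ⟨⟨v, 0, hv.2⟩⟩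
    exact finrank_pos
  -- every `k_s` is positive and `p_s ≥ 2`
  have hkpos : ∀ s, 0 < finrank L (LinearMap.ker (S s)) := by
    intro s
    rcases Nat.eq_zero_or_pos (finrank L (LinearMap.ker (S s))) with h | h
    · have := hfree s
      rw [h, mul_zero] at this
      omega
    · exact h
  have hp2 : ∀ s, 2 ≤ p s := by
    intro s
    have h1 := hfree s
    have h2 : p s ≠ 0 := by
      rintro h
      rw [h, zero_mul] at h1
      omega
    have h3 : p s ≠ 1 := by
      rintro h
      rw [h, one_mul] at h1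
      rw [Fin.sum_univ_three] at hsum
      have := hkpos 0
      have := hkpos 1
      have := hkpos 2
      fin_cases s <;> simp at h1 <;> omega
    omega
  have hk1 : finrank L (LinearMap.ker (S 0)) = 1 := by
    have h1 := hfree 0
    have h2 := hp2 0
    have h3 := hkpos 0
    by_contra h
    have h4 : 2 ≤ finrank L (LinearMap.ker (S 0)) := by omega
    have h5 : 2 * 2 ≤ p 0 * finrank L (LinearMap.ker (S 0)) := Nat.mul_le_mul h2 h4
    omega
  exact hab (eig_eq_of_ker_one ⟨p 0, hp 0⟩ hk1 (hc 0) ha hb)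

/-- **(END)**, abstract form. -/
theorem null_end {q : V →ₗ[L] V →ₗ[L] L} (hq : IsForm q) (h2 : (2 : L) ≠ 0)
    {S : Fin 3 → End L V} (hS : ∀ s, IsSA q (S s)) {p : Fin 3 → ℕ} (hp : ∀ s, S s ^ p s = 0)
    (hfree : ∀ s, finrank L V = p s * finrank L (LinearMap.ker (S s)))
    (hsum : ∑ s, finrank L (LinearMap.ker (S s)) = finrank L V) (h3 : 3 < finrank L V)
    {H : Fin 3 → Submodule L (End L V)}
    (hABS : ∀ s, ∀ h : End L V, (∀ c, ∀ v ∈ LinearMap.range (S s ^ c),
      h v ∈ LinearMap.range (S s ^ c)) → h ∈ H s)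
    (hC : ∀ h : End L V, (∀ s, h ∈ H s) → IsSA q h) : False := by
  obtain ⟨A, hA0, hA1, hA2⟩ := exists_so_flags hq h2 hS hp hfree hsum h3
  have hSA := hC A fun s => hABS s A fun c v hv => hA2 s c v hv
  apply hA0
  ext v
  apply hq.ext
  intro w
  have e1 := hSA v w
  have e2 := hA1 v w
  rw [LinearMap.zero_apply, map_zero, LinearMap.zero_apply]
  have e3 : (2 : L) * q (A v) w = 0 := by linear_combination e1 + e2
  exact (mul_eq_zero.mp e3).resolve_left h2

end gen

section cfg

variable {L V J : Type*} [Field L] [AddCommGroup V] [Module L V] [FiniteDimensional L V]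
  [Fintype J] [DecidableEq J] {𝒟 : Cfg L V J}

/-- **(END)** for a configuration: the honest null case is impossible as soon as every
endomorphism of `V₁` preserving the flag of `S_s` belongs to `HH s`. -/
theorem null_end_cfg (hG : 𝒟.Good) (h2 : (2 : L) ≠ 0) {t t' : J → V}
    (C : Core 𝒟.q (Res 𝒟 t)) (hI : C.I = ⊥) (ht : Rel 𝒟 t t') {D : End L C.V1}
    (hDs : IsSA C.q1 D) (hDc : ∀ s, D * C.S1 hG.form s = C.S1 hG.form s * D)
    (hD : ∀ l, C.P hG.form (t' l) = D (C.P hG.form (t l)))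
    (he : ∃ a b : L, a ≠ b ∧ D.HasEigenvalue a ∧ D.HasEigenvalue b)
    (hN : NullCore C hG.form) (hK : ∀ k ∈ 𝒟.K, ∃ a b : L, k = a • t + b • t')
    (hABS : ∀ s, ∀ h : End L C.V1, (∀ c, ∀ v ∈ LinearMap.range (C.S1 hG.form s ^ c),
      h v ∈ LinearMap.range (C.S1 hG.form s ^ c)) → h ∈ HH hG C s) : False := by
  obtain ⟨p, hp, hfree, hsum⟩ := hN
  obtain ⟨a, b, hab, ha, hb⟩ := he
  have hSA : ∀ s, IsSA C.q1 (C.S1 hG.form s) := fun s =>
    C.S1_SA hG.form (Sop_SA 𝒟.arm hG.form (Tt L t) hG.skew) s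
  exact null_end (C.isForm hG.form) h2 hSA hp hfree hsum
    (three_lt_of_two_eig hp hfree hsum hDc hab ha hb) hABS
    fun h hh => HH_end hG C hI ht hDs hDc hD hK hh

end cfg

end Vale.Agent.P182.H55
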