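import Vale.Agent.P182.H55.FreeY
import Vale.Agent.P182.H55.NullA

/-!
# [S]: the count on the first level
-/

namespace Vale.Agent.P182.H55

open Module Vale.Agent.P182.H533 Vale.Agent.P182.H89

section rk

variable {L V : Type*} [Field L] [AddCommGroup V] [Module L V] [FiniteDimensional L V]

theorem finrank_map_add (A : End L V) (W : Submodule L V) :
    finrank L (W.map A) + finrank L ↥(LinearMap.ker A ⊓ W) = finrank L W := by
  have h1 := LinearMap.finrank_range_add_finrank_ker (A.domRestrict W)
  rw [LinearMap.range_domRestrict] at h1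
  have h2 : (LinearMap.ker (A.domRestrict W)).map W.subtype = LinearMap.ker A ⊓ W := by
    rw [LinearMap.ker_domRestrict, Submodule.map_comap_subtype, inf_comm]
  have h3 : finrank L ↥((LinearMap.ker (A.domRestrict W)).map W.subtype) =
      finrank L (LinearMap.ker (A.domRestrict W)) :=
    Submodule.finrank_map_subtype_eq W _
  rw [← h2, h3]
  exact h1

/-- the dimension if the kernel is in the last image -/
theorem finrank_of_ker {n : End L V} {m : ℕ} (hn : n ^ (m + 1) = 0)
    (hk : LinearMap.ker n ≤ LinearMap.range (n ^ m)) :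
    finrank L V = (m + 1) * finrank L (LinearMap.ker n) := by
  have key : ∀ i ≤ m + 1, finrank L V =
      finrank L (LinearMap.range (n ^ i)) + i * finrank L (LinearMap.ker n) := by
    intro i
    induction i with
    | zero =>
      intro _
      rw [pow_zero, Module.End.one_eq_id, LinearMap.range_id, finrank_top, zero_mul, add_zero]
    | succ i ih =>
      intro hi
      have h1 := finrank_map_add n (LinearMap.range (n ^ i))
      have h2 : (LinearMap.range (n ^ i)).map n = LinearMap.range (n ^ (i + 1)) := by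
        rw [pow_succ', Module.End.mul_eq_comp, LinearMap.range_comp]
      have h3 : LinearMap.ker n ⊓ LinearMap.range (n ^ i) = LinearMap.ker n := by
        rw [inf_eq_left]
        refine hk.trans ?_
        rintro _ ⟨x, rfl⟩
        refine ⟨(n ^ (m - i)) x, ?_⟩
        rw [← Module.End.mul_apply, ← pow_add]
        congr 2
        omega
      rw [h2, h3] at h1
      rw [ih (by omega), ← h1]
      ring
  have := key (m + 1) le_rfl
  rw [hn, LinearMap.range_zero, finrank_bot, zero_add] at this
  exact this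

/-- a nilpotent operator on an invariant subspace -/
theorem le_mul_ker {A : End L V} {p : ℕ} (hA : A ^ p = 0) {W : Submodule L V}
    (hW : ∀ w ∈ W, A w ∈ W) : finrank L W ≤ p * finrank L ↥(LinearMap.ker A ⊓ W) := by
  have hle : ∀ i, W.map (A ^ i) ≤ W := by
    intro i
    induction i with
    | zero =>
      rw [pow_zero, Module.End.one_eq_id, Submodule.map_id]
    | succ i ih =>
      rw [pow_succ', Module.End.mul_eq_comp, Submodule.map_comp]
      rintro _ ⟨x, hx, rfl⟩
      exact hW _ (ih hx)
  have key : ∀ i, finrank L W ≤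
      finrank L (W.map (A ^ i)) + i * finrank L ↥(LinearMap.ker A ⊓ W) := by
    intro i
    induction i with
    | zero => rw [pow_zero, Module.End.one_eq_id, Submodule.map_id, zero_mul, add_zero]
    | succ i ih =>
      have h1 := finrank_map_add A (W.map (A ^ i))
      have h2 : (W.map (A ^ i)).map A = W.map (A ^ (i + 1)) := by
        rw [pow_succ', Module.End.mul_eq_comp, Submodule.map_comp]
      have h3 : finrank L ↥(LinearMap.ker A ⊓ W.map (A ^ i)) ≤
          finrank L ↥(LinearMap.ker A ⊓ W) :=
        Submodule.finrank_mono (inf_le_inf_left _ (hle i))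
      rw [h2] at h1
      have h4 : (i + 1) * finrank L ↥(LinearMap.ker A ⊓ W) =
        i * finrank L ↥(LinearMap.ker A ⊓ W) + finrank L ↥(LinearMap.ker A ⊓ W) := by ring
      omega
  have := key p
  rw [hA, Submodule.map_zero, finrank_bot, zero_add] at this
  exact this

/-- the images of an exact configuration -/
theorem two_le_rk {S : Fin 3 → End L V} (hsum : ∑ s, S s = 0)
    (hker : ∀ x, (∀ s, S s x = 0) → x = 0) {M : Submodule L V}
    (hM : M ≤ ⨆ s, M.map (S s)) : 2 * finrank L M ≤ ∑ s, finrank L (M.map (S s)) := by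
  let φ : ((s : Fin 3) → M.map (S s)) →ₗ[L] V :=
    ∑ s, (M.map (S s)).subtype ∘ₗ LinearMap.proj s
  have hφ : ∀ y, φ y = ∑ s, (y s : V) := fun y => by
    show (∑ s, (M.map (S s)).subtype ∘ₗ LinearMap.proj s) y = _
    rw [LinearMap.sum_apply]
    rfl
  have h1 := LinearMap.finrank_range_add_finrank_ker φ
  rw [Module.finrank_pi_fintype] at h1
  have h2 : M ≤ LinearMap.range φ := by
    refine hM.trans (iSup_le fun s => ?_)
    intro y hy
    refine ⟨Pi.single s ⟨y, hy⟩, ?_⟩
    rw [hφ, Finset.sum_eq_single s]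
    · simp
    · intro t _ ht
      rw [Pi.single_eq_of_ne ht]
      rfl
    · intro h
      exact absurd (Finset.mem_univ s) h
  have h3 := Submodule.finrank_mono h2
  let ι : M →ₗ[L] LinearMap.ker φ := LinearMap.codRestrict _
    (LinearMap.pi fun s => LinearMap.codRestrict _ (S s ∘ₗ M.subtype)
      fun x => Submodule.mem_map_of_mem x.2) fun x => by
        rw [LinearMap.mem_ker, hφ]
        show ∑ s, S s (x : V) = 0
        rw [← LinearMap.sum_apply, hsum, LinearMap.zero_apply]
  have h4 : Function.Injective ι := by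
    rw [← LinearMap.ker_eq_bot, LinearMap.ker_eq_bot']
    intro x hx
    have h5 : (x : V) = 0 := hker x fun s => by
      have h6 := congrArg (fun w : LinearMap.ker φ => ((w : (s : Fin 3) → M.map (S s)) s : V)) hx
      exact h6
    exact Subtype.ext h5
  have h5 := LinearMap.finrank_le_finrank_of_injective h4
  omega

omit [FiniteDimensional L V] in
theorem nul_ker_zero {q : V →ₗ[L] V →ₗ[L] L} {S : Fin 3 → End L V} {p : Fin 3 → ℕ}
    (hN : Nul q S p) {x : V} (hx : ∀ s, S s x = 0) : x = 0 := by
  apply hN.form.nondeg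
  intro v
  have h1 : (⊤ : Submodule L V) ≤ LinearMap.ker (q x) := by
    rw [← hN.span]
    refine iSup_le fun s => ?_
    rintro _ ⟨y, rfl⟩
    rw [LinearMap.mem_ker, ← hN.sa s, hx s, map_zero, LinearMap.zero_apply]
  exact h1 (Submodule.mem_top (x := v))

/-- the count -/
theorem count {q : V →ₗ[L] V →ₗ[L] L} {S : Fin 3 → End L V} {p : Fin 3 → ℕ} (hN : Nul q S p)
    (hV : 0 < finrank L V) {n : End L V} (hn : ∀ s, n * S s = S s * n) (m : ℕ) (s : Fin 3) :
    p s * finrank L ↥(LinearMap.ker (S s) ⊓ LinearMap.range (n ^ m)) =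
      finrank L (LinearMap.range (n ^ m)) := by
  set M := LinearMap.range (n ^ m) with hM
  have hnm : ∀ s, ∀ x, (n ^ m) (S s x) = S s ((n ^ m) x) := fun s x =>
    LinearMap.congr_fun (Commute.pow_left (show Commute n (S s) from hn s) m).eq x
  have hMS : ∀ s, ∀ w ∈ M, S s w ∈ M := by
    rintro s _ ⟨x, rfl⟩
    exact ⟨S s x, hnm s x⟩
  have hle : M ≤ ⨆ s, M.map (S s) := by
    have h1 : M = (⨆ s, LinearMap.range (S s)).map (n ^ m) := by
      rw [hN.span, Submodule.map_top]
    have h2 : ⨆ s, (LinearMap.range (S s)).map (n ^ m) ≤ ⨆ s, M.map (S s) := by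
      refine iSup_mono fun s => ?_
      rintro _ ⟨_, ⟨y, rfl⟩, rfl⟩
      exact ⟨(n ^ m) y, ⟨y, rfl⟩, (hnm s y).symm⟩
    rw [← Submodule.map_iSup, ← h1] at h2
    exact h2
  have h1 := two_le_rk hN.sum (fun x hx => nul_ker_zero hN hx) hle
  have h2 : ∀ s, finrank L (M.map (S s)) + finrank L ↥(LinearMap.ker (S s) ⊓ M) = finrank L M :=
    fun s => finrank_map_add (S s) M
  have h3 : ∀ s, finrank L M ≤ p s * finrank L ↥(LinearMap.ker (S s) ⊓ M) :=
    fun s => le_mul_ker (hN.pow s) (hMS s)
  have h4 := hN.rk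
  have h5 := hN.tot
  rw [Fin.sum_univ_three] at h1 h5
  -- `k_s v ≤ D κ_s`
  set v := finrank L M
  set D := finrank L V
  have h6 : ∀ s, finrank L (LinearMap.ker (S s)) * v ≤
      D * finrank L ↥(LinearMap.ker (S s) ⊓ M) := fun s => by
    have e1 : D * finrank L ↥(LinearMap.ker (S s) ⊓ M) = finrank L (LinearMap.ker (S s)) *
        (p s * finrank L ↥(LinearMap.ker (S s) ⊓ M)) := by
      rw [h4 s]
      ring
    rw [e1]
    exact Nat.mul_le_mul_left _ (h3 s)
  have h7 : finrank L ↥(LinearMap.ker (S 0) ⊓ M) + finrank L ↥(LinearMap.ker (S 1) ⊓ M) +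
      finrank L ↥(LinearMap.ker (S 2) ⊓ M) ≤ v := by
    have a0 := h2 0
    have a1 := h2 1
    have a2 := h2 2
    omega
  have h8 : ∀ s, finrank L (LinearMap.ker (S s)) * v =
      D * finrank L ↥(LinearMap.ker (S s) ⊓ M) := by
    have a0 := h6 0
    have a1 := h6 1
    have a2 := h6 2
    have a3 := Nat.mul_le_mul_left D h7
    have a4 : D * v = finrank L (LinearMap.ker (S 0)) * v + finrank L (LinearMap.ker (S 1)) * v +
        finrank L (LinearMap.ker (S 2)) * v := by
      rw [← h5]
      ring
    rw [mul_add, mul_add] at a3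
    intro s
    fin_cases s
    · show finrank L (LinearMap.ker (S 0)) * v = D * finrank L ↥(LinearMap.ker (S 0) ⊓ M)
      omega
    · show finrank L (LinearMap.ker (S 1)) * v = D * finrank L ↥(LinearMap.ker (S 1) ⊓ M)
      omega
    · show finrank L (LinearMap.ker (S 2)) * v = D * finrank L ↥(LinearMap.ker (S 2) ⊓ M)
      omega
  have h9 : finrank L (LinearMap.ker (S s)) * (p s * finrank L ↥(LinearMap.ker (S s) ⊓ M)) =
      finrank L (LinearMap.ker (S s)) * v := by
    have e1 : D * finrank L ↥(LinearMap.ker (S s) ⊓ M) = finrank L (LinearMap.ker (S s)) *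
        (p s * finrank L ↥(LinearMap.ker (S s) ⊓ M)) := by
      rw [h4 s]
      ring
    rw [← e1, h8 s]
  have h10 : 0 < finrank L (LinearMap.ker (S s)) := by
    rw [Nat.pos_iff_ne_zero]
    intro h0
    have := h4 s
    rw [h0, mul_zero] at this
    omega
  exact Nat.eq_of_mul_eq_mul_left h10 h9

end rk

end Vale.Agent.P182.H55
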