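import Vale.Agent.P182.H89.Struct
import Vale.Agent.P182.H89.Level

/-!
# [S]: the centre is semisimple
-/

namespace Vale.Agent.P182.H55

open Module Vale.Agent.P182.H533 Vale.Agent.P182.H89

section gen

variable {L V : Type*} [Field L] [AddCommGroup V] [Module L V]

theorem SA_add {q : V →ₗ[L] V →ₗ[L] L} {A B : End L V} (hA : IsSA q A) (hB : IsSA q B) :
    IsSA q (A + B) := fun u v => by
  rw [LinearMap.add_apply, LinearMap.add_apply, map_add, map_add, LinearMap.add_apply, hA, hB]

theorem SA_smul {q : V →ₗ[L] V →ₗ[L] L} {A : End L V} (hA : IsSA q A) (c : L) :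
    IsSA q (c • A) := fun u v => by
  rw [LinearMap.smul_apply, LinearMap.smul_apply, map_smul, map_smul, LinearMap.smul_apply, hA]

theorem SA_sub {q : V →ₗ[L] V →ₗ[L] L} {A B : End L V} (hA : IsSA q A) (hB : IsSA q B) :
    IsSA q (A - B) := fun u v => by
  rw [LinearMap.sub_apply, LinearMap.sub_apply, map_sub, map_sub, LinearMap.sub_apply, hA, hB]

theorem SA_one {q : V →ₗ[L] V →ₗ[L] L} : IsSA q (1 : End L V) := fun _ _ => rfl

theorem SA_mul {q : V →ₗ[L] V →ₗ[L] L} {A B : End L V} (hA : IsSA q A) (hB : IsSA q B)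
    (h : A * B = B * A) : IsSA q (A * B) := fun u v => by
  rw [Module.End.mul_apply, hA, hB, h]
  rfl

theorem SA_sum {ι : Type*} {q : V →ₗ[L] V →ₗ[L] L} (s : Finset ι) {A : ι → End L V}
    (hA : ∀ i ∈ s, IsSA q (A i)) : IsSA q (∑ i ∈ s, A i) := fun u v => by
  rw [LinearMap.sum_apply, LinearMap.sum_apply, map_sum, map_sum, LinearMap.sum_apply]
  exact Finset.sum_congr rfl fun i hi => hA i hi u v

/-- `∑ A^i X A^(r-1-i)` -/
def Dp (A : End L V) (r : ℕ) (X : End L V) : End L V :=
  ∑ i ∈ Finset.range r, A ^ i * X * A ^ (r - 1 - i)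

theorem Dp_comm (A : End L V) (r : ℕ) (X : End L V) :
    A * Dp A r X - Dp A r X * A = A ^ r * X - X * A ^ r := by
  induction r with
  | zero => simp [Dp]
  | succ r ih =>
    have h1 : Dp A (r + 1) X = Dp A r X * A + A ^ r * X := by
      unfold Dp
      rw [Finset.sum_range_succ, Finset.sum_mul]
      congr 1
      · refine Finset.sum_congr rfl fun i hi => ?_
        have := Finset.mem_range.1 hi
        rw [mul_assoc (A ^ i * X), ← pow_succ, show r + 1 - 1 - i = r - 1 - i + 1 by omega]
      · simp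
    have h2 : A * Dp A r X = Dp A r X * A + (A ^ r * X - X * A ^ r) := by
      rw [← ih]
      abel
    have e1 : A ^ (r + 1) * X = A * A ^ r * X := by rw [pow_succ']
    have e2 : X * A ^ (r + 1) = X * (A ^ r * A) := by rw [pow_succ]
    rw [h1, mul_add, ← mul_assoc A (Dp A r X) A, h2, e1, e2]
    noncomm_ring

theorem Dp_SA {q : V →ₗ[L] V →ₗ[L] L} {A X : End L V} (hA : IsSA q A) (hX : IsSA q X) (r : ℕ) :
    IsSA q (Dp A r X) := by
  intro u v
  unfold Dp
  rw [LinearMap.sum_apply, LinearMap.sum_apply, map_sum, map_sum, LinearMap.sum_apply,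
    ← Finset.sum_range_reflect]
  refine Finset.sum_congr rfl fun i hi => ?_
  have := Finset.mem_range.1 hi
  rw [Module.End.mul_apply, Module.End.mul_apply, Module.End.mul_apply, Module.End.mul_apply,
    SA_pow hA, hX, SA_pow hA, show r - 1 - (r - 1 - i) = i by omega]

theorem Dp_trace [FiniteDimensional L V] (A : End L V) (r : ℕ) (X : End L V) :
    LinearMap.trace L V (Dp A r X) = r * LinearMap.trace L V (A ^ (r - 1) * X) := by
  unfold Dp
  rw [map_sum, Finset.sum_congr rfl (g := fun _ => LinearMap.trace L V (A ^ (r - 1) * X)),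
    Finset.sum_const, Finset.card_range, nsmul_eq_mul]
  intro i hi
  have := Finset.mem_range.1 hi
  rw [LinearMap.trace_mul_comm, ← mul_assoc, ← pow_add, show r - 1 - i + i = r - 1 by omega]

theorem Dp_mul_comm {A B : End L V} (h : A * B = B * A) (r : ℕ) (X : End L V) :
    B * Dp A r X - Dp A r X * B = Dp A r (B * X - X * B) := by
  have hB : ∀ i, A ^ i * B = B * A ^ i := fun i => (Commute.pow_left h i).eq
  unfold Dp
  rw [Finset.mul_sum, Finset.sum_mul, ← Finset.sum_sub_distrib]
  refine Finset.sum_congr rfl fun i _ => ?_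
  have e1 : B * (A ^ i * X * A ^ (r - 1 - i)) = A ^ i * (B * X) * A ^ (r - 1 - i) := by
    rw [← mul_assoc, ← mul_assoc, ← hB, mul_assoc (A ^ i) B X]
  have e2 : A ^ i * X * A ^ (r - 1 - i) * B = A ^ i * (X * B) * A ^ (r - 1 - i) := by
    rw [mul_assoc, hB, ← mul_assoc, mul_assoc (A ^ i) X B]
  rw [e1, e2, mul_sub, sub_mul]

theorem Dp_mul_right_zero {A B : End L V} (h : A * B = B * A) (r : ℕ) {X : End L V}
    (hX : X * B = 0) : Dp A r X * B = 0 := by
  have hB : ∀ i, A ^ i * B = B * A ^ i := fun i => (Commute.pow_left h i).eq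
  unfold Dp
  rw [Finset.sum_mul]
  refine Finset.sum_eq_zero fun i _ => ?_
  rw [mul_assoc, hB, ← mul_assoc, mul_assoc _ X B, hX, mul_zero, zero_mul]

theorem trace_nil [FiniteDimensional L V] {A : End L V} (h : IsNilpotent A) :
    LinearMap.trace L V A = 0 :=
  (LinearMap.isNilpotent_trace_of_isNilpotent h).eq_zero

/-- the product of a nilpotent operator and an operator commuting with it -/
theorem nil_mul {A B : End L V} {r : ℕ} (hA : A ^ r = 0) (h : B * A = A * B) :
    IsNilpotent (B * A) := by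
  refine ⟨r, ?_⟩
  rw [(show Commute B A from h).mul_pow, hA, mul_zero]

/-- the trace on an invariant subspace, as a functional on all endomorphisms -/
theorem exists_trOn [FiniteDimensional L V] (M : Submodule L V) :
    ∃ Ψ : End L V →ₗ[L] L, Ψ 1 = finrank L M ∧ (∀ X, (∀ x ∈ M, X x = 0) → Ψ X = 0) ∧
      ∀ X, (∀ x ∈ M, X x ∈ M) → IsNilpotent X → Ψ X = 0 := by
  obtain ⟨π, hπ⟩ := M.subtype.exists_leftInverse_of_injective (by
    rw [LinearMap.ker_eq_bot]
    exact M.subtype_injective)
  have hπ' : ∀ x : M, π x = x := fun x => LinearMap.congr_fun hπ x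
  let Φ : End L V →ₗ[L] End L M :=
    { toFun := fun X => π ∘ₗ X ∘ₗ M.subtype
      map_add' := fun X Y => by
        ext x
        simp
      map_smul' := fun a X => by
        ext x
        simp }
  have hΦ : ∀ X x, Φ X x = π (X x) := fun X x => rfl
  refine ⟨LinearMap.trace L M ∘ₗ Φ, ?_, fun X hX => ?_, fun X hX hn => ?_⟩
  · have : Φ 1 = 1 := by
      ext x
      rw [hΦ]
      simp [hπ']
    rw [LinearMap.comp_apply, this, LinearMap.trace_one]
  · have : Φ X = 0 := by
      ext x
      rw [hΦ, hX x x.2]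
      simp
    rw [LinearMap.comp_apply, this, map_zero]
  · obtain ⟨r, hr⟩ := hn
    rw [LinearMap.comp_apply]
    apply trace_nil
    refine ⟨r, ?_⟩
    have h1 : ∀ i, ∀ x : M, ((Φ X ^ i) x : V) = (X ^ i) x := by
      intro i
      induction i with
      | zero => intro x; rfl
      | succ i ih =>
        intro x
        rw [pow_succ', pow_succ', Module.End.mul_apply, Module.End.mul_apply, hΦ, ih]
        have h2 : X ((X ^ i) x) ∈ M := by
          rw [← ih]
          exact hX _ ((Φ X ^ i) x).2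
        rw [hπ' ⟨_, h2⟩]
    ext x
    rw [h1, hr]
    simp

end gen

section ident

variable {L : Type*} {V : Type*} [Field L] [CharZero L] [AddCommGroup V] [Module L V]
  [FiniteDimensional L V]

/-- the integers `0, 1, 2` -/
def a0 (s : Fin 3) : ℤ := ((s : ℕ) : ℤ)

theorem a0_inj : Function.Injective a0 := fun s t h => by
  unfold a0 at h
  exact Fin.ext (by exact_mod_cast h)

/-- `T = S_1 + 2 S_2` -/
def T0 (S : Fin 3 → End L V) : End L V := Ta S (fun s => (a0 s : L))

omit [CharZero L] [FiniteDimensional L V] in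
theorem SA_Ta {q : V →ₗ[L] V →ₗ[L] L} {S : Fin 3 → End L V} (hS : ∀ s, IsSA q (S s))
    (a : Fin 3 → L) : IsSA q (Ta S a) :=
  SA_sum _ fun s _ => SA_smul (hS s) (a s)

omit [FiniteDimensional L V] in
/-- commutation with the centre -/
theorem comm_z {S : Fin 3 → End L V} {N : ℕ} {P : (Fin 3 → L) → L} {z : End L V}
    (hC : Cen S N P z) (hsum : ∑ s, S s = 0) {B c : End L V}
    (hB : ∀ s, (B - (a0 s : L) • c) * S s = S s * (B - (a0 s : L) • c)) :
    B * z = z * B ∧ c * z = z * c := by
  have key : ∀ k : ℕ, (B + ((1 + k : ℕ) : L) • c) * z = z * (B + ((1 + k : ℕ) : L) • c) := by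
    intro k
    set x : L := ((1 + k : ℕ) : L) with hx
    have hne : ∀ s : Fin 3, (a0 s : L) + x ≠ 0 := fun s => by
      have : (a0 s : L) + x = (((s : ℕ) + (1 + k) : ℕ) : L) := by
        rw [hx, a0]
        push_cast
        ring
      rw [this]
      exact_mod_cast (by omega : (s : ℕ) + (1 + k) ≠ 0)
    let b : Fin 3 → L := fun s => ((a0 s : L) + x)⁻¹
    have hb : Function.Injective b := fun s t h => by
      have h1 : (a0 s : L) + x = (a0 t : L) + x := inv_injective h
      have h2 : (a0 s : L) = (a0 t : L) := add_right_cancel h1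
      exact a0_inj (by exact_mod_cast h2)
    have e1 : ∀ s, (B + x • c) * (b s • S s) - (b s • S s) * (B + x • c) = c * S s - S s * c := by
      intro s
      have e2 : B + x • c = (B - (a0 s : L) • c) + ((a0 s : L) + x) • c := by
        rw [add_smul]
        abel
      have e3 : b s * ((a0 s : L) + x) = 1 := inv_mul_cancel₀ (hne s)
      rw [e2, add_mul, mul_add, mul_smul_comm, hB s, smul_mul_assoc, mul_smul_comm, smul_mul_assoc,
        smul_mul_assoc, mul_smul_comm, smul_smul, smul_smul, mul_comm _ (b s), e3, one_smul,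
        one_smul]
      abel
    have e4 : (B + x • c) * Ta S b = Ta S b * (B + x • c) := by
      rw [← sub_eq_zero]
      unfold Ta
      rw [Finset.mul_sum, Finset.sum_mul, ← Finset.sum_sub_distrib,
        Finset.sum_congr rfl fun s _ => e1 s, Finset.sum_sub_distrib, ← Finset.mul_sum,
        ← Finset.sum_mul, hsum, mul_zero, zero_mul, sub_zero]
    have e5 : (B + x • c) * Ta S b ^ N = Ta S b ^ N * (B + x • c) :=
      (Commute.pow_right (show Commute (B + x • c) (Ta S b) from e4) N).eq
    rw [hC.pow, mul_smul_comm, smul_mul_assoc] at e5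
    exact smul_right_injective _ (hC.ne b hb) e5
  have k0 := key 0
  have k1 := key 1
  have hc : c * z = z * c := by
    have e1 : c = (B + ((1 + 1 : ℕ) : L) • c) - (B + ((1 + 0 : ℕ) : L) • c) := by
      have : ((1 + 1 : ℕ) : L) • c = c + c := by
        rw [Nat.cast_add, Nat.cast_one, add_smul, one_smul]
      rw [this, Nat.cast_add, Nat.cast_one, Nat.cast_zero, add_zero, one_smul]
      abel
    calc c * z = (B + ((1 + 1 : ℕ) : L) • c) * z - (B + ((1 + 0 : ℕ) : L) • c) * z := by
          rw [← sub_mul, ← e1]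
      _ = z * (B + ((1 + 1 : ℕ) : L) • c) - z * (B + ((1 + 0 : ℕ) : L) • c) := by rw [k0, k1]
      _ = z * c := by rw [← mul_sub, ← e1]
  refine ⟨?_, hc⟩
  rw [add_mul, mul_add, smul_mul_assoc, mul_smul_comm, hc] at k0
  exact add_right_cancel k0

omit [FiniteDimensional L V] in
/-- the trace identity -/
theorem ident {q : V →ₗ[L] V →ₗ[L] L} {S : Fin 3 → End L V} {p : Fin 3 → ℕ} (hN : Nul q S p)
    (hR : RealS q S) (hT2 : StmtT2 q S) {N : ℕ} {P : (Fin 3 → L) → L} {z : End L V}
    (hC : Cen S N P z) {ζ : L} (hz : IsNilpotent (z - ζ • (1 : End L V))) (Ψ : End L V →ₗ[L] L)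
    (hΨ : ∀ s β, β * S s = S s * β → β * z = z * β → Ψ (β * S s) = 0) {c : End L V}
    (hc : IsSA q c) (hcT : c * T0 S = T0 S * c) (htr : LinearMap.trace L V (c * T0 S) = 0) :
    Ψ (c * T0 S) = 0 := by
  obtain ⟨B, -, hB⟩ := hT2 p hN hR N P z hC ζ hz a0 a0_inj c hc hcT htr
  obtain ⟨hBz, hcz⟩ := comm_z hC hN.sum hB
  have h1 : ∀ s, Ψ ((a0 s : L) • (c * S s)) = Ψ (B * S s) := fun s => by
    have h2 := hΨ s (B - (a0 s : L) • c) (hB s) (by
      rw [sub_mul, mul_sub, smul_mul_assoc, mul_smul_comm, hBz, hcz])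
    rw [sub_mul, map_sub, smul_mul_assoc, sub_eq_zero] at h2
    exact h2.symm
  have h3 : c * T0 S = ∑ s, (a0 s : L) • (c * S s) := by
    unfold T0 Ta
    rw [Finset.mul_sum]
    exact Finset.sum_congr rfl fun s _ => mul_smul_comm _ _ _
  rw [h3, map_sum, Finset.sum_congr rfl fun s _ => h1 s, ← map_sum, ← Finset.mul_sum, hN.sum,
    mul_zero, map_zero]

end ident

end Vale.Agent.P182.H55
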